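import Mathlib.Topology.ContinuousMap.Weierstrass
import Mathlib.Topology.ContinuousMap.Compact
import Mathlib.Analysis.Calculus.Deriv.Polynomial
import Mathlib.Analysis.Calculus.MeanValue
import Mathlib.Analysis.Calculus.LocalExtr.Basic
import Mathlib.Analysis.Calculus.DerivativeTest
import Mathlib.MeasureTheory.Integral.IntervalIntegral.FundThmCalculus
import Mathlib.MeasureTheory.Integral.DominatedConvergence

/-!
Continuous functions on `[0,1]`, the relation `g = f'`, and smooth elements.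
-/

namespace Vale.Agent.P244Z.Ex

open Set MeasureTheory Filter Topology

/-- Continuous real functions on `[0,1]` with the sup norm. -/
abbrev CI : Type := C(Set.Icc (0 : ℝ) 1, ℝ)

/-- The extension of a function on `[0,1]` to the line, constant outside `[0,1]`. -/
noncomputable def ex (f : CI) : ℝ → ℝ := Set.IccExtend zero_le_one f

theorem ex_continuous (f : CI) : Continuous (ex f) := f.continuous.Icc_extend'

theorem ex_of_mem (f : CI) {x : ℝ} (hx : x ∈ Icc (0 : ℝ) 1) : ex f x = f ⟨x, hx⟩ :=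
  Set.IccExtend_of_mem _ _ hx

@[simp] theorem ex_coe (f : CI) (x : Icc (0 : ℝ) 1) : ex f x = f x := ex_of_mem f x.2

theorem ex_eq (f : CI) (x : ℝ) : ex f x = f (Set.projIcc 0 1 zero_le_one x) := rfl

@[simp] theorem ex_add (f g : CI) (x : ℝ) : ex (f + g) x = ex f x + ex g x := rfl
@[simp] theorem ex_sub (f g : CI) (x : ℝ) : ex (f - g) x = ex f x - ex g x := rfl
@[simp] theorem ex_neg (f : CI) (x : ℝ) : ex (-f) x = -ex f x := rfl
@[simp] theorem ex_mul (f g : CI) (x : ℝ) : ex (f * g) x = ex f x * ex g x := rfl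
@[simp] theorem ex_smul (c : ℝ) (f : CI) (x : ℝ) : ex (c • f) x = c * ex f x := rfl
@[simp] theorem ex_zero (x : ℝ) : ex (0 : CI) x = 0 := rfl
@[simp] theorem ex_one (x : ℝ) : ex (1 : CI) x = 1 := rfl
@[simp] theorem ex_const (c x : ℝ) : ex (ContinuousMap.const _ c) x = c := rfl

theorem abs_ex_le (f : CI) (x : ℝ) : |ex f x| ≤ ‖f‖ := f.norm_coe_le_norm _

theorem norm_le_of_ex {f : CI} {C : ℝ} (h : ∀ x ∈ Icc (0 : ℝ) 1, |ex f x| ≤ C) : ‖f‖ ≤ C := by
  have h0 : 0 ≤ C := (abs_nonneg _).trans (h 0 ⟨le_rfl, zero_le_one⟩)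
  refine (ContinuousMap.norm_le _ h0).2 fun x => ?_
  have := h x x.2
  rwa [ex_coe] at this

theorem ext_ex {f g : CI} (h : ∀ x ∈ Icc (0 : ℝ) 1, ex f x = ex g x) : f = g := by
  ext x
  have := h x x.2
  rwa [ex_coe, ex_coe] at this

/-- Evaluation of the extension is a continuous linear functional. -/
noncomputable def exL (x : ℝ) : CI →L[ℝ] ℝ :=
  ContinuousMap.evalCLM ℝ (Set.projIcc 0 1 zero_le_one x)

@[simp] theorem exL_apply (x : ℝ) (f : CI) : exL x f = ex f x := rfl

theorem continuous_ex_uncurry : Continuous fun z : CI × ℝ => ex z.1 z.2 := by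
  simp only [ex_eq]
  have h : Continuous fun z : CI × ℝ => (z.1, Set.projIcc (0 : ℝ) 1 zero_le_one z.2) :=
    continuous_fst.prodMk (continuous_projIcc.comp continuous_snd)
  exact continuous_eval.comp h

/-- `g` is the derivative of `f` on `[0,1]`. -/
def IsD (f g : CI) : Prop :=
  ∀ x ∈ Icc (0 : ℝ) 1, HasDerivWithinAt (ex f) (ex g x) (Icc 0 1) x

theorem IsD.unique {f g h : CI} (h1 : IsD f g) (h2 : IsD f h) : g = h :=
  ext_ex fun x hx => (uniqueDiffOn_Icc zero_lt_one x hx).eq_deriv _ (h1 x hx) (h2 x hx)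

theorem IsD.hasDerivAt {f g : CI} (h : IsD f g) {x : ℝ} (hx : x ∈ Ioo (0 : ℝ) 1) :
    HasDerivAt (ex f) (ex g x) x :=
  (h x (Ioo_subset_Icc_self hx)).hasDerivAt (Icc_mem_nhds hx.1 hx.2)

theorem IsD.add {f g f' g' : CI} (h1 : IsD f f') (h2 : IsD g g') : IsD (f + g) (f' + g') :=
  fun x hx => (h1 x hx).add (h2 x hx)

theorem IsD.neg {f f' : CI} (h1 : IsD f f') : IsD (-f) (-f') :=
  fun x hx => (h1 x hx).neg

theorem IsD.sub {f g f' g' : CI} (h1 : IsD f f') (h2 : IsD g g') : IsD (f - g) (f' - g') :=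
  fun x hx => (h1 x hx).sub (h2 x hx)

theorem IsD.smul {f f' : CI} (c : ℝ) (h1 : IsD f f') : IsD (c • f) (c • f') :=
  fun x hx => (h1 x hx).const_mul c

theorem IsD.mul {f g f' g' : CI} (h1 : IsD f f') (h2 : IsD g g') :
    IsD (f * g) (f' * g + f * g') :=
  fun x hx => (h1 x hx).mul (h2 x hx)

theorem isD_const (c : ℝ) : IsD (ContinuousMap.const _ c) 0 :=
  fun x _ => hasDerivWithinAt_const x _ c

theorem isD_zero : IsD 0 0 := isD_const 0

theorem isD_one : IsD 1 0 := isD_const 1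

/-- The primitive vanishing at `0`, as a linear map. -/
noncomputable def primL : CI →ₗ[ℝ] CI where
  toFun g := ⟨fun x => ∫ s in (0 : ℝ)..x, ex g s,
    (intervalIntegral.continuous_primitive
      (fun a b => (ex_continuous g).intervalIntegrable a b) 0).comp continuous_subtype_val⟩
  map_add' f g := by
    ext x
    exact intervalIntegral.integral_add ((ex_continuous f).intervalIntegrable _ _)
      ((ex_continuous g).intervalIntegrable _ _)
  map_smul' c f := by
    ext x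
    exact intervalIntegral.integral_const_mul c (ex f)

theorem norm_primL_le (g : CI) : ‖primL g‖ ≤ 1 * ‖g‖ := by
  refine (ContinuousMap.norm_le _ (by positivity)).2 fun x => ?_
  have h := intervalIntegral.norm_integral_le_of_norm_le_const (a := 0) (b := (x : ℝ))
    (f := ex g) (C := ‖g‖) (fun s _ => abs_ex_le g s)
  refine h.trans ?_
  rw [sub_zero, abs_of_nonneg x.2.1, one_mul]
  exact mul_le_of_le_one_right (norm_nonneg _) x.2.2

/-- The primitive vanishing at `0`. -/
noncomputable def prim : CI →L[ℝ] CI := primL.mkContinuous 1 norm_primL_le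

theorem ex_prim (g : CI) {x : ℝ} (hx : x ∈ Icc (0 : ℝ) 1) :
    ex (prim g) x = ∫ s in (0 : ℝ)..x, ex g s := by
  rw [ex_of_mem _ hx]; rfl

theorem isD_prim (g : CI) : IsD (prim g) g := by
  intro x hx
  have h : HasDerivAt (fun y => ∫ s in (0 : ℝ)..y, ex g s) (ex g x) x :=
    ((ex_continuous g).integral_hasStrictDerivAt 0 x).hasDerivAt
  exact h.hasDerivWithinAt.congr (fun y hy => ex_prim g hy) (ex_prim g hx)

/-- The constant function with the value at `0`. -/
noncomputable def ev0 : CI →L[ℝ] CI :=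
  (ContinuousLinearMap.const ℝ (Icc (0 : ℝ) 1)).comp (exL 0)

theorem ev0_apply (f : CI) : ev0 f = ContinuousMap.const _ (ex f 0) := rfl

theorem IsD.eq_prim {f g : CI} (h : IsD f g) : f = ev0 f + prim g := by
  have h2 : IsD (f - prim g) 0 := by simpa using h.sub (isD_prim g)
  refine ext_ex fun x hx => ?_
  have h3 := constant_of_derivWithin_zero (f := ex (f - prim g)) (a := 0) (b := 1)
    (fun y hy => (h2 y hy).differentiableWithinAt)
    (fun y hy => (h2 y (Ico_subset_Icc_self hy)).derivWithin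
      (uniqueDiffOn_Icc zero_lt_one y (Ico_subset_Icc_self hy))) x hx
  have h4 : ex (prim g) 0 = 0 := by rw [ex_prim g ⟨le_rfl, zero_le_one⟩]; simp
  simp only [ex_sub, h4, sub_zero] at h3
  rw [ex_add, ev0_apply, ex_const]
  linarith

theorem isD_iff {f g : CI} : IsD f g ↔ f = ev0 f + prim g := by
  refine ⟨IsD.eq_prim, fun h => ?_⟩
  rw [h, ev0_apply]
  simpa using (isD_const (ex f 0)).add (isD_prim g)

theorem isClosed_isD : IsClosed {z : CI × CI | IsD z.1 z.2} := by
  simp only [isD_iff]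
  exact isClosed_eq continuous_fst
    ((ev0.continuous.comp continuous_fst).add (prim.continuous.comp continuous_snd))

theorem IsD.of_tendsto {ι : Type*} {l : Filter ι} [l.NeBot] {f g : ι → CI} {f₀ g₀ : CI}
    (h : ∀ᶠ i in l, IsD (f i) (g i)) (hf : Tendsto f l (𝓝 f₀)) (hg : Tendsto g l (𝓝 g₀)) :
    IsD f₀ g₀ :=
  isClosed_isD.mem_of_tendsto (hf.prodMk_nhds hg) h

theorem clm_intervalIntegrable {E F : Type*} [NormedAddCommGroup E] [NormedSpace ℝ E]
    [NormedAddCommGroup F] [NormedSpace ℝ F] (T : E →L[ℝ] F) {f : ℝ → E} {a b : ℝ}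
    (hf : IntervalIntegrable f volume a b) : IntervalIntegrable (fun s => T (f s)) volume a b :=
  ⟨T.integrable_comp hf.1, T.integrable_comp hf.2⟩

theorem IsD.integral {f g : ℝ → CI} {a b : ℝ} (hf : IntervalIntegrable f volume a b)
    (hg : IntervalIntegrable g volume a b) (h : ∀ s ∈ uIcc a b, IsD (f s) (g s)) :
    IsD (∫ s in a..b, f s) (∫ s in a..b, g s) := by
  rw [isD_iff, ← ev0.intervalIntegral_comp_comm hf, ← prim.intervalIntegral_comp_comm hg,
    ← intervalIntegral.integral_add (clm_intervalIntegrable ev0 hf)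
      (clm_intervalIntegrable prim hg)]
  exact intervalIntegral.integral_congr fun s hs => (h s hs).eq_prim

theorem IsD.of_hasDerivWithinAt {f g : ℝ → CI} {f' g' : CI} {J : Set ℝ} {t : ℝ}
    (hJ : UniqueDiffWithinAt ℝ J t) (ht : t ∈ J) (hf : HasDerivWithinAt f f' J t)
    (hg : HasDerivWithinAt g g' J t) (h : ∀ s ∈ J, IsD (f s) (g s)) : IsD f' g' := by
  have h1 : HasDerivWithinAt (fun s => ev0 (f s) + prim (g s)) (ev0 f' + prim g') J t :=
    (ev0.hasFDerivAt.comp_hasDerivWithinAt t hf).add (prim.hasFDerivAt.comp_hasDerivWithinAt t hg)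
  have h2 : HasDerivWithinAt f (ev0 f' + prim g') J t :=
    h1.congr (fun s hs => (h s hs).eq_prim) (h t ht).eq_prim
  exact isD_iff.2 (hJ.eq_deriv _ hf h2)

/-! ### Polynomials -/

/-- The restriction of a polynomial to `[0,1]`. -/
noncomputable def pe : Polynomial ℝ →ₐ[ℝ] CI :=
  Polynomial.toContinuousMapOnAlgHom (Icc (0 : ℝ) 1)

theorem ex_pe (p : Polynomial ℝ) {x : ℝ} (hx : x ∈ Icc (0 : ℝ) 1) : ex (pe p) x = p.eval x := by
  rw [ex_of_mem _ hx]; rfl

theorem isD_pe (p : Polynomial ℝ) : IsD (pe p) (pe (Polynomial.derivative p)) := by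
  intro x hx
  rw [ex_pe _ hx]
  exact (p.hasDerivWithinAt x _).congr (fun y hy => ex_pe p hy) (ex_pe p hx)

theorem denseRange_pe : DenseRange pe := by
  intro f
  have h := continuousMap_mem_polynomialFunctions_closure 0 1 f
  have h2 : f ∈ closure (polynomialFunctions (Icc (0 : ℝ) 1) : Set CI) := h
  rwa [polynomialFunctions_coe] at h2

theorem exists_antiderivative (q : Polynomial ℝ) (c : ℝ) :
    ∃ p : Polynomial ℝ, Polynomial.derivative p = q ∧ p.eval 0 = c := by
  have h : ∀ q : Polynomial ℝ, ∃ p : Polynomial ℝ, Polynomial.derivative p = q := by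
    intro q
    induction q using Polynomial.induction_on' with
    | add p q hp hq =>
      obtain ⟨a, ha⟩ := hp
      obtain ⟨b, hb⟩ := hq
      exact ⟨a + b, by rw [Polynomial.derivative_add, ha, hb]⟩
    | monomial n a =>
      refine ⟨Polynomial.monomial (n + 1) (a / (n + 1)), ?_⟩
      rw [Polynomial.derivative_monomial]
      congr 1
      have : (n + 1 : ℝ) ≠ 0 := by positivity
      push_cast
      field_simp
  obtain ⟨p, hp⟩ := h q
  exact ⟨p + Polynomial.C (c - p.eval 0), by simp [hp], by simp⟩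

theorem pe_eq_of_derivative {p q : Polynomial ℝ} {c : ℝ} (h1 : Polynomial.derivative p = q)
    (h2 : p.eval 0 = c) : pe p = ContinuousMap.const _ c + prim (pe q) := by
  have := (isD_pe p).eq_prim
  rwa [h1, ev0_apply, ex_pe _ ⟨le_rfl, zero_le_one⟩, h2] at this

/-- A closed relation that holds for the pairs `(p, p')` holds for all pairs `(f, f')`. -/
theorem isD_induction {Q : CI → CI → Prop} (hc : IsClosed {z : CI × CI | Q z.1 z.2})
    (hp : ∀ p : Polynomial ℝ, Q (pe p) (pe (Polynomial.derivative p))) {f g : CI}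
    (h : IsD f g) : Q f g := by
  have key : ∀ (c : ℝ) (g : CI), Q (ContinuousMap.const _ c + prim g) g := by
    intro c g
    refine denseRange_pe.induction_on g ?_ fun q => ?_
    · exact hc.preimage (f := fun g : CI => (ContinuousMap.const _ c + prim g, g)) (by fun_prop)
    · obtain ⟨p, h1, h2⟩ := exists_antiderivative q c
      rw [← pe_eq_of_derivative h1 h2, ← h1]
      exact hp p
  have := key (ex f 0) g
  rwa [← ev0_apply, ← h.eq_prim] at this

/-- The same for triples `(f, f', f'')`. -/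
theorem isD_induction₂ {Q : CI → CI → CI → Prop}
    (hc : IsClosed {z : CI × CI × CI | Q z.1 z.2.1 z.2.2})
    (hp : ∀ p : Polynomial ℝ, Q (pe p) (pe (Polynomial.derivative p))
      (pe (Polynomial.derivative (Polynomial.derivative p)))) {f g h : CI}
    (h1 : IsD f g) (h2 : IsD g h) : Q f g h := by
  have key : ∀ (c : ℝ), Q (ContinuousMap.const _ c + prim g) g h := by
    intro c
    refine isD_induction (Q := fun g h => Q (ContinuousMap.const _ c + prim g) g h) ?_
      (fun q => ?_) h2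
    · exact hc.preimage (f := fun z : CI × CI => (ContinuousMap.const _ c + prim z.1, z.1, z.2))
        (by fun_prop)
    · obtain ⟨p, h1, h2⟩ := exists_antiderivative q c
      rw [← pe_eq_of_derivative h1 h2, ← h1]
      exact hp p
  have := key (ex f 0)
  rwa [← ev0_apply, ← h1.eq_prim] at this

/-! ### Extrema -/

theorem IsD.nonpos_at_zero {f g : CI} (h : IsD f g) (hm : ∀ y ∈ Icc (0 : ℝ) 1, ex f y ≤ ex f 0) :
    ex g 0 ≤ 0 := by
  have h1 : IsLocalMaxOn (ex f) (Icc 0 1) 0 := (show IsMaxOn (ex f) (Icc 0 1) 0 from hm).localize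
  have h2 := h1.hasFDerivWithinAt_nonpos (h 0 ⟨le_rfl, zero_le_one⟩).hasFDerivWithinAt
    (sub_mem_posTangentConeAt_of_segment_subset (y := 1)
      (by rw [segment_eq_Icc zero_le_one]))
  simpa using h2

theorem IsD.nonneg_at_one {f g : CI} (h : IsD f g) (hm : ∀ y ∈ Icc (0 : ℝ) 1, ex f y ≤ ex f 1) :
    0 ≤ ex g 1 := by
  have h1 : IsLocalMaxOn (ex f) (Icc 0 1) 1 := (show IsMaxOn (ex f) (Icc 0 1) 1 from hm).localize
  have h2 := h1.hasFDerivWithinAt_nonpos (h 1 ⟨zero_le_one, le_rfl⟩).hasFDerivWithinAt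
    (sub_mem_posTangentConeAt_of_segment_subset (y := 0)
      (by rw [segment_symm, segment_eq_Icc zero_le_one]))
  simpa using h2

theorem IsD.eq_zero_of_max {f g : CI} (h : IsD f g) {x : ℝ} (hx : x ∈ Ioo (0 : ℝ) 1)
    (hm : ∀ y ∈ Icc (0 : ℝ) 1, ex f y ≤ ex f x) : ex g x = 0 := by
  have h1 : IsLocalMax (ex f) x :=
    (show IsMaxOn (ex f) (Icc 0 1) x from hm).isLocalMax (Icc_mem_nhds hx.1 hx.2)
  exact h1.hasDerivAt_eq_zero (h.hasDerivAt hx)

theorem IsD.second_nonpos {f g h : CI} (h1 : IsD f g) (h2 : IsD g h) {x : ℝ}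
    (hx : x ∈ Ioo (0 : ℝ) 1) (hm : ∀ y ∈ Icc (0 : ℝ) 1, ex f y ≤ ex f x) : ex h x ≤ 0 := by
  by_contra hc
  rw [not_le] at hc
  have hg0 := h1.eq_zero_of_max hx hm
  have hI : Ioo (0 : ℝ) 1 ∈ 𝓝 x := isOpen_Ioo.mem_nhds hx
  have hd : deriv (ex f) =ᶠ[𝓝 x] ex g := by
    filter_upwards [hI] with y hy using (h1.hasDerivAt hy).deriv
  have hdd : deriv (deriv (ex f)) x = ex h x := by
    rw [hd.deriv_eq, (h2.hasDerivAt hx).deriv]
  have hmin := isLocalMin_of_deriv_deriv_pos (f := ex f) (x₀ := x) (by rw [hdd]; exact hc)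
    (by rw [(h1.hasDerivAt hx).deriv, hg0]) (ex_continuous f).continuousAt
  have hmax : IsLocalMax (ex f) x :=
    (show IsMaxOn (ex f) (Icc 0 1) x from hm).isLocalMax (Icc_mem_nhds hx.1 hx.2)
  have hconst : ex f =ᶠ[𝓝 x] fun _ => ex f x := by
    filter_upwards [hmin, hmax] with y h1 h2 using le_antisymm h2 h1
  have h3 : deriv (ex f) =ᶠ[𝓝 x] fun _ => 0 := by
    have := hconst.deriv
    simpa using this
  have h4 : deriv (deriv (ex f)) x = 0 := by rw [h3.deriv_eq]; simp
  rw [hdd] at h4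
  exact hc.ne' h4

/-- At a maximum point a degenerate elliptic operator with inward drift is nonpositive. -/
theorem elliptic_nonpos {f g h : CI} (h1 : IsD f g) (h2 : IsD g h) {x a b : ℝ}
    (hx : x ∈ Icc (0 : ℝ) 1) (hm : ∀ y ∈ Icc (0 : ℝ) 1, ex f y ≤ ex f x) (ha : 0 ≤ a)
    (h0 : x = 0 → a = 0 ∧ 0 ≤ b) (h1' : x = 1 → a = 0 ∧ b ≤ 0) :
    a * ex h x + b * ex g x ≤ 0 := by
  rcases eq_or_lt_of_le hx.1 with e0 | l0
  · obtain ⟨ea, eb⟩ := h0 e0.symm
    subst e0
    rw [ea, zero_mul, zero_add]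
    exact mul_nonpos_of_nonneg_of_nonpos eb (h1.nonpos_at_zero hm)
  rcases eq_or_lt_of_le hx.2 with e1 | l1
  · obtain ⟨ea, eb⟩ := h1' e1
    subst e1
    rw [ea, zero_mul, zero_add]
    exact mul_nonpos_of_nonpos_of_nonneg eb (h1.nonneg_at_one hm)
  rw [h1.eq_zero_of_max ⟨l0, l1⟩ hm, mul_zero, add_zero]
  exact mul_nonpos_of_nonneg_of_nonpos ha (h1.second_nonpos h2 ⟨l0, l1⟩ hm)

/-- Interpolation: `‖f'‖ ≤ 2‖f‖/r + r‖f''‖` for `0 < r ≤ 1/2`. -/
theorem norm_deriv_le {f g h : CI} (h1 : IsD f g) (h2 : IsD g h) {r : ℝ} (hr : 0 < r)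
    (hr2 : r ≤ 1 / 2) : ‖g‖ ≤ 2 * ‖f‖ / r + r * ‖h‖ := by
  have lip : ∀ x ∈ Icc (0 : ℝ) 1, ∀ y ∈ Icc (0 : ℝ) 1, |ex g y - ex g x| ≤ ‖h‖ * |y - x| :=
    fun x hx y hy => (convex_Icc (0 : ℝ) 1).norm_image_sub_le_of_norm_hasDerivWithin_le
      (f := ex g) (f' := ex h) h2 (fun z _ => abs_ex_le h z) hx hy
  refine norm_le_of_ex fun x hx => ?_
  -- an interval `[a, a + r]` inside `[0,1]` containing `x`
  obtain ⟨a, ha0, ha1, hax, hxa⟩ : ∃ a : ℝ, 0 ≤ a ∧ a + r ≤ 1 ∧ a ≤ x ∧ x ≤ a + r := by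
    by_cases hx2 : x ≤ 1 / 2
    · exact ⟨x, hx.1, by linarith, le_rfl, by linarith⟩
    · exact ⟨x - r, by linarith, by linarith [hx.2], by linarith, by linarith⟩
  obtain ⟨c, hc, hc2⟩ := exists_hasDerivAt_eq_slope (ex f) (ex g) (a := a) (b := a + r)
    (by linarith) (ex_continuous f).continuousOn
    (fun y hy => h1.hasDerivAt ⟨by linarith [hy.1], by linarith [hy.2]⟩)
  have hcI : c ∈ Icc (0 : ℝ) 1 := ⟨by linarith [hc.1], by linarith [hc.2]⟩
  have b1 : |ex g c| ≤ 2 * ‖f‖ / r := by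
    rw [hc2, add_sub_cancel_left, abs_div, abs_of_pos hr]
    refine div_le_div_of_nonneg_right ?_ hr.le
    have := abs_sub (ex f (a + r)) (ex f a)
    linarith [abs_ex_le f (a + r), abs_ex_le f a]
  have b2 : |ex g x - ex g c| ≤ ‖h‖ * r := by
    refine (lip c hcI x hx).trans (mul_le_mul_of_nonneg_left ?_ (norm_nonneg _))
    rw [abs_le]; constructor <;> linarith [hc.1, hc.2]
  have := abs_add_le (ex g x - ex g c) (ex g c)
  rw [sub_add_cancel] at this
  linarith

end Vale.Agent.P244Z.Ex
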