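import Vale.Agent.P244Z.Ex.SG
import Mathlib.Analysis.SpecialFunctions.Integrability.Basic

/-!
Weighted estimates for Duhamel's formula.
-/

namespace Vale.Agent.P244Z.Ex

open Set Filter Topology MeasureTheory

/-- The kernel `(1 + r^{-1/2}) e^{-γ r}`. -/
noncomputable def ker (γ r : ℝ) : ℝ := (1 + (√r)⁻¹) * Real.exp (-(γ * r))

theorem ker_nonneg (γ r : ℝ) : 0 ≤ ker γ r := by unfold ker; positivity

theorem intervalIntegrable_ker0 {T : ℝ} (hT : 0 ≤ T) :
    IntervalIntegrable (fun r => 1 + (√r)⁻¹) volume 0 T := by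
  refine intervalIntegrable_const.add ?_
  have h := intervalIntegral.intervalIntegrable_rpow' (a := 0) (b := T) (r := -(1 / 2))
    (by norm_num)
  refine h.congr fun r hr => ?_
  rw [uIoc_of_le hT] at hr
  rw [Real.rpow_neg hr.1.le, Real.sqrt_eq_rpow]

theorem intervalIntegrable_ker (γ : ℝ) {T : ℝ} (hT : 0 ≤ T) :
    IntervalIntegrable (ker γ) volume 0 T :=
  (intervalIntegrable_ker0 hT).mul_continuousOn (by fun_prop)

/-- The integral of the kernel. -/
noncomputable def JJ (γ T : ℝ) : ℝ := ∫ r in (0 : ℝ)..T, ker γ r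

theorem JJ_nonneg (γ : ℝ) {T : ℝ} (hT : 0 ≤ T) : 0 ≤ JJ γ T :=
  intervalIntegral.integral_nonneg hT fun r _ => ker_nonneg γ r

theorem JJ_mono (γ : ℝ) {t T : ℝ} (ht : 0 ≤ t) (hT : t ≤ T) : JJ γ t ≤ JJ γ T :=
  intervalIntegral.integral_mono_interval le_rfl ht hT
    (Eventually.of_forall fun r => ker_nonneg γ r) (intervalIntegrable_ker γ (ht.trans hT))

theorem exists_JJ_le {T : ℝ} (hT : 0 ≤ T) {ε : ℝ} (hε : 0 < ε) : ∃ γ, 0 ≤ γ ∧ JJ γ T ≤ ε := by
  have h : Tendsto (fun γ => JJ γ T) atTop (𝓝 (∫ r in (0 : ℝ)..T, (0 : ℝ))) := by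
    refine intervalIntegral.tendsto_integral_filter_of_dominated_convergence
      (fun r => 1 + (√r)⁻¹) ?_ ?_ (intervalIntegrable_ker0 hT) ?_
    · exact Eventually.of_forall fun γ => (intervalIntegrable_ker γ hT).def'.aestronglyMeasurable
    · filter_upwards [eventually_ge_atTop 0] with γ hγ
      refine Eventually.of_forall fun r hr => ?_
      rw [uIoc_of_le hT] at hr
      rw [Real.norm_eq_abs, abs_of_nonneg (ker_nonneg _ _), ker]
      refine mul_le_of_le_one_right (by positivity) ?_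
      rw [Real.exp_le_one_iff, neg_nonpos]
      exact mul_nonneg hγ hr.1.le
    · refine Eventually.of_forall fun r hr => ?_
      rw [uIoc_of_le hT] at hr
      have h1 : Tendsto (fun γ : ℝ => Real.exp (-(γ * r))) atTop (𝓝 0) :=
        Real.tendsto_exp_neg_atTop_nhds_zero.comp (tendsto_id.atTop_mul_const hr.1)
      simpa [ker] using h1.const_mul (1 + (√r)⁻¹)
  rw [intervalIntegral.integral_zero] at h
  obtain ⟨γ, h1, h2⟩ := ((h.eventually (ge_mem_nhds hε)).and (eventually_ge_atTop 0)).exists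
  exact ⟨γ, h2, h1⟩

theorem norm_integral_le_JJ {E : Type*} [NormedAddCommGroup E] [NormedSpace ℝ E] {F : ℝ → E}
    {K γ t T : ℝ} (hK : 0 ≤ K) (ht : t ∈ Icc 0 T)
    (h : ∀ s ∈ Ioo 0 t, ‖F s‖ ≤ K * Real.exp (γ * s) * (1 + (√(t - s))⁻¹)) :
    ‖∫ s in (0 : ℝ)..t, F s‖ ≤ K * Real.exp (γ * t) * JJ γ T := by
  have hi : IntervalIntegrable (fun s => ker γ (t - s)) volume 0 t := by
    have := (intervalIntegrable_ker γ ht.1).comp_sub_left t
    rw [sub_zero, sub_self] at this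
    exact this.symm
  refine (intervalIntegral.norm_integral_le_of_norm_le ht.1
    (g := fun s => K * Real.exp (γ * t) * ker γ (t - s)) ?_ (hi.const_mul _)).trans ?_
  · filter_upwards [(Set.countable_singleton t).ae_notMem volume] with s hs hs'
    refine (h s ⟨hs'.1, lt_of_le_of_ne hs'.2 hs⟩).trans (le_of_eq ?_)
    have e : Real.exp (γ * s) = Real.exp (γ * t) * Real.exp (-(γ * (t - s))) := by
      rw [← Real.exp_add]; congr 1; ring
    rw [ker, e]; ring
  · rw [intervalIntegral.integral_const_mul, intervalIntegral.integral_comp_sub_left, sub_self,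
      sub_zero]
    exact mul_le_mul_of_nonneg_left (JJ_mono γ ht.1 ht.2) (by positivity)

variable {μ ν : ℝ} (hμ : 1 ≤ μ) (hν : 1 ≤ ν)
include hμ hν

theorem norm_duh_le (k : ℕ) (u₀ : CI) {g : ℝ → CI} {K γ t T : ℝ} (hK : 0 ≤ K) (ht : t ∈ Icc 0 T)
    (hg : ∀ s ∈ Icc 0 T, ‖g s‖ ≤ K * Real.exp (γ * s)) :
    ‖duh μ ν k u₀ g t‖ ≤ ‖u₀‖ + K * Real.exp (γ * t) * JJ γ T := by
  refine (norm_add_le _ _).trans (add_le_add (norm_S_le hμ hν k t u₀) ?_)
  refine norm_integral_le_JJ hK ht fun s hs => (norm_S_le hμ hν k _ _).trans ?_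
  refine (hg s ⟨hs.1.le, hs.2.le.trans ht.2⟩).trans (le_mul_of_one_le_right (by positivity) ?_)
  exact le_add_of_nonneg_right (by positivity)

theorem norm_wt_duh_le (k : ℕ) (u₁ : CI) {g g₁ : ℝ → CI} (hg₁ : Continuous g₁)
    (hD : ∀ s, IsD (g s) (g₁ s)) {K γ t T : ℝ} (hK : 0 ≤ K) (ht : t ∈ Icc 0 T)
    (hg : ∀ s ∈ Icc 0 T, ‖g s‖ ≤ K * Real.exp (γ * s)) :
    ‖wt * duh μ ν (k + 1) u₁ g₁ t‖ ≤ ‖u₁‖ + K * Real.exp (γ * t) * JJ γ T := by
  rw [duh, mul_add]
  refine (norm_add_le _ _).trans (add_le_add ?_ ?_)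
  · refine (norm_mul_le _ _).trans ((mul_le_of_le_one_left (norm_nonneg _) norm_wt_le).trans ?_)
    exact norm_S_le hμ hν _ t u₁
  · have e := (ContinuousLinearMap.mul ℝ CI wt).intervalIntegral_comp_comm
      (intervalIntegrable_S hμ hν (k + 1) hg₁ t 0 t)
    simp only [ContinuousLinearMap.mul_apply'] at e
    rw [← e]
    refine norm_integral_le_JJ hK ht fun s hs => ?_
    refine (smoothing_S hμ hν k (sub_pos.2 hs.2) (hD s)).trans ?_
    rw [div_eq_mul_inv]
    refine mul_le_mul (hg s ⟨hs.1.le, hs.2.le.trans ht.2⟩) (le_add_of_nonneg_left zero_le_one)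
      (by positivity) (by positivity)

theorem duh_sub (k : ℕ) (u₀ v₀ : CI) {g h : ℝ → CI} (hg : Continuous g) (hh : Continuous h)
    (t : ℝ) : duh μ ν k u₀ g t - duh μ ν k v₀ h t = duh μ ν k (u₀ - v₀) (fun s => g s - h s) t := by
  simp only [duh, map_sub]
  rw [intervalIntegral.integral_sub (intervalIntegrable_S hμ hν k hg t _ _)
    (intervalIntegrable_S hμ hν k hh t _ _)]
  abel

omit hμ hν in
theorem duh_congr (k : ℕ) (u₀ : CI) {g h : ℝ → CI} {t : ℝ} (ht : 0 ≤ t)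
    (e : ∀ s ∈ Icc 0 t, g s = h s) : duh μ ν k u₀ g t = duh μ ν k u₀ h t := by
  rw [duh, duh]
  congr 1
  refine intervalIntegral.integral_congr fun s hs => ?_
  rw [uIcc_of_le ht] at hs
  simp only [e s hs]

end Vale.Agent.P244Z.Ex
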