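import Vale.Agent.P244Z.Ex.Glue

/-!
The evolution of `f` and of `u` along the parabolic system.
-/

namespace Vale.Agent.P244Z.Ex

open Set Filter Topology

theorem Nice.sm {F : St → CI} (hF : Nice F) {v : St} (hv : SmT v) : Sm (F v) :=
  (hF (fun _ => v) fun j => good_const (hv j)).sm hv

theorem IsD.congr {f g g' : CI} (h : IsD f g) (e : ∀ x ∈ Icc (0 : ℝ) 1, ex g x = ex g' x) :
    IsD f g' := ext_ex e ▸ h

theorem isD_wt : IsD wt (1 - (2 : ℝ) • xx) := by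
  have e : wt = xx * (1 - xx) := ext_ex fun x hx => by simp [ex_wt hx, ex_xx hx]
  rw [e]
  exact (isD_xx.mul (isD_one.sub isD_xx)).congr fun x _ => by simp; ring

theorem sm_cH {α : CI} (h : Sm α) : Sm (cH α) := (tri_Hop (by norm_num)).sm _ (h.smul _)

theorem cH_spec {α : CI} (h : Sm α) {x : ℝ} (hx : x ∈ Icc (0 : ℝ) 1) :
    x * ex (dX (cH α)) x + 3 / 2 * ex (cH α) x = 1 / 2 * ex α x := by
  simpa only [cH, ex_add, ex_mul, ex_smul, ex_xx hx] using
    congrArg (ex · x) (Hop_spec (γ := 3 / 2) (by norm_num) (h.smul (1 / 2)))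

theorem isD_cf {α : CI} (h : Sm α) : IsD (cf α) ((1 / 2 : ℝ) • (α - cH α)) :=
  (isD_one.add (isD_xx.mul (sm_cH h).isD)).congr fun x hx => by
    simp only [ex_add, ex_mul, ex_smul, ex_sub, ex_xx hx, ex_zero, ex_one]
    linear_combination cH_spec h hx

theorem isD_ch {α : CI} (h : Sm α) : IsD (ch α) (α + xx * dX α) :=
  (isD_one.add (isD_xx.mul h.isD)).congr fun x _ => by simp

theorem isD_inv {f f' g : CI} (hf : IsD f f') (hg : Sm g) (e : f * g = 1) :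
    IsD g (-(g * g * f')) :=
  hg.isD.congr fun x _ => by
    have h1 := congrArg (ex · x) ((hf.mul hg.isD).unique (e ▸ isD_one))
    have h2 := congrArg (ex · x) e
    simp only [ex_add, ex_mul, ex_zero, ex_one, ex_neg] at h1 h2 ⊢
    linear_combination ex g x * h1 - ex (dX g) x * h2

theorem cH_eq {R R' b : CI} (hR : IsD R R') (hb : Sm b)
    (e : ∀ x ∈ Icc (0 : ℝ) 1, ex R x + 2 * x * ex R' x = x * ex b x) : xx * cH b = R := by
  have h := norm_le_of_euler ((isD_xx.mul (sm_cH hb).isD).sub hR) (γ := 1 / 2) (K := 0)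
    (by norm_num) fun x hx => by
      refine (abs_eq_zero.2 ?_).le
      simp only [ex_add, ex_mul, ex_sub, ex_xx hx, ex_one]
      linear_combination x * cH_spec hb hx - 1 / 2 * e x hx
  rwa [zero_div, norm_le_zero_iff, sub_eq_zero] at h

theorem isD_cu {β m : CI} (hβ : Sm β) (hm : IsD m 0) : IsD (cu β m) ((1 / 2 : ℝ) • β) :=
  (hm.add ((isD_xx.mul ((tri_Hop one_pos).sm _ hβ).isD).smul _)).congr fun x hx => by
    have := congrArg (ex · x) (Hop_spec one_pos hβ)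
    simp only [ex_add, ex_mul, ex_smul, ex_zero, ex_one] at this ⊢
    linear_combination 1 / 2 * this

theorem ex_ev0 (f : CI) (x : ℝ) : ex (ev0 f) x = ex f 0 := by rw [ev0_apply, ex_const]

theorem isD_ev0 (f : CI) : IsD (ev0 f) 0 := by rw [ev0_apply]; exact isD_const _

theorem ex_cu_zero (β m : CI) : ex (cu β m) 0 = ex m 0 := by
  simp [cu, ex_xx ⟨le_rfl, zero_le_one⟩]

theorem cu_eq {R b m : CI} (hR : IsD R ((1 / 2 : ℝ) • b)) (hb : Sm b) (e : ex m 0 = ex R 0) :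
    cu b (ev0 m) = R := by
  rw [(isD_cu hb (isD_ev0 m)).eq_prim, ev0_apply, ex_cu_zero, ex_ev0, e, ← ev0_apply, ← hR.eq_prim]

theorem isD_vb (q : ℝ) (v : St) : IsD (vb q v) 0 := by
  rw [vb, Cop_const le_rfl]; exact isD_const _

theorem ex_vb (q : ℝ) (v : St) (x : ℝ) : ex (vb q v) x = ex (vb q v) 0 := by
  rw [vb, Cop_const le_rfl, ex_const, ex_const]

theorem vω_spec (q : ℝ) {v : St} (hv : SmT v) {x : ℝ} (hx : x ∈ Icc (0 : ℝ) 1) :
    2 * (x * (1 - x) * ex (dX (vω q v)) x) + (1 - 2 * x) * ex (vω q v) x + ex (vb q v) x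
      = ex (vg q v) x := by
  simpa only [vω, vb, ex_add, ex_mul, ex_smul, ex_sub, ex_one, ex_xx hx, ex_wt hx, one_mul] using
    congrArg (ex · x) (Mop_spec le_rfl ((nice_vg q).sm hv))

theorem ex_vg (q : ℝ) (v : St) {x : ℝ} (hx : x ∈ Icc (0 : ℝ) 1) : ex (vg q v) x
    = (1 - x) * (q * (2 * ex (vκ v) x + x * ex (vκ v) x ^ 2) + 2 * (x * ex (v 1) x ^ 2)) := by
  simp only [vg, ex_add, ex_mul, ex_smul, ex_sub, ex_one, ex_xx hx, sq]

theorem isD_expc (c : ℝ) {f g : CI} (h : IsD f g) : IsD (expc c f) (c • (expc c f * g)) :=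
  (h.nem (contDiff_exp_mul c)).congr fun x _ => by
    have : deriv (fun y : ℝ => Real.exp (c * y)) (ex f x) = Real.exp (c * ex f x) * (c * 1) :=
      ((hasDerivAt_id _).const_mul c).exp.deriv
    simp only [expc, ex_mul, ex_nem, ex_smul, this]
    ring

/-- `φ_θθ = - l sin θ N`. -/
noncomputable def cN (α : CI) : CI := ch α - (2 : ℝ) • ((1 - xx) * α) - (2 : ℝ) • (wt * dX α)

/-- The time derivative of `f`. -/
noncomputable def Rf (q : ℝ) (v : St) : CI :=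
  -((vb q v - q • 1) * cf (v 0)) - (1 - xx) * (q • vκ v + vω q v) * ch (v 0) - cN (v 0)
    - (q - 1) • (cn (v 0) * v 4)

/-- The time derivative of `u - log l`. -/
noncomputable def Ru (q : ℝ) (v : St) : CI :=
  (1 - (2 : ℝ) • xx) * v 1 + (2 : ℝ) • (wt * dX (v 1)) + q • ((1 - xx) * v 1) - wt * vω q v * v 1
    - vE v - (vb q v - q • 1)

theorem alg_f {x a a1 a2 H H1 fi ω ω1 β gb q κ h n : ℝ} (hf : (1 + x * H) * fi = 1)
    (hH : x * H1 + 3 / 2 * H = 1 / 2 * a) (hκ : κ = (a - H) * fi) (hh : h = 1 + x * a)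
    (hn : n = 1 - (1 - x) * a * (2 + x * a))
    (hω : 2 * (x * (1 - x) * ω1) + (1 - 2 * x) * ω + gb
      = (1 - x) * (q * (2 * κ + x * κ ^ 2) + 2 * (x * β ^ 2))) :
    (-(gb - q) * (1 + x * H) - (1 - x) * (q * κ + ω) * h
        - (h - 2 * (1 - x) * a - 2 * (x * (1 - x) * a1)) - (q - 1) * n * fi)
      + 2 * x * (-(gb - q) * ((a - H) / 2) + (q * κ + ω) * h
        - (1 - x) * (q * ((a1 - H1) * fi - (a - H) * fi ^ 2 * ((a - H) / 2)) + ω1) * h
        - (1 - x) * (q * κ + ω) * (a + x * a1)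
        - ((a + x * a1) + 2 * a - 2 * (1 - x) * a1 - 2 * (1 - 2 * x) * a1 - 2 * (x * (1 - x) * a2))
        - (q - 1) * ((a * (2 + x * a) - (1 - x) * (a1 * (2 + x * a) + a * (a + x * a1))) * fi
          - n * fi ^ 2 * ((a - H) / 2)))
      = x * (4 * (x * (1 - x) * a2) + (2 * (q + 3) * (1 - x) - 2 * 3 * x) * a1
        + ((-6 * a + (2 * κ + ω) * (h - 2 * (1 - x) * a)
          - (q - 1) * ((1 - x) * a ^ 2 * (3 + x * a) + (2 * H + x * H ^ 2) * fi ^ 2 * n * h)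
          - 2 * h * (1 - x) * β ^ 2) + (-2 * (2 * κ + ω)) * (x * (1 - x) * a1))) := by
  have h0 : 1 + x * H ≠ 0 := left_ne_zero_of_mul_eq_one hf
  have e : fi = 1 / (1 + x * H) := eq_one_div_of_mul_eq_one_right hf
  linear_combination (norm := skip) (2 * q * (1 - x) * h * fi) * hH - h * hω
  subst hκ hh hn e
  field_simp
  ring

theorem sm_vel (q : ℝ) {u : St} (hv : SmT (inp u)) {i : Fin 5} (hi : Sm (u i)) : Sm (vel q u i) :=
  (((sm_wt.mul hi.dX.dX).smul _).add ((sm_pe _).mul hi.dX)).add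
    (((nice_AA q i).sm hv).add (((nice_BB q i).sm hv).mul (sm_wt.mul hi.dX)))

theorem isD_vκ {v : St} (hv : SmT v) (e : cf (v 0) * v 4 = 1) :
    IsD (vκ v) ((dX (v 0) - dX (cH (v 0))) * v 4
      + (v 0 - cH (v 0)) * -(v 4 * v 4 * ((1 / 2 : ℝ) • (v 0 - cH (v 0))))) :=
  ((hv 0).isD.sub (sm_cH (hv 0)).isD).mul (isD_inv (isD_cf (hv 0)) (hv 4) e)

theorem f_eq (q : ℝ) {u : St} (hv : SmT (inp u)) (e : cf (inp u 0) * inp u 4 = 1) :
    xx * cH (vel q u 0) = Rf q (inp u) := by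
  have e0 : vel q u 0 = Lop (q + 3) 3 (dX (inp u 0)) (dX (dX (inp u 0)))
      + (AA q (inp u) 0 + BB q (inp u) 0 * (wt * dX (inp u 0))) := rfl
  have hs := sm_vel q hv (i := 0) (hv 0)
  rw [e0] at hs ⊢
  generalize inp u = v at *
  have h1 := isD_one.sub isD_xx
  have hh := isD_ch (hv 0)
  have hR : IsD (Rf q v) _ := (((((isD_vb q v).sub (isD_one.smul q)).mul (isD_cf (hv 0))).neg.sub
    ((h1.mul (((isD_vκ hv e).smul q).add ((nice_vω q).sm hv).isD)).mul hh)).sub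
    ((hh.sub ((h1.mul (hv 0).isD).smul 2)).sub ((isD_wt.mul (hv 0).dX.isD).smul 2))).sub
    (((isD_one.sub ((h1.mul (hv 0).isD).mul (isD_one.add hh))).mul
      (isD_inv (isD_cf (hv 0)) (hv 4) e)).smul (q - 1))
  refine cH_eq hR hs fun x hx => ?_
  have h2 := congrArg (ex · x) e
  have h3 := vω_spec q hv hx
  rw [ex_vg q v hx] at h3
  simp only [cf, ex_add, ex_mul, ex_one, ex_xx hx] at h2
  have h4 := alg_f (a1 := ex (dX (v 0)) x) (a2 := ex (dX (dX (v 0))) x) h2 (cH_spec (hv 0) hx)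
    (by simp only [vκ, ex_mul, ex_sub]) rfl rfl h3
  simp only [Rf, cN, cn, ch, cf, vκ, Lop, AA, BB, Matrix.cons_val_zero, ex_add, ex_mul, ex_sub,
    ex_neg, ex_smul, ex_one, ex_zero, ex_xx hx, ex_wt hx, ex_bd _ _ hx] at h4 ⊢
  linear_combination h4

theorem u_eq (q : ℝ) {u : St} (hv : SmT (inp u)) (h2 : dX (u 2) = 0) :
    cu (vel q u 1) (ev0 (vel q u 2)) = Ru q (inp u) := by
  have e0 : vel q u 1 = Lop (q + 3) 3 (dX (inp u 1)) (dX (dX (inp u 1)))
      + (AA q (inp u) 1 + BB q (inp u) 1 * (wt * dX (inp u 1))) := rfl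
  have e1 : ex (vel q u 2) 0 = ex (AA q (inp u) 2) 0 := by
    simp [vel, h2, Lop, isD_zero.dX_eq]
  have hm : IsD (inp u 2) 0 := isD_ev0 _
  have hs := sm_vel q hv (i := 1) (hv 1)
  rw [e0] at hs ⊢
  generalize inp u = v at *
  have hE : IsD (vE v) _ := isD_expc (-2) (isD_cu (hv 1) hm)
  have hR : IsD (Ru q v) _ := ((((((isD_one.sub (isD_xx.smul 2)).mul (hv 1).isD).add
    ((isD_wt.mul (hv 1).dX.isD).smul 2)).add (((isD_one.sub isD_xx).mul (hv 1).isD).smul q)).sub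
    ((isD_wt.mul ((nice_vω q).sm hv).isD).mul (hv 1).isD)).sub hE).sub
    ((isD_vb q v).sub (isD_one.smul q))
  refine cu_eq (hR.congr fun x hx => ?_) hs ?_
  · have h3 := vω_spec q hv hx
    simp only [vE, Lop, AA, BB, Matrix.cons_val_zero, Matrix.cons_val_one, ex_add, ex_mul, ex_sub,
      ex_smul, ex_one, ex_zero, ex_xx hx, ex_wt hx, ex_bd _ _ hx]
    linear_combination (-1 / 2 * ex (v 1) x) * h3
  · have hx : (0 : ℝ) ∈ Icc (0 : ℝ) 1 := ⟨le_rfl, zero_le_one⟩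
    rw [e1]
    simp only [Ru, AA, Matrix.cons_val, ex_ev0, ex_add, ex_mul, ex_sub, ex_smul, ex_one, ex_xx hx,
      ex_wt hx]
    ring

theorem gauge_eq {v : St} (hv : SmT v) (e : cf (v 0) * v 4 = 1) {x : ℝ} (hx : x ∈ Icc (0 : ℝ) 1) :
    2 * (x * (1 - x) * ex (dX (vκ v)) x) + (1 - 2 * x) * ex (vκ v) x
      + (1 - x) * (2 * ex (vκ v) x + x * ex (vκ v) x ^ 2) + ex (cN (v 0)) x * ex (v 4) x = 1 := by
  have h2 := congrArg (ex · x) e
  have h3 := cH_spec (hv 0) hx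
  rw [(isD_vκ hv e).dX_eq]
  simp only [cf, cN, ch, vκ, ex_add, ex_mul, ex_sub, ex_neg, ex_smul, ex_one, ex_xx hx,
    ex_wt hx] at h2 ⊢
  linear_combination h2 - 2 * (1 - x) * ex (v 4) x * h3

end Vale.Agent.P244Z.Ex
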