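import Vale.Agent.P244Z.Ex.Recon
import Vale.Agent.P244Z.GeoRad

/-!
Existence of maximal solutions of the doubly warped flow, continuous dependence on the data and
the continuation criterion.
-/

namespace Vale.Agent.P244Z.Ex

open Set Filter Topology Real
open scoped ContDiff

variable {P : Type} [NormedAddCommGroup P] [NormedSpace ℝ P]

/-- Continuous families of smooth functions. -/
def Fam (c : P → CI) : Prop := (∀ a, Sm (c a)) ∧ ∀ k, Continuous fun a => D k (c a)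

section
omit [NormedSpace ℝ P]

theorem Fam.add {c d : P → CI} (hc : Fam c) (hd : Fam d) : Fam fun a => c a + d a :=
  ⟨fun a => (hc.1 a).add (hd.1 a), fun k => by
    simp only [fun a => D_add (hc.1 a) (hd.1 a) k]; exact (hc.2 k).add (hd.2 k)⟩

theorem Fam.smul {c : P → CI} (r : ℝ) (hc : Fam c) : Fam fun a => r • c a :=
  ⟨fun a => (hc.1 a).smul r, fun k => by
    simp only [fun a => D_smul r (hc.1 a) k]; exact (hc.2 k).const_smul r⟩

theorem Fam.dX {c : P → CI} (hc : Fam c) : Fam fun a => dX (c a) :=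
  ⟨fun a => (hc.1 a).dX, fun k => by simpa only [D_succ] using hc.2 (k + 1)⟩

theorem Fam.tri {c : P → CI} (hc : Fam c) {Ψ : CI →L[ℝ] CI} (hΨ : Tri Ψ) : Fam fun a => Ψ (c a) :=
  ⟨fun a => hΨ.sm _ (hc.1 a), fun k => by
    obtain ⟨Φ, h⟩ := hΨ.lev k
    simp only [fun a => h _ (hc.1 a)]
    exact Φ.continuous.comp (continuous_pi fun j => hc.2 j)⟩

theorem fam_const (r : ℝ) : Fam fun _ : P => ContinuousMap.const _ r :=
  ⟨fun _ => sm_const r, fun _ => continuous_const⟩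

end

theorem exists_fam {F : P × ℝ → ℝ} (hF : ContDiff ℝ ∞ F) (h1 : ∀ a θ, F (a, -θ) = F (a, θ))
    (h2 : ∀ a θ, F (a, π - θ) = F (a, θ)) :
    ∃ c : P → CI, Fam c ∧ ∀ a θ, ex (c a) (sin θ ^ 2) = F (a, θ) := by
  have hp : ∀ a, Function.Periodic (fun θ => F (a, θ)) π := fun a θ => by
    show F (a, θ + π) = F (a, θ)
    rw [← h1 a θ, ← h2 a (-θ), sub_neg_eq_add, add_comm]
  have h3 : ∀ (k : ℤ) a r, F (a, (2 * k * π - r) / 2) = F (a, r / 2) := fun k a r => by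
    rw [show (2 * k * π - r) / 2 = -(r / 2) + k * π by ring]
    exact ((hp a).int_mul k _).trans (h1 a _)
  have h4 := Geo.contDiffOn_arccos (I := univ) isOpen_univ (F := fun z : P × ℝ => F (z.1, z.2 / 2))
    (hF.comp (by fun_prop)).contDiffOn fun k a _ r => h3 k a r
  have h5 : ContDiffOn ℝ ∞ (fun z : P × ℝ => F (z.1, arccos (1 - 2 * z.2) / 2))
      (univ ×ˢ Icc 0 1) :=
    h4.comp (f := fun z : P × ℝ => (z.1, 1 - 2 * z.2)) (by fun_prop)
      fun z hz => ⟨trivial, by linarith [hz.2.2], by linarith [hz.2.1]⟩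
  obtain ⟨c, hc1, hc2, hc3⟩ := exists_cv h5
  refine ⟨c, ⟨hc1, hc2⟩, fun a θ => ?_⟩
  rw [hc3 a _ (sin_sq_mem θ)]
  have e : 1 - 2 * sin θ ^ 2 = cos (2 * θ) := by rw [cos_two_mul, cos_sq']; ring
  obtain ⟨k, hk | hk⟩ := cos_eq_cos_iff.1 (cos_arccos (neg_one_le_cos (2 * θ))
    (cos_le_one _)).symm
  · simp only [e]
    rw [hk, ← sub_neg_eq_add, h3, show -(2 * θ) / 2 = -θ by ring, h1]
  · simp only [e]
    rw [hk, h3, show 2 * θ / 2 = θ by ring]

theorem eq_Hop {f : CI} (hf : Sm f) {x : ℝ} (hx : x ∈ Icc (0 : ℝ) 1) :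
    ex f x = ex f 0 + x * ex (Hop 1 (dX f)) x := by
  have := congrArg (ex · x) (cu_eq (m := (1 / 2 : ℝ) • f) (hf.isD.smul (1 / 2)) hf.dX rfl)
  simp only [cu, ex_add, ex_smul, ex_mul, ex_ev0, ex_xx hx] at this
  linarith

theorem cf_eq {f : CI} (hf : Sm f) (h0 : ex f 0 = 1) :
    cf (Hop 1 (dX f) + (2 : ℝ) • dX f) = f := by
  rw [cf, cH_eq (hf.isD.sub isD_one) (((tri_Hop one_pos).sm _ hf.dX).add (hf.dX.smul 2)),
    add_sub_cancel]
  intro x hx
  simp only [ex_add, ex_sub, ex_smul, ex_one, ex_zero]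
  linear_combination eq_Hop hf hx + h0

theorem exists_sin_sq {x : ℝ} (hx : x ∈ Ioc (0 : ℝ) 1) : ∃ θ ∈ Ioc 0 (π / 2), sin θ ^ 2 = x :=
  ⟨arcsin √x, ⟨arcsin_pos.2 (sqrt_pos.2 hx.1), arcsin_le_pi_div_two _⟩, by
    rw [sin_arcsin (by linarith [sqrt_nonneg x]) (sqrt_le_one.2 hx.2), sq_sqrt hx.1.le]⟩

theorem exists_fam_φ {l0 : ℝ} {φ0 : ℝ → ℝ} (l_pos : 0 < l0) (sm_φ : ContDiff ℝ ∞ φ0)
    (φ_odd : ∀ θ, φ0 (-θ) = -φ0 θ) (φ_sym : ∀ θ, φ0 (π - θ) = φ0 θ)
    (φ_pos : ∀ θ ∈ Ioo 0 π, 0 < φ0 θ) (dφ : deriv φ0 0 = l0) :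
    ∃ α : P → CI, Fam α ∧ (∀ a, ∀ x ∈ Icc (0 : ℝ) 1, 0 < ex (cf (α a)) x) ∧
      ∀ a θ, l0 * (sin θ * ex (cf (α a)) (sin θ ^ 2)) = φ0 θ := by
  have hp : Function.Antiperiodic φ0 π := fun θ => by
    rw [← φ_odd θ, ← φ_sym (-θ), sub_neg_eq_add, add_comm]
  obtain ⟨K, hK, e⟩ := Geo.exists_div_sin (I := (univ : Set P)) isOpen_univ
    (H := fun z => φ0 z.2) (sm_φ.comp contDiff_snd).contDiffOn
    (Geo.zero_of_odd (H := fun z : P × ℝ => φ0 z.2) fun k a _ r => by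
      rw [show 2 * k * π - r = -r + k * (2 * π) by ring]
      exact (hp.periodic_two_mul.int_mul k _).trans (by simpa using φ_odd r))
  rw [univ_prod_univ, contDiffOn_univ] at hK
  simp only [mem_univ, true_imp_iff, smul_eq_mul] at e
  have hc : ∀ a, Continuous fun θ => K (a, θ) := fun a => hK.continuous.comp (by fun_prop)
  obtain ⟨f, hf, ef⟩ := exists_fam (F := fun z => K z / l0) (hK.div_const _)
    (fun a => Geo.eq_of_sin_ne (((hc a).comp continuous_neg).div_const _) ((hc a).div_const _)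
      fun r hr => by
        have h1 := φ_odd r
        rw [e a, e a, sin_neg, neg_mul, neg_inj] at h1
        simp only [mul_left_cancel₀ hr h1])
    (fun a => Geo.eq_of_sin_ne (((hc a).comp (by fun_prop)).div_const _) ((hc a).div_const _)
      fun r hr => by
        have h1 := φ_sym r
        rw [e a, e a, sin_pi_sub] at h1
        simp only [mul_left_cancel₀ hr h1])
  have h0 : ∀ a, ex (f a) 0 = 1 := fun a => by
    have h1 : DifferentiableAt ℝ (fun θ => K (a, θ)) 0 :=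
      ((hK.comp (by fun_prop : ContDiff ℝ ∞ fun θ : ℝ => (a, θ))).differentiable (by simp)) 0
    have h2 := ((hasDerivAt_sin 0).fun_mul h1.hasDerivAt).deriv
    rw [← funext (e a), dφ] at h2
    have h3 := ef a 0
    simp only [sin_zero, cos_zero, one_mul, zero_mul, add_zero, sq] at h2 h3
    rw [h3, ← h2, div_self l_pos.ne']
  refine ⟨_, (hf.dX.tri (tri_Hop one_pos)).add (hf.dX.smul 2), fun a x hx => ?_, fun a θ => ?_⟩
  · rw [cf_eq (hf.1 a) (h0 a)]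
    rcases eq_or_lt_of_le hx.1 with h1 | h1
    · rw [← h1, h0]; exact one_pos
    obtain ⟨θ, hθ, rfl⟩ := exists_sin_sq ⟨h1, hx.2⟩
    have hθ' : θ ∈ Ioo 0 π := ⟨hθ.1, by linarith [hθ.2, pi_pos]⟩
    have h2 := φ_pos θ hθ'
    rw [e a] at h2
    rw [ef]
    exact div_pos ((mul_pos_iff_of_pos_left (sin_pos_of_mem_Ioo hθ')).1 h2) l_pos
  · rw [cf_eq (hf.1 a) (h0 a), ef, e a]
    field_simp

theorem Flow.bnd {q : ℕ} {J : Set ℝ} {U : ℝ → St} (h : Flow q J U) {B : ℝ} {t : ℝ} (ht : t ∈ J)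
    (hB : ∀ θ ∈ Ioo 0 π, |(geo q U).hh (θ, t)| ≤ B ∧ |(geo q U).Ds (geo q U).β (θ, t)| ≤ B ∧
      |(geo q U).A (θ, t)| ≤ B ∧ |(geo q U).u (θ, t)| ≤ B ∧ |log ((geo q U).l t)| ≤ B ∧
      (geo q U).l t * sin θ ≤ B * (geo q U).φ (θ, t)) :
    U t ∈ Bnd (12 * (1 + 2 * B * (B * exp B ^ 2)) + 12 * (B * exp B ^ 2) + 2 * B) := by
  have hm : π / 2 ∈ Ioo 0 π := ⟨by positivity, by linarith [pi_pos]⟩
  have hv := h.smT ht
  have h0 : 0 ≤ B := (abs_nonneg _).trans (hB _ hm).1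
  have hl : |ex (U t 3) 0| ≤ B := by simpa [geo] using (hB _ hm).2.2.2.2.1
  have hl0 := exp_pos (ex (U t 3) 0)
  have hl2 : exp (ex (U t 3) 0) ^ 2 ≤ exp B ^ 2 :=
    pow_le_pow_left₀ hl0.le (exp_le_exp.2 (abs_le.1 hl).2) 2
  have hE : 0 ≤ B * exp B ^ 2 := by positivity
  have hE2 : 0 ≤ 2 * B * (B * exp B ^ 2) := by positivity
  have hdiv : ∀ y : ℝ, |y / exp (ex (U t 3) 0) ^ 2| ≤ B → |y| ≤ B * exp B ^ 2 := fun y hy => by
    rw [abs_div, abs_of_pos (pow_pos hl0 2), div_le_iff₀ (pow_pos hl0 2)] at hy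
    exact hy.trans (mul_le_mul_of_nonneg_left hl2 h0)
  -- upper bound for `f`
  have hf : ‖cf (inp (U t) 0)‖ ≤ 2 * B := by
    have h1 : Ioc (0 : ℝ) 1 ⊆ {x | |ex (cf (inp (U t) 0)) x| ≤ 2 * B} := fun x hx => by
      obtain ⟨θ, hθ, rfl⟩ := exists_sin_sq hx
      have h2 := (convex_Icc 0 θ).image_sub_le_mul_sub_of_deriv_le
        (f := fun θ => (geo q U).φ (θ, t)) (C := exp (ex (U t 3) 0) * B)
        (fun y _ => (h.dφ ht y).continuousAt.continuousWithinAt)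
        (fun y _ => (h.dφ ht y).differentiableAt.differentiableWithinAt) (fun y hy => by
          rw [interior_Icc] at hy
          rw [(h.dφ ht y).deriv, ← h.A_eq ht]
          exact mul_le_mul_of_nonneg_left
            (abs_le.1 (hB y ⟨hy.1, by linarith [hy.2, hθ.2, hm.2]⟩).2.2.1).2 hl0.le)
        0 ⟨le_rfl, hθ.1.le⟩ θ ⟨hθ.1.le, le_rfl⟩ hθ.1.le
      simp only [geo, W_apply, sin_zero, zero_mul, mul_zero, sub_zero, mul_assoc] at h2
      have h3 := le_of_mul_le_mul_left h2 hl0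
      have h4 := mul_le_sin hθ.1.le hθ.2
      have h5 : θ ≤ 2 * sin θ := by
        rw [div_mul_eq_mul_div, div_le_iff₀ pi_pos] at h4
        nlinarith [pi_le_four, sin_nonneg_of_nonneg_of_le_pi hθ.1.le (hθ.2.trans hm.2.le)]
      have h6 := sin_pos_of_pos_of_lt_pi hθ.1 (hθ.2.trans_lt hm.2)
      refine (abs_of_pos (h.pos t ht _ (sin_sq_mem θ))).trans_le ?_
      refine le_of_mul_le_mul_left (h3.trans ?_) h6
      nlinarith [mul_le_mul_of_nonneg_left h5 h0]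
    have h2 := closure_minimal h1 (isClosed_le (ex_continuous _).abs continuous_const)
    rw [closure_Ioc zero_ne_one] at h2
    exact norm_le_of_ex h2
  have hN : ‖cN (inp (U t) 0) * inp (U t) 4‖ ≤ B * exp B ^ 2 := norm_le_of_sin fun θ hθ => by
    have := hdiv _ (hB θ hθ).1
    rwa [abs_neg] at this
  have hα : ‖inp (U t) 0‖ ≤ 12 * (1 + 2 * B * (B * exp B ^ 2)) :=
    norm_le_of_ode (hv 0).isD (b := fun x => 2 - 3 * x) (fun x _ => by linarith)
      (fun x _ => le_rfl) fun x hx => by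
      have h1 := (abs_ex_le _ x).trans ((norm_mul_le _ _).trans
        (mul_le_mul hf hN (norm_nonneg _) (by positivity)))
      rw [mul_left_comm, h.inv ht, mul_one] at h1
      simp only [cN, ch, ex_add, ex_sub, ex_mul, ex_smul, ex_one, ex_xx hx, ex_wt hx] at h1
      rw [abs_le] at h1 ⊢
      constructor <;> linarith [h1.1, h1.2]
  have hβ : ‖inp (U t) 1‖ ≤ 12 * (B * exp B ^ 2) := by
    have h1 : ‖(1 - (2 : ℝ) • xx) * inp (U t) 1 + (2 : ℝ) • (wt * dX (inp (U t) 1))‖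
        ≤ B * exp B ^ 2 := norm_le_of_sin fun θ hθ => by
      have := (hB θ hθ).2.1
      rw [h.Dsβ_eq ht] at this
      simpa only [ex_add, ex_sub, ex_mul, ex_smul, ex_one, ex_xx (sin_sq_mem θ),
        ex_wt (sin_sq_mem θ)] using hdiv _ this
    refine norm_le_of_ode (hv 1).isD (b := fun x => 1 - 2 * x) (fun x hx => by linarith [hx.1])
      (fun x hx => by linarith [hx.2]) fun x hx => ?_
    have h2 := (abs_ex_le _ x).trans h1
    simp only [ex_add, ex_sub, ex_mul, ex_smul, ex_one, ex_xx hx, ex_wt hx] at h2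
    rw [abs_le] at h2 ⊢
    constructor <;> linarith [h2.1, h2.2]
  have hu : ‖cu (inp (U t) 1) (inp (U t) 2)‖ ≤ 2 * B := norm_le_of_sin fun θ hθ => by
    have h1 := abs_le.1 (hB θ hθ).2.2.2.1
    have h2 := abs_le.1 hl
    simp only [geo, W_apply] at h1
    rw [abs_le]
    constructor <;> linarith [h1.1, h1.2, h2.1, h2.2]
  refine ⟨hα.trans (by linarith), hβ.trans (by linarith), ?_, hl.trans (by linarith),
    fun x hx => ?_⟩
  · have h1 := (abs_ex_le _ 0).trans hu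
    rw [ex_cu_zero] at h1
    exact ((congrArg abs (ex_ev0 (U t 2) 0)).symm.trans_le h1).trans (by linarith)
  · have h1 : Ioc (0 : ℝ) 1 ⊆ {x | 1 ≤ B * ex (cf (U t 0)) x} := fun x hx => by
      obtain ⟨θ, hθ, rfl⟩ := exists_sin_sq hx
      have h2 := (hB θ ⟨hθ.1, hθ.2.trans_lt hm.2⟩).2.2.2.2.2
      have h3 := mul_pos hl0 (sin_pos_of_pos_of_lt_pi hθ.1 (hθ.2.trans_lt hm.2))
      refine le_of_mul_le_mul_left ?_ h3
      simp only [geo, W_apply] at h2
      exact (mul_one _).trans_le (h2.trans_eq (by simp only [inp, Matrix.cons_val_zero]; ring))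
    have h2 := closure_minimal h1 (isClosed_le continuous_const
      (continuous_const.mul (ex_continuous _)))
    rw [closure_Ioc zero_ne_one] at h2
    exact le_trans (h2 hx) (mul_le_mul_of_nonneg_right (by linarith) (h.pos t ht x hx).le)

theorem exist (q : ℕ) (s0 : ℝ) {l0 : ℝ} {φ0 : ℝ → ℝ} {u0 : P × ℝ → ℝ} (l_pos : 0 < l0)
    (sm_φ : ContDiff ℝ ∞ φ0) (sm_u : ContDiff ℝ ∞ u0)
    (φ_odd : ∀ θ, φ0 (-θ) = -φ0 θ) (φ_sym : ∀ θ, φ0 (π - θ) = φ0 θ)
    (u_even : ∀ a θ, u0 (a, -θ) = u0 (a, θ)) (u_sym : ∀ a θ, u0 (a, π - θ) = u0 (a, θ))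
    (φ_pos : ∀ θ ∈ Ioo 0 π, 0 < φ0 θ) (dφ : deriv φ0 0 = l0) :
    ∃ (S : P → Q.Data) (J : P → Set ℝ),
      (∀ a, Q.Sol (S a) (J a) ∧ (S a).q = q ∧ (S a).sg 0 = s0 ∧ (S a).l 0 = l0 ∧
        (∀ θ, (S a).φ (θ, 0) = φ0 θ) ∧ ∀ θ, (S a).u (θ, 0) = u0 (a, θ)) ∧
      (∀ a, ∀ t ∈ J a, ∀ᶠ a' in 𝓝 a, t ∈ J a') ∧
      ContinuousOn (fun z : P × ℝ × ℝ =>
        ((S z.1).φ z.2, (S z.1).u z.2, d1 (S z.1).φ z.2, (S z.1).sg z.2.2)) {z | z.2.2 ∈ J z.1} ∧
      ∀ a, BddAbove (J a) → ¬ ∃ B : ℝ, ∀ θ ∈ Ioo 0 π, ∀ t ∈ J a,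
        |(S a).hh (θ, t)| ≤ B ∧ |(S a).Ds (S a).β (θ, t)| ≤ B ∧ |(S a).A (θ, t)| ≤ B ∧
        |(S a).u (θ, t)| ≤ B ∧ |log ((S a).l t)| ≤ B ∧ (S a).l t * sin θ ≤ B * (S a).φ (θ, t) := by
  obtain ⟨α, hα, pα, eα⟩ := exists_fam_φ (P := P) l_pos sm_φ φ_odd φ_sym φ_pos dφ
  obtain ⟨c, hc, ec⟩ := exists_fam (F := fun z => u0 z - log l0) (sm_u.sub contDiff_const)
    (fun a θ => by simp only [u_even]) fun a θ => by simp only [u_sym]
  let a : P → St := fun z => ![α z, (2 : ℝ) • dX (c z), ev0 (c z),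
    ContinuousMap.const _ (log l0), ContinuousMap.const _ s0]
  have ha : ∀ i, Fam fun z => a z i := fun i => by
    fin_cases i
    exacts [hα, hc.dX.smul 2, hc.tri tri_ev0, fam_const _, fam_const _]
  obtain ⟨J, U, hF, hJ, hU, hmax⟩ := exists_flow (Nat.cast_nonneg q) (a := a)
    ⟨fun z i => (ha i).1 z, fun k i => (ha i).2 k⟩ pα fun z i hi => by
      fin_cases i
      exacts [absurd hi (by decide), absurd hi (by decide), (isD_ev0 _).dX_eq,
        (isD_const _).dX_eq, (isD_const _).dX_eq]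
  refine ⟨fun z => geo q (U z), J, fun z => ⟨(hF z).1.sol, rfl, ?_, ?_, fun θ => ?_, fun θ => ?_⟩,
    hJ, ?_, fun z hb ⟨B, hB⟩ => hmax z hb _ fun t ht => (hF z).1.bnd ht fun θ hθ => hB θ hθ t ht⟩
  · simp [geo, (hF z).2, a]
  · simp [geo, (hF z).2, a, exp_log l_pos]
  · simp [geo, W_apply, inp, (hF z).2, a, exp_log l_pos, eα]
  · have h1 := cu_eq (R := c z) (b := (2 : ℝ) • dX (c z)) (m := ev0 (c z))
      (by simpa [smul_smul] using (hc.1 z).isD) ((hc.1 z).dX.smul 2) (ex_ev0 _ _)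
    simp [geo, W_apply, inp, (hF z).2, a, h1, ec]
  · have h1 : ContinuousOn (fun z : P × ℝ × ℝ => U z.1 z.2.2) {z | z.2.2 ∈ J z.1} :=
      hU.comp (f := fun z : P × ℝ × ℝ => (z.1, z.2.2)) (by fun_prop) fun z hz => hz
    have h2 : ∀ F : St → CI, Continuous F → ∀ g : ℝ → ℝ, Continuous g → ContinuousOn
        (fun z : P × ℝ × ℝ => ex (F (U z.1 z.2.2)) (g z.2.1)) {z | z.2.2 ∈ J z.1} :=
      fun F hF g hg => continuous_ex_uncurry.comp_continuousOn
        ((hF.comp_continuousOn h1).prodMk (by fun_prop))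
    have h3 := h2 (fun u => u 3) (continuous_apply 3) _ (continuous_const (y := 0))
    have hs : Continuous fun θ : ℝ => sin θ ^ 2 := by fun_prop
    have hW : ∀ F : St → CI, (Continuous fun u => F (inp u)) →
        ContinuousOn (fun z : P × ℝ × ℝ => W (U z.1) F z.2) {z | z.2.2 ∈ J z.1} :=
      fun F hF => h2 (fun u => F (inp u)) hF (fun θ => sin θ ^ 2) hs
    have k1 := hW (fun v => cf (v 0)) (continuous_cf.comp (continuous_apply 0))
    have k2 := hW (fun v => cu (v 1) (v 2))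
      (show Continuous fun u : St => cu (u 1) (ev0 (u 2)) by unfold cu; fun_prop)
    have k3 := hW (fun v => ch (v 0)) (show Continuous fun u : St => ch (u 0) by
      unfold ch; fun_prop)
    have k4 : ContinuousOn (fun z : P × ℝ × ℝ => sin z.2.1) {z | z.2.2 ∈ J z.1} := by fun_prop
    have k5 : ContinuousOn (fun z : P × ℝ × ℝ => cos z.2.1) {z | z.2.2 ∈ J z.1} := by fun_prop
    have k6 := h2 (fun u => u 4) (continuous_apply 4) _ (continuous_const (y := 0))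
    exact (h3.rexp.mul (k4.mul k1)).prodMk ((k2.add h3).prodMk (((h3.rexp.mul (k5.mul k3)).congr
      fun z hz => ((hF z.1).1.dφ hz z.2.1).deriv).prodMk k6))

end Vale.Agent.P244Z.Ex
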