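import Vale.Agent.P244Z.Ex.Picard
import Mathlib.Analysis.Calculus.ContDiff.Deriv
import Mathlib.Analysis.Calculus.ContDiff.Operations

/-!
Passing between smooth curves in the function space and jointly smooth functions.
-/

namespace Vale.Agent.P244Z.Ex

open Set Filter Topology Asymptotics
open scoped ContDiff

/-- Curves which are smooth in time with all their space derivatives. -/
structure JS (J : Set ℝ) (F : ℝ → CI) : Prop where
  sm : ∀ t ∈ J, Sm (F t)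
  ts : ∀ k, ContDiffOn ℝ ∞ (fun t => D k (F t)) J

theorem JS.dX {J : Set ℝ} {F : ℝ → CI} (h : JS J F) : JS J fun t => dX (F t) :=
  ⟨fun t ht => (h.sm t ht).dX, fun k => by simpa only [D_succ] using h.ts (k + 1)⟩

theorem JS.hasDerivWithinAt {J : Set ℝ} {F : ℝ → CI} (h : JS J F) (k : ℕ) {t : ℝ} (ht : t ∈ J) :
    HasDerivWithinAt (fun t => D k (F t)) (derivWithin (fun t => D k (F t)) J t) J t :=
  ((h.ts k).differentiableOn (by simp) t ht).hasDerivWithinAt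

theorem JS.deriv {J : Set ℝ} (hJ : UniqueDiffOn ℝ J) {F : ℝ → CI} (h : JS J F) :
    JS J (derivWithin F J) := by
  have key := fun t (ht : t ∈ J) => sm_of_seq (c := fun k => derivWithin (fun t => D k (F t)) J t)
    fun k => IsD.of_hasDerivWithinAt (hJ t ht) ht (h.hasDerivWithinAt k ht)
      (h.hasDerivWithinAt (k + 1) ht) fun s hs => h.sm s hs k
  refine ⟨fun t ht => (key t ht).1, fun k => ?_⟩
  exact ((h.ts k).derivWithin hJ (by simp)).congr fun t ht => (key t ht).2 k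

theorem hasFDerivWithinAt_ex {J : Set ℝ} {F : ℝ → CI} {F' g : CI} {t x : ℝ}
    (hF : HasDerivWithinAt F F' J t) (hg : IsD (F t) g) (hx : x ∈ Icc (0 : ℝ) 1) :
    HasFDerivWithinAt (fun p : ℝ × ℝ => ex (F p.2) p.1)
      (ex g x • ContinuousLinearMap.fst ℝ ℝ ℝ + ex F' x • ContinuousLinearMap.snd ℝ ℝ ℝ)
      (Icc 0 1 ×ˢ J) (x, t) := by
  have h1 : HasFDerivWithinAt (fun p : ℝ × ℝ => ex (F t) p.1)
      (ex g x • ContinuousLinearMap.fst ℝ ℝ ℝ) (Icc 0 1 ×ˢ J) (x, t) :=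
    (hg x hx).comp_hasFDerivWithinAt (x, t) hasFDerivWithinAt_fst fun p hp => hp.1
  have hs : Tendsto Prod.snd (𝓝[Icc (0 : ℝ) 1 ×ˢ J] (x, t)) (𝓝[J] t) :=
    continuousWithinAt_snd.tendsto_nhdsWithin fun p hp => hp.2
  have hb : (fun p : ℝ × ℝ => p.2 - t) =O[𝓝[Icc (0 : ℝ) 1 ×ˢ J] (x, t)] fun p => p - (x, t) :=
    isBigO_of_le _ fun p => norm_snd_le (p - (x, t))
  have h2 : (fun p : ℝ × ℝ => ex (F p.2 - F t - (p.2 - t) • F') p.1)
      =o[𝓝[Icc (0 : ℝ) 1 ×ˢ J] (x, t)] fun p => p - (x, t) :=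
    ((isBigO_of_le _ fun p => abs_ex_le _ _).trans_isLittleO
      ((hasDerivWithinAt_iff_isLittleO.1 hF).comp_tendsto hs)).trans_isBigO hb
  have h3 : (fun p : ℝ × ℝ => (ex F' p.1 - ex F' x) * (p.2 - t))
      =o[𝓝[Icc (0 : ℝ) 1 ×ˢ J] (x, t)] fun p => p - (x, t) := by
    have h4 : (fun p : ℝ × ℝ => ex F' p.1 - ex F' x)
        =o[𝓝[Icc (0 : ℝ) 1 ×ˢ J] (x, t)] fun _ => (1 : ℝ) := by
      rw [isLittleO_one_iff]
      have : Continuous fun p : ℝ × ℝ => ex F' p.1 - ex F' x :=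
        ((ex_continuous F').comp continuous_fst).sub continuous_const
      simpa using (this.tendsto (x, t)).mono_left nhdsWithin_le_nhds
    have := h4.mul_isBigO hb.norm_right
    simp only [one_mul] at this
    exact this.of_norm_right
  have h5 := ((hasFDerivWithinAt_iff_isLittleO.1 h1).add h2).add h3
  rw [hasFDerivWithinAt_iff_isLittleO]
  refine h5.congr_left fun p => ?_
  simp only [ex_sub, ex_smul, add_apply, smul_apply,
    ContinuousLinearMap.coe_fst', ContinuousLinearMap.coe_snd', Prod.fst_sub, Prod.snd_sub,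
    smul_eq_mul]
  ring

theorem JS.contDiffOn_nat {J : Set ℝ} (hJ : UniqueDiffOn ℝ J) (n : ℕ) : ∀ {F : ℝ → CI}, JS J F →
    ContDiffOn ℝ n (fun p : ℝ × ℝ => ex (F p.2) p.1) (Icc 0 1 ×ˢ J) := by
  induction n with
  | zero =>
    intro F h
    rw [Nat.cast_zero, contDiffOn_zero]
    exact continuous_ex_uncurry.comp_continuousOn
      (((h.ts 0).continuousOn.comp continuousOn_snd fun p hp => hp.2).prodMk continuousOn_fst)
  | succ n ih =>
    intro F h
    rw [Nat.cast_succ, contDiffOn_succ_iff_hasFDerivWithinAt_of_uniqueDiffOn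
      ((uniqueDiffOn_Icc zero_lt_one).prod hJ)]
    refine ⟨by simp, fun p => ex (Ex.dX (F p.2)) p.1 • ContinuousLinearMap.fst ℝ ℝ ℝ
      + ex (derivWithin F J p.2) p.1 • ContinuousLinearMap.snd ℝ ℝ ℝ,
      ((ih h.dX).smul contDiffOn_const).add ((ih (h.deriv hJ)).smul contDiffOn_const), ?_⟩
    rintro ⟨x, t⟩ ⟨hx, ht⟩
    exact hasFDerivWithinAt_ex (h.hasDerivWithinAt 0 ht) (h.sm t ht).isD hx

/-- The function of the angle and the time defined by a curve. -/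
noncomputable def lift (F : ℝ → CI) (p : ℝ × ℝ) : ℝ := ex (F p.2) (Real.sin p.1 ^ 2)

theorem sin_sq_mem (θ : ℝ) : Real.sin θ ^ 2 ∈ Icc (0 : ℝ) 1 := ⟨sq_nonneg _, Real.sin_sq_le_one _⟩

theorem JS.lift {J : Set ℝ} (hJ : UniqueDiffOn ℝ J) {F : ℝ → CI} (h : JS J F) :
    ContDiffOn ℝ ∞ (lift F) (univ ×ˢ J) := by
  have h1 : ContDiffOn ℝ ∞ (fun p : ℝ × ℝ => ex (F p.2) p.1) (Icc 0 1 ×ˢ J) :=
    contDiffOn_infty.2 fun n => h.contDiffOn_nat hJ n
  exact h1.comp (f := fun p : ℝ × ℝ => (Real.sin p.1 ^ 2, p.2)) (by fun_prop)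
    fun p hp => ⟨sin_sq_mem _, hp.2⟩

theorem IsD.hasDerivAt_sin {f g : CI} (h : IsD f g) (θ : ℝ) :
    HasDerivAt (fun θ => ex f (Real.sin θ ^ 2))
      (ex g (Real.sin θ ^ 2) * (2 * Real.sin θ * Real.cos θ)) θ := by
  have h1 : HasDerivAt (fun θ => Real.sin θ ^ 2) (2 * Real.sin θ * Real.cos θ) θ := by
    simpa using (Real.hasDerivAt_sin θ).fun_pow 2
  exact (h _ (sin_sq_mem θ)).comp_hasDerivAt θ h1 (Eventually.of_forall sin_sq_mem)

theorem norm_le_of_sin {f : CI} {C : ℝ} (h : ∀ θ ∈ Ioo 0 Real.pi, |ex f (Real.sin θ ^ 2)| ≤ C) :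
    ‖f‖ ≤ C := by
  refine norm_le_of_ex fun x hx => ?_
  have h1 : Ioc (0 : ℝ) 1 ⊆ {x | |ex f x| ≤ C} := fun y hy => by
    have h2 : √y ≤ 1 := Real.sqrt_le_one.2 hy.2
    have := h (Real.arcsin √y) ⟨Real.arcsin_pos.2 (Real.sqrt_pos.2 hy.1),
      by linarith [Real.arcsin_le_pi_div_two √y, Real.pi_pos]⟩
    rwa [Real.sin_arcsin (by linarith [Real.sqrt_nonneg y]) h2, Real.sq_sqrt hy.1.le] at this
  have h2 := closure_minimal h1 (isClosed_le (ex_continuous f).abs continuous_const)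
  rw [closure_Ioc zero_ne_one] at h2
  exact h2 hx

/-! ### Families of smooth functions -/

theorem exists_cv {P : Type} [NormedAddCommGroup P] [NormedSpace ℝ P] {G : P × ℝ → ℝ}
    (hG : ContDiffOn ℝ ∞ G (univ ×ˢ Icc 0 1)) :
    ∃ c : P → CI, (∀ a, Sm (c a)) ∧ (∀ k, Continuous fun a => D k (c a)) ∧
      ∀ a, ∀ x ∈ Icc (0 : ℝ) 1, ex (c a) x = G (a, x) := by
  have hU : UniqueDiffOn ℝ ((univ : Set P) ×ˢ Icc (0 : ℝ) 1) :=
    uniqueDiffOn_univ.prod (uniqueDiffOn_Icc zero_lt_one)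
  let T : (P × ℝ → ℝ) → P × ℝ → ℝ := fun F z => fderivWithin ℝ F (univ ×ˢ Icc 0 1) z (0, 1)
  have hT : ∀ k, ContDiffOn ℝ ∞ (T^[k] G) (univ ×ˢ Icc 0 1) := fun k => by
    induction k with
    | zero => exact hG
    | succ k ih =>
      rw [Function.iterate_succ_apply']
      exact (ih.fderivWithin hU (by simp)).clm_apply contDiffOn_const
  have hc : ∀ k, Continuous fun z : P × Icc (0 : ℝ) 1 => T^[k] G (z.1, z.2) := fun k =>
    (hT k).continuousOn.comp_continuous (by fun_prop) fun z => ⟨trivial, z.2.2⟩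
  let c : ℕ → P → CI := fun k a => ⟨fun x => T^[k] G (a, x),
    (hc k).comp (Continuous.prodMk_right a)⟩
  have he : ∀ k a, ∀ x ∈ Icc (0 : ℝ) 1, ex (c k a) x = T^[k] G (a, x) :=
    fun k a x hx => ex_of_mem _ hx
  have hD : ∀ a k, IsD (c k a) (c (k + 1) a) := fun a k x hx => by
    rw [he _ _ x hx, Function.iterate_succ_apply']
    have h1 := ((hT k).differentiableOn (by simp) (a, x) ⟨trivial, hx⟩).hasFDerivWithinAt
    have h2 : HasDerivWithinAt (fun y : ℝ => (a, y)) ((0 : P), (1 : ℝ)) (Icc 0 1) x :=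
      ((hasDerivAt_const x a).prodMk (hasDerivAt_id x)).hasDerivWithinAt
    exact (h1.comp_hasDerivWithinAt x h2 fun y hy => ⟨trivial, hy⟩).congr (he k a) (he k a x hx)
  refine ⟨c 0, fun a => (sm_of_seq (c := fun k => c k a) (hD a)).1, fun k => ?_, he 0⟩
  simp only [fun a => (sm_of_seq (c := fun k => c k a) (hD a)).2 k]
  exact ContinuousMap.continuous_of_continuous_uncurry _ (hc k)

end Vale.Agent.P244Z.Ex
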