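import Vale.Agent.P244Z.Ex.Picard

/-!
Maximal solutions obtained from a sequence of truncated systems.
-/

namespace Vale.Agent.P244Z.Ex

open Set Filter Topology

variable {ι : Type} [Fintype ι]

omit [Fintype ι] in
theorem Cv.continuous {Z : Type} [TopologicalSpace Z] {u : Z → ι → CI} (hu : Cv u) :
    Continuous u := continuous_pi fun i => hu.cont 0 i

theorem sol_congr {μ ν : ℝ} (hμ : 1 ≤ μ) (hν : 1 ≤ ν) {G G' : (ι → CI) → ι → CI} (hG : Rhs G)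
    (hG' : Rhs G') {u₀ : ι → CI} (h₀ : SmT u₀) {T : ℝ}
    (e : ∀ s ∈ Icc 0 T, G (sol μ ν G u₀ s) = G' (sol μ ν G u₀ s)) :
    ∀ t ∈ Icc 0 T, sol μ ν G u₀ t = sol μ ν G' u₀ t :=
  eq_sol hμ hν hG' h₀ (cv_sol hμ hν hG h₀) fun t ht => by
    rw [sol_eq hμ hν hG h₀ t]
    exact duhT_congr _ ht.1 fun s hs => e s ⟨hs.1, hs.2.trans ht.2⟩

theorem exists_maximal {μ ν : ℝ} (hμ : 1 ≤ μ) (hν : 1 ≤ ν) (G : ℕ → (ι → CI) → ι → CI)
    (hG : ∀ M, Rhs (G M)) (K : ℕ → Set (ι → CI)) (hK : ∀ M, IsOpen (K M))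
    (hc : ∀ M M', M ≤ M' → ∀ u ∈ K M, G M u = G M' u) {Z : Type} [TopologicalSpace Z]
    {a : Z → ι → CI} (ha : Cv a) (h0 : ∀ z, ∃ M, a z ∈ K M) :
    ∃ (J : Z → Set ℝ) (U : Z → ℝ → ι → CI), (∀ z, (0 : ℝ) ∈ J z) ∧ (∀ z, ∀ t ∈ J z, 0 ≤ t) ∧
      (∀ z, ∀ t ∈ J z, Icc 0 t ⊆ J z) ∧
      (∀ z, ∀ t ∈ J z, ∃ M, ∀ᶠ y in 𝓝 (z, t), 0 ≤ y.2 →
        y.2 ∈ J y.1 ∧ U y.1 y.2 = sol μ ν (G M) (a y.1) y.2 ∧ U y.1 y.2 ∈ K M) ∧
      ∀ z, BddAbove (J z) → ∀ M (C : Set (ι → CI)), IsClosed C → C ⊆ K M →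
        ¬ ∀ t ∈ J z, U z t ∈ C := by
  classical
  let s : ℕ → Z → ℝ → ι → CI := fun M z => sol μ ν (G M) (a z)
  let P : ℕ → Z → ℝ → Prop := fun M z t => ∀ r ∈ Icc 0 t, s M z r ∈ K M
  have up : ∀ M M' z t, M ≤ M' → P M z t → ∀ r ∈ Icc 0 t, s M z r = s M' z r :=
    fun M M' z t h hP => sol_congr hμ hν (hG M) (hG M') (ha.sm z) fun r hr => hc M M' h _ (hP r hr)
  have cons : ∀ M M' z t, P M z t → P M' z t → ∀ r ∈ Icc 0 t, s M z r = s M' z r :=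
    fun M M' z t h h' r hr => (up M (max M M') z t (le_max_left _ _) h r hr).trans
      (up M' (max M M') z t (le_max_right _ _) h' r hr).symm
  let J : Z → Set ℝ := fun z => {t | 0 ≤ t ∧ ∃ M, P M z t}
  let U : Z → ℝ → ι → CI := fun z t => if h : ∃ M, P M z t then s h.choose z t else a z
  have hU : ∀ M z t, 0 ≤ t → P M z t → U z t = s M z t := fun M z t ht h => by
    have h' : ∃ M, P M z t := ⟨M, h⟩
    simp only [U, dif_pos h']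
    exact cons _ _ z t h'.choose_spec h t ⟨ht, le_rfl⟩
  have hdown : ∀ M z t r, r ≤ t → P M z t → P M z r :=
    fun M z t r h hP x hx => hP x ⟨hx.1, hx.2.trans h⟩
  have hcont : ∀ M, Continuous fun y : Z × ℝ => s M y.1 y.2 :=
    fun M => (cv_sol_param hμ hν (hG M) ha).continuous
  have hopen : ∀ M z t, 0 ≤ t → P M z t → ∀ᶠ y in 𝓝 (z, t), 0 ≤ y.2 → P M y.1 y.2 := by
    intro M z t ht hP
    have h1 : ∀ᶠ y : Z × ℝ in 𝓝 (z, t), ∀ σ ∈ Icc (0 : ℝ) 1, s M y.1 (σ * y.2) ∈ K M := by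
      refine isCompact_Icc.eventually_forall_of_forall_eventually fun σ hσ => ?_
      have h2 : Continuous fun w : (Z × ℝ) × ℝ => s M w.1.1 (w.2 * w.1.2) :=
        (hcont M).comp (f := fun w : (Z × ℝ) × ℝ => (w.1.1, w.2 * w.1.2)) (by fun_prop)
      exact h2.continuousAt.eventually ((hK M).mem_nhds
        (hP _ ⟨mul_nonneg hσ.1 ht, mul_le_of_le_one_left ht hσ.2⟩))
    filter_upwards [h1] with y hy h2 r hr
    have h3 := hy (r / y.2) ⟨div_nonneg hr.1 h2, div_le_one_of_le₀ hr.2 h2⟩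
    rcases eq_or_lt_of_le h2 with e | l
    · have : r = r / y.2 * y.2 := by rw [← e, mul_zero]; exact le_antisymm (e ▸ hr.2) hr.1
      rwa [this]
    · rwa [div_mul_cancel₀ _ l.ne'] at h3
  have hloc : ∀ z, ∀ t ∈ J z, ∃ M, ∀ᶠ y in 𝓝 (z, t), 0 ≤ y.2 →
      y.2 ∈ J y.1 ∧ U y.1 y.2 = sol μ ν (G M) (a y.1) y.2 ∧ U y.1 y.2 ∈ K M := by
    rintro z t ⟨ht, M, hP⟩
    refine ⟨M, ?_⟩
    filter_upwards [hopen M z t ht hP] with y hy h2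
    refine ⟨⟨h2, M, hy h2⟩, hU M _ _ h2 (hy h2), ?_⟩
    rw [hU M _ _ h2 (hy h2)]
    exact hy h2 _ ⟨h2, le_rfl⟩
  have hz : ∀ M z, a z ∈ K M → P M z 0 := fun M z h r hr => by
    rw [le_antisymm hr.2 hr.1]
    show sol μ ν (G M) (a z) 0 ∈ K M
    rwa [sol_zero hμ hν (hG M) (ha.sm z)]
  have hJ0 : ∀ z, (0 : ℝ) ∈ J z := fun z => by
    obtain ⟨M, h⟩ := h0 z
    exact ⟨le_rfl, M, hz M z h⟩
  refine ⟨J, U, hJ0, fun z t h => h.1, ?_, hloc, ?_⟩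
  · rintro z t ⟨-, M, hP⟩ r hr
    exact ⟨hr.1, M, hdown M z t r hr.2 hP⟩
  intro z hb M C hC hCK hall
  have h1 : ∀ t ∈ J z, s M z t ∈ C := by
    rintro t ⟨ht, M', hP⟩
    have e1 := up M' (max M M') z t (le_max_right _ _) hP
    have e2 : ∀ r ∈ Icc 0 t, s (max M M') z r ∈ C := fun r hr => by
      rw [← e1 r hr, ← hU M' z r hr.1 (hdown M' z t r hr.2 hP)]
      exact hall r ⟨hr.1, M', hdown M' z t r hr.2 hP⟩
    have e3 := sol_congr hμ hν (hG (max M M')) (hG M) (ha.sm z) (T := t)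
      fun r hr => (hc M _ (le_max_left _ _) _ (hCK (e2 r hr))).symm
    have := e2 t ⟨ht, le_rfl⟩
    rwa [show s (max M M') z t = s M z t from e3 t ⟨ht, le_rfl⟩] at this
  have hτ0 : 0 ≤ sSup (J z) := le_csSup hb (hJ0 z)
  have hcl : IsClosed {t | s M z t ∈ C} :=
    hC.preimage ((hcont M).comp (f := fun t : ℝ => (z, t)) (by fun_prop))
  have h2 : P M z (sSup (J z)) := by
    intro r hr
    rcases eq_or_lt_of_le hr.2 with e | l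
    · rw [e]
      exact hCK (closure_minimal h1 hcl (csSup_mem_closure ⟨0, hJ0 z⟩ hb))
    · obtain ⟨t, ⟨-, M', hP⟩, hrt⟩ := exists_lt_of_lt_csSup ⟨0, hJ0 z⟩ l
      exact hCK (h1 r ⟨hr.1, M', hdown M' z t r hrt.le hP⟩)
  have h3 : ∀ᶠ t in 𝓝[>] (sSup (J z)), 0 ≤ t → P M z t :=
    ((Continuous.prodMk_right z).continuousAt.eventually (hopen M z _ hτ0 h2)).filter_mono
      nhdsWithin_le_nhds
  obtain ⟨t, ht1, ht2⟩ := (h3.and self_mem_nhdsWithin).exists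
  have ht0 : 0 ≤ t := hτ0.trans (le_of_lt ht2)
  exact absurd (le_csSup hb (⟨ht0, M, ht1 ht0⟩ : t ∈ J z)) (not_le.2 ht2)

end Vale.Agent.P244Z.Ex
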