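import Vale.Agent.P244Z.Ex.Sys
import Vale.Agent.P244Z.Ex.Maxi
import Vale.Agent.P244Z.Ex.Joint
import Vale.Agent.P244Z.Defs

/-!
Maximal solutions of the parabolic system.
-/

namespace Vale.Agent.P244Z.Ex

open Set Filter Topology
open scoped ContDiff

/-- The time derivative of the `i`-th component prescribed by the system. -/
noncomputable def vel (q : ℝ) (u : St) (i : Fin 5) : CI :=
  Lop (q + 3) 3 (dX (u i)) (dX (dX (u i))) + (AA q (inp u) i + BB q (inp u) i * (wt * dX (u i)))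

/-- A solution of the system on the time set `J`. -/
structure Flow (q : ℝ) (J : Set ℝ) (U : ℝ → St) : Prop where
  time : TimeSet J
  js : ∀ F, Nice F → JS J fun t => F (inp (U t))
  sm4 : ContDiffOn ℝ ∞ (fun t => ex (U t 4) 0) J
  pos : ∀ t ∈ J, ∀ x ∈ Icc (0 : ℝ) 1, 0 < ex (cf (U t 0)) x
  eq : ∀ t ∈ J, 0 < t → ∀ i, HasDerivAt (fun s => U s i) (vel q (U t) i) t
  const : ∀ t ∈ J, ∀ i, 2 ≤ i → dX (U t i) = 0

/-- The bounds which allow to continue a solution. -/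
def Bnd (B : ℝ) : Set St := {u | ‖u 0‖ ≤ B ∧ ‖u 1‖ ≤ B ∧ |ex (u 2) 0| ≤ B ∧ |ex (u 3) 0| ≤ B ∧
  ∀ x ∈ Icc (0 : ℝ) 1, 1 ≤ B * ex (cf (u 0)) x}

theorem isClosed_Bnd (B : ℝ) : IsClosed (Bnd B) := by
  have he : ∀ i : Fin 5, Continuous fun u : St => |ex (u i) 0| :=
    fun i => ((exL 0).continuous.comp (continuous_apply i)).abs
  refine (isClosed_le (continuous_apply 0).norm continuous_const).inter
    ((isClosed_le (continuous_apply 1).norm continuous_const).inter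
    ((isClosed_le (he 2) continuous_const).inter ((isClosed_le (he 3) continuous_const).inter ?_)))
  have : {u : St | ∀ x ∈ Icc (0 : ℝ) 1, 1 ≤ B * ex (cf (u 0)) x}
      = ⋂ x ∈ Icc (0 : ℝ) 1, {u : St | 1 ≤ B * ex (cf (u 0)) x} := by ext; simp
  refine (show IsClosed {u : St | ∀ x ∈ Icc (0 : ℝ) 1, 1 ≤ B * ex (cf (u 0)) x} from ?_)
  exact this ▸ isClosed_biInter fun x _ => isClosed_le continuous_const (continuous_const.mul
    ((exL x).continuous.comp (continuous_cf.comp (continuous_apply 0))))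

theorem Bnd_subset {B : ℝ} {M : ℕ} (h : B < M) : Bnd B ⊆ KM M := fun u hu => by
  refine ⟨hu.1.trans_lt h, hu.2.1.trans_lt h, hu.2.2.1.trans_lt h, hu.2.2.2.1.trans_lt h,
    fun x hx => ?_⟩
  have h0 : 0 ≤ B := (norm_nonneg _).trans hu.1
  have h1 := hu.2.2.2.2 x hx
  have h2 : 0 < ex (cf (u 0)) x := by
    by_contra hn
    nlinarith [mul_nonneg h0 (neg_nonneg.2 (not_lt.1 hn))]
  rw [div_lt_iff₀ (by positivity)]
  nlinarith

theorem exists_KM {u : St} (h : ∀ x ∈ Icc (0 : ℝ) 1, 0 < ex (cf (u 0)) x) : ∃ M, u ∈ KM M := by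
  obtain ⟨x, hx, hm⟩ := exists_max (-cf (u 0))
  have hc := h x hx
  set c := ex (cf (u 0)) x with hcx
  obtain ⟨M, hM⟩ := exists_nat_gt (‖u‖ + 1 / c)
  have h1 : ∀ i, ‖u i‖ ≤ ‖u‖ + 1 / c :=
    fun i => (norm_le_pi_norm u i).trans (le_add_of_nonneg_right (by positivity))
  refine ⟨M, Bnd_subset hM ⟨h1 0, h1 1, (abs_ex_le _ _).trans (h1 2),
    (abs_ex_le _ _).trans (h1 3), fun y hy => ?_⟩⟩
  have h2 : c ≤ ex (cf (u 0)) y := by have := hm y hy; simp only [ex_neg] at this; linarith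
  have h3 : 1 / c * c = 1 := one_div_mul_cancel hc.ne'
  nlinarith [mul_nonneg (norm_nonneg u) (hc.le.trans h2), mul_le_mul_of_nonneg_left h2
    (one_div_pos.2 hc).le]

theorem dX_GM (q : ℝ) (M : ℕ) (u : St) {i : Fin 5} (hi : 2 ≤ i) : D 1 (GM q M u i) = 0 := by
  have h : ∀ f : CI, D 1 (ev0 f + 0 * (wt * dX (u i))) = 0 := fun f => by
    rw [zero_mul, add_zero, ev0_apply, D_const]
  fin_cases i
  · exact absurd hi (by decide)
  · exact absurd hi (by decide)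
  all_goals exact h _

theorem exists_flow {q : ℝ} (hq : 0 ≤ q) {Z : Type} [TopologicalSpace Z] {a : Z → St}
    (ha : Cv a) (hpos : ∀ z, ∀ x ∈ Icc (0 : ℝ) 1, 0 < ex (cf (a z 0)) x)
    (hc : ∀ z i, 2 ≤ i → dX (a z i) = 0) :
    ∃ (J : Z → Set ℝ) (U : Z → ℝ → St), (∀ z, Flow q (J z) (U z) ∧ U z 0 = a z) ∧
      (∀ z, ∀ t ∈ J z, ∀ᶠ z' in 𝓝 z, t ∈ J z') ∧
      ContinuousOn (fun y : Z × ℝ => U y.1 y.2) {y | y.2 ∈ J y.1} ∧
      ∀ z, BddAbove (J z) → ∀ B, ¬ ∀ t ∈ J z, U z t ∈ Bnd B := by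
  have hμ : (1 : ℝ) ≤ q + 3 := by linarith
  have hν : (1 : ℝ) ≤ 3 := by norm_num
  obtain ⟨J, U, hJ0, hJ1, hJ2, hloc, hmax⟩ := exists_maximal hμ hν (GM q) (rhs_GM q) KM isOpen_KM
    (fun M M' h u hu => funext fun i => by rw [GM_eq q hu, GM_eq q (KM_mono h hu)]) ha
    fun z => exists_KM (hpos z)
  have hl : ∀ z, ∀ t ∈ J z, ∃ M, ∀ᶠ s in 𝓝 t, 0 ≤ s →
      s ∈ J z ∧ U z s = sol (q + 3) 3 (GM q M) (a z) s ∧ U z s ∈ KM M := fun z t ht =>
    (hloc z t ht).imp fun M hM => (Continuous.prodMk_right z).continuousAt.eventually hM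
  have hts := fun M z n k i => ts_sol hμ hν (fun i => nice_AA q i _ (good_inpM M))
    (fun i => nice_BB q i _ (good_inpM M)) (ha.sm z) n k i
  have hsm := fun M z t => (cv_sol hμ hν (rhs_GM q M) (ha.sm z)).sm t
  refine ⟨J, U, fun z => ⟨⟨⟨hJ0 z, hJ1 z, hJ2 z, fun t ht => ?_⟩, fun F hF => ⟨fun t ht => ?_,
    fun k => contDiffOn_infty.2 fun n t ht => ?_⟩, contDiffOn_infty.2 fun n t ht => ?_,
    fun t ht x hx => ?_, fun t ht t0 i => ?_, fun t ht i hi => ?_⟩, ?_⟩, fun z t ht => ?_,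
    fun y hy => ?_, fun z hb B => ?_⟩
  · obtain ⟨M, hM⟩ := hl z t ht
    obtain ⟨s, h1, h2⟩ := ((hM.filter_mono (nhdsWithin_le_nhds (s := Ioi t))).and
      self_mem_nhdsWithin).exists
    exact ⟨s, (h1 ((hJ1 z t ht).trans (le_of_lt h2))).1, h2⟩
  · obtain ⟨M, hM⟩ := hl z t ht
    obtain ⟨-, h1, h2⟩ := hM.self_of_nhds (hJ1 z t ht)
    rw [← inpM_eq h2, h1]
    exact (hF _ (good_inpM M)).sm (hsm M z t)
  · obtain ⟨M, hM⟩ := hl z t ht
    have h1 := (hF _ (good_inpM M)).ts n (Ici 0) k _ (hsm M z) (hts M z n k) k le_rfl t (hJ1 z t ht)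
    refine (h1.mono (hJ1 z)).congr_of_eventuallyEq_of_mem ?_ ht
    filter_upwards [nhdsWithin_le_nhds hM, self_mem_nhdsWithin] with s h2 h3
    obtain ⟨-, h4, h5⟩ := h2 (hJ1 z s h3)
    rw [← inpM_eq h5, h4]
  · obtain ⟨M, hM⟩ := hl z t ht
    have h1 := (exL 0).contDiff.comp_contDiffWithinAt (hts M z n 0 4 0 le_rfl t (hJ1 z t ht))
    refine (h1.mono (hJ1 z)).congr_of_eventuallyEq_of_mem ?_ ht
    filter_upwards [nhdsWithin_le_nhds hM, self_mem_nhdsWithin] with s h2 h3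
    rw [(h2 (hJ1 z s h3)).2.1]
    rfl
  · obtain ⟨M, hM⟩ := hl z t ht
    exact lt_trans (by positivity) ((hM.self_of_nhds (hJ1 z t ht)).2.2.2.2.2.2 x hx)
  · obtain ⟨M, hM⟩ := hl z t ht
    obtain ⟨-, h1, h2⟩ := hM.self_of_nhds t0.le
    have h3 := (hasDerivWithinAt_sol hμ hν (rhs_GM q M) (ha.sm z) 0 i t0.le).hasDerivAt
      (Ici_mem_nhds t0)
    rw [← h1, D_zero, D_zero, GM_eq q h2] at h3
    simp only [lam, Nat.cast_zero, mul_zero, zero_mul, add_zero, zero_smul, sub_zero] at h3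
    refine h3.congr_of_eventuallyEq ?_
    filter_upwards [hM, Ioi_mem_nhds t0] with s h4 h5
    rw [(h4 (le_of_lt h5)).2.1]
    rfl
  · obtain ⟨M, hM⟩ := hl z t ht
    rw [(hM.self_of_nhds (hJ1 z t ht)).2.1, sol_eq hμ hν (rhs_GM q M) (ha.sm z), ← D_one,
      (D_duhT hμ hν (ha.sm z) ((rhs_GM q M).cv (cv_sol hμ hν (rhs_GM q M) (ha.sm z))) t i).2 1]
    simp only [dX_GM q M _ hi, D_one (a z i), hc z i hi, duh, map_zero, intervalIntegral.integral_zero,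
      add_zero]
  · obtain ⟨M, hM⟩ := hl z 0 (hJ0 z)
    rw [(hM.self_of_nhds le_rfl).2.1, sol_zero hμ hν (rhs_GM q M) (ha.sm z)]
  · obtain ⟨M, hM⟩ := hloc z t ht
    filter_upwards [(Continuous.prodMk_left t).continuousAt.eventually hM] with z' h
    exact (h (hJ1 z t ht)).1
  · obtain ⟨M, hM⟩ := hloc y.1 y.2 hy
    refine (cv_sol_param hμ hν (rhs_GM q M) ha).continuous.continuousWithinAt.congr_of_eventuallyEq
      ?_ (hM.self_of_nhds (hJ1 _ _ hy)).2.1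
    filter_upwards [nhdsWithin_le_nhds hM, self_mem_nhdsWithin] with w h2 h3
    exact (h2 (hJ1 _ _ h3)).2.1
  · obtain ⟨M, hM⟩ := exists_nat_gt B
    exact hmax z hb M _ (isClosed_Bnd B) (Bnd_subset hM)

end Vale.Agent.P244Z.Ex
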