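import Vale.Agent.P244Z.Ex.Picard
import Mathlib.Analysis.Calculus.ContDiff.Operations

/-!
A calculus of tame coefficient maps, and smoothness in time of the global solution.
-/

namespace Vale.Agent.P244Z.Ex

open Set Filter Topology
open scoped ContDiff

theorem exists_bound_Icc {r : ℝ → ℝ} (hr : Continuous r) (R : ℝ) :
    ∃ C, 0 ≤ C ∧ ∀ y, |y| ≤ R → |r y| ≤ C := by
  obtain ⟨C, hC⟩ := isCompact_Icc.exists_bound_of_continuousOn (hr.continuousOn (s := Icc (-R) R))
  exact ⟨|C|, abs_nonneg _, fun y hy => (hC y (abs_le.1 hy)).trans (le_abs_self _)⟩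

theorem norm_nem_le {r : ℝ → ℝ} (hr : Continuous r) (R : ℝ) :
    ∃ C, 0 ≤ C ∧ ∀ f : CI, ‖f‖ ≤ R → ‖nem r hr f‖ ≤ C := by
  obtain ⟨C, hC0, hC⟩ := exists_bound_Icc hr R
  exact ⟨C, hC0, fun f hf => norm_le_of_ex fun x _ => hC _ ((abs_ex_le f x).trans hf)⟩

theorem exists_lip_Icc {r : ℝ → ℝ} (hr : ContDiff ℝ ∞ r) (R : ℝ) :
    ∃ C, 0 ≤ C ∧ ∀ y z, |y| ≤ R → |z| ≤ R → |r y - r z| ≤ C * |y - z| := by
  obtain ⟨C, hC0, hC⟩ := exists_bound_Icc (contDiff_deriv hr).continuous R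
  refine ⟨C, hC0, fun y z hy hz => ?_⟩
  exact (convex_Icc (-R) R).norm_image_sub_le_of_norm_deriv_le
    (fun x _ => (contDiff_infty_iff_deriv.1 hr).1 x) (fun x hx => hC x (abs_le.2 hx))
    (abs_le.1 hz) (abs_le.1 hy)

theorem norm_nem_sub_le {r : ℝ → ℝ} (hr : ContDiff ℝ ∞ r) (R : ℝ) :
    ∃ C, 0 ≤ C ∧ ∀ f g : CI, ‖f‖ ≤ R → ‖g‖ ≤ R →
      ‖nem r hr.continuous f - nem r hr.continuous g‖ ≤ C * ‖f - g‖ := by
  obtain ⟨C, hC0, hC⟩ := exists_lip_Icc hr R
  refine ⟨C, hC0, fun f g hf hg => norm_le_of_ex fun x _ => ?_⟩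
  exact (hC _ _ ((abs_ex_le f x).trans hf) ((abs_ex_le g x).trans hg)).trans
    (mul_le_mul_of_nonneg_left (abs_ex_le (f - g) x) hC0)

theorem hasFDerivAt_nem {r : ℝ → ℝ} (hr : ContDiff ℝ ∞ r) (f : CI) :
    HasFDerivAt (nem r hr.continuous)
      (ContinuousLinearMap.mul ℝ CI (nem (deriv r) (contDiff_deriv hr).continuous f)) f := by
  obtain ⟨C, hC0, hC⟩ := exists_lip_Icc (contDiff_deriv hr) (‖f‖ + 1)
  rw [hasFDerivAt_iff_isLittleO_nhds_zero, Asymptotics.isLittleO_iff]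
  intro c hc
  filter_upwards [Metric.ball_mem_nhds (0 : CI)
    (show 0 < min 1 (c / (C + 1)) from lt_min one_pos (by positivity))] with h hh
  rw [mem_ball_zero_iff, lt_min_iff] at hh
  refine norm_le_of_ex fun x _ => ?_
  simp only [ex_sub, ex_nem, ex_add, ContinuousLinearMap.mul_apply', ex_mul]
  set y := ex f x
  set k := ex h x
  have hy : |y| ≤ ‖f‖ := abs_ex_le f x
  have hk : |k| ≤ ‖h‖ := abs_ex_le h x
  have h1 := (convex_closedBall y |k|).norm_image_sub_le_of_norm_hasDerivWithin_le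
    (f := fun z => r z - deriv r y * z) (f' := fun z => deriv r z - deriv r y * 1)
    (C := C * ‖h‖) (x := y) (y := y + k)
    (fun z _ => (((contDiff_infty_iff_deriv.1 hr).1 z).hasDerivAt.sub
      ((hasDerivAt_id z).const_mul _)).hasDerivWithinAt)
    (fun z hz => by
      rw [mul_one]
      rw [Metric.mem_closedBall, Real.dist_eq] at hz
      have h2 : |z| ≤ ‖f‖ + 1 := by
        have := abs_add_le (z - y) y
        rw [sub_add_cancel] at this
        linarith [hh.1]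
      exact (hC z y h2 (by linarith)).trans (mul_le_mul_of_nonneg_left (hz.trans hk) hC0))
    (Metric.mem_closedBall_self (abs_nonneg _))
    (by rw [Metric.mem_closedBall, Real.dist_eq, add_sub_cancel_left])
  rw [add_sub_cancel_left, Real.norm_eq_abs, Real.norm_eq_abs] at h1
  have e : r (y + k) - r y - deriv r y * k
      = r (y + k) - deriv r y * (y + k) - (r y - deriv r y * y) := by ring
  rw [e]
  refine h1.trans ?_
  have h3 : C * ‖h‖ ≤ c := by
    have := hh.2.le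
    rw [le_div_iff₀ (by positivity)] at this
    nlinarith [norm_nonneg h]
  exact mul_le_mul h3 hk (abs_nonneg _) hc.le

theorem contDiff_nem (n : ℕ) : ∀ {r : ℝ → ℝ} (hr : ContDiff ℝ ∞ r),
    ContDiff ℝ n (nem r hr.continuous) := by
  induction n with
  | zero =>
    intro r hr
    exact contDiff_zero.2 (continuous_iff_continuousAt.2 fun f =>
      (hasFDerivAt_nem hr f).continuousAt)
  | succ n ih =>
    intro r hr
    rw [Nat.cast_succ, contDiff_succ_iff_hasFDerivAt]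
    have h1 := (ContinuousLinearMap.contDiff (𝕜 := ℝ) (E := CI) (F := CI →L[ℝ] CI) (n := n)
        (ContinuousLinearMap.mul ℝ CI)).comp (ih (contDiff_deriv hr))
    exact ⟨_, h1, fun f => hasFDerivAt_nem hr f⟩

/-- Curves whose derivatives of order at most `k` are `C^n` in time on `J`. -/
def TS (n : ℕ) (J : Set ℝ) (k : ℕ) (f : ℝ → CI) : Prop :=
  ∀ j ≤ k, ContDiffOn ℝ n (fun t => D j (f t)) J

theorem TS.mono {n k k' : ℕ} {J : Set ℝ} {f : ℝ → CI} (h : TS n J k f) (hk : k' ≤ k) :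
    TS n J k' f := fun j hj => h j (hj.trans hk)

theorem TS.dX {n k : ℕ} {J : Set ℝ} {f : ℝ → CI} (h : TS n J (k + 1) f) :
    TS n J k fun t => dX (f t) := fun j hj => by
  simp only [← D_succ]; exact h _ (by omega)

theorem TS.add {n k : ℕ} {J : Set ℝ} {f g : ℝ → CI} (sf : ∀ t, Sm (f t)) (sg : ∀ t, Sm (g t))
    (hf : TS n J k f) (hg : TS n J k g) : TS n J k fun t => f t + g t := fun j hj => by
  simp only [D_add (sf _) (sg _)]; exact (hf j hj).add (hg j hj)

theorem TS.mul {n : ℕ} {J : Set ℝ} (k : ℕ) : ∀ {f g : ℝ → CI}, (∀ t, Sm (f t)) →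
    (∀ t, Sm (g t)) → TS n J k f → TS n J k g → TS n J k fun t => f t * g t := by
  induction k with
  | zero =>
    intro f g _ _ hf hg j hj
    obtain rfl : j = 0 := by omega
    exact (hf 0 le_rfl).mul (hg 0 le_rfl)
  | succ k ih =>
    intro f g sf sg hf hg j hj
    rcases j with _ | j
    · exact (hf 0 (Nat.zero_le _)).mul (hg 0 (Nat.zero_le _))
    · simp only [D_succ_mul (sf _) (sg _)]
      exact (ih (fun t => (sf t).dX) sg hf.dX (hg.mono (Nat.le_succ k)) j (by omega)).add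
        (ih sf (fun t => (sg t).dX) (hf.mono (Nat.le_succ k)) hg.dX j (by omega))

theorem TS.nem {n : ℕ} {J : Set ℝ} (k : ℕ) : ∀ {r : ℝ → ℝ} (hr : ContDiff ℝ ∞ r) {f : ℝ → CI},
    (∀ t, Sm (f t)) → TS n J k f → TS n J k fun t => nem r hr.continuous (f t) := by
  induction k with
  | zero =>
    intro r hr f _ hf j hj
    obtain rfl : j = 0 := by omega
    exact (contDiff_nem n hr).comp_contDiffOn (hf 0 le_rfl)
  | succ k ih =>
    intro r hr f sf hf j hj
    rcases j with _ | j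
    · exact (contDiff_nem n hr).comp_contDiffOn (hf 0 (Nat.zero_le _))
    · simp only [D_succ_nem hr (sf _)]
      exact TS.mul k (fun t => (sf t).nem (contDiff_deriv hr)) (fun t => (sf t).dX)
        (ih (contDiff_deriv hr) sf (hf.mono (Nat.le_succ k))) hf.dX j (by omega)

/-- Linear operators whose `k`-th derivative depends continuously and linearly on the
derivatives of order at most `k` of the argument. -/
structure Tri (Ψ : CI →L[ℝ] CI) : Prop where
  sm : ∀ g, Sm g → Sm (Ψ g)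
  lev : ∀ k, ∃ Φ : (Fin (k + 1) → CI) →L[ℝ] CI, ∀ g, Sm g → D k (Ψ g) = Φ fun j => D j g

theorem tri_of_levels (Φ : ℕ → CI →L[ℝ] CI)
    (h : ∀ k f g, IsD f g → IsD (Φ k f) (Φ (k + 1) g)) : Tri (Φ 0) := by
  have key := fun g (hg : Sm g) => sm_of_seq (c := fun k => Φ k (D k g)) fun k => h k _ _ (hg k)
  exact ⟨fun g hg => (key g hg).1, fun k =>
    ⟨(Φ k).comp (ContinuousLinearMap.proj (Fin.last k)), fun g hg => (key g hg).2 k⟩⟩

theorem tri_ev0 : Tri ev0 := by
  refine tri_of_levels (fun k => if k = 0 then ev0 else 0) fun k f g _ => ?_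
  rcases k with _ | k
  · exact isD_const _
  · exact isD_zero

variable {ι : Type} [Fintype ι]

/-- The tame estimate. -/
def Tame (T : (ι → CI) → CI) : Prop :=
  (∀ u, SmT u → Sm (T u)) ∧ ∀ k M, ∃ C, 0 ≤ C ∧ ∀ u, SmT u → (∀ j < k, ‖DT j u‖ ≤ M) →
    ‖u‖ ≤ M → ‖D k (T u)‖ ≤ C * (1 + ‖DT k u‖)

theorem Tame.low {T : (ι → CI) → CI} (h : Tame T) (k : ℕ) (M : ℝ) :
    ∃ C, 0 ≤ C ∧ ∀ u, SmT u → (∀ j ≤ k, ‖DT j u‖ ≤ M) → ∀ j ≤ k, ‖D j (T u)‖ ≤ C := by
  choose C hC0 hC using fun j => h.2 j M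
  refine ⟨(∑ j ∈ Finset.range (k + 1), C j) * (1 + |M|),
    mul_nonneg (Finset.sum_nonneg fun j _ => hC0 j) (by positivity), fun u hu hM j hj => ?_⟩
  refine (hC j u hu (fun i hi => hM i (by omega)) (hM 0 (Nat.zero_le _))).trans ?_
  exact mul_le_mul (Finset.single_le_sum (fun j _ => hC0 j) (Finset.mem_range.2 (by omega)))
    (by linarith [hM j hj, le_abs_self M]) (by positivity) (Finset.sum_nonneg fun j _ => hC0 j)

theorem tame_var (i : ι) : Tame fun u : ι → CI => u i :=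
  ⟨fun u hu => hu i, fun k _ => ⟨1, zero_le_one, fun u _ _ _ => by
    linarith [norm_D_le k u i]⟩⟩

theorem tame_const {f : CI} (hf : Sm f) : Tame fun _ : ι → CI => f :=
  ⟨fun _ _ => hf, fun k _ => ⟨‖D k f‖, norm_nonneg _, fun _ _ _ _ =>
    le_mul_of_one_le_right (norm_nonneg _) (le_add_of_nonneg_right (norm_nonneg _))⟩⟩

theorem Tame.add {T U : (ι → CI) → CI} (hT : Tame T) (hU : Tame U) : Tame fun u => T u + U u := by
  refine ⟨fun u hu => (hT.1 u hu).add (hU.1 u hu), fun k M => ?_⟩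
  obtain ⟨C, hC0, hC⟩ := hT.2 k M
  obtain ⟨C', hC0', hC'⟩ := hU.2 k M
  refine ⟨C + C', by positivity, fun u hu h1 h2 => ?_⟩
  rw [D_add (hT.1 u hu) (hU.1 u hu), add_mul]
  exact (norm_add_le _ _).trans (add_le_add (hC u hu h1 h2) (hC' u hu h1 h2))

theorem norm_D_mul_le (k : ℕ) : ∃ C : ℝ, 0 ≤ C ∧ ∀ (f g : CI) (A B : ℝ), Sm f → Sm g →
    (∀ j ≤ k, ‖D j f‖ ≤ A) → (∀ j ≤ k, ‖D j g‖ ≤ B) →
    ‖D (k + 1) (f * g)‖ ≤ ‖D (k + 1) f‖ * B + ‖f * D (k + 1) g‖ + C * A * B := by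
  obtain ⟨C, hC0, hC⟩ := leibniz_err k
  refine ⟨C, hC0, fun f g A B hf hg hA hB => ?_⟩
  have e : D (k + 1) (f * g) = D (k + 1) f * g + f * D (k + 1) g
      + (D (k + 1) (f * g) - D (k + 1) f * g - f * D (k + 1) g) := by ring
  rw [e]
  refine (norm_add_le _ _).trans (add_le_add ((norm_add_le _ _).trans (add_le_add_left ?_ _))
    (hC f g A B hf hg hA hB))
  exact (norm_mul_le _ _).trans
    (mul_le_mul_of_nonneg_left (hB 0 (Nat.zero_le _)) (norm_nonneg _))

theorem Tame.mul {T U : (ι → CI) → CI} (hT : Tame T) (hU : Tame U) : Tame fun u => T u * U u := by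
  refine ⟨fun u hu => (hT.1 u hu).mul (hU.1 u hu), fun k M => ?_⟩
  rcases k with _ | k
  · obtain ⟨A, hA0, hA⟩ := hT.low 0 M
    obtain ⟨B, hB0, hB⟩ := hU.low 0 M
    refine ⟨A * B, by positivity, fun u hu _ h2 => ?_⟩
    have h3 : ∀ j ≤ 0, ‖DT j u‖ ≤ M := fun j hj => by
      obtain rfl : j = 0 := by omega
      exact h2
    refine ((norm_mul_le _ _).trans (mul_le_mul (hA u hu h3 0 le_rfl) (hB u hu h3 0 le_rfl)
      (norm_nonneg _) hA0)).trans ?_
    exact le_mul_of_one_le_right (by positivity) (le_add_of_nonneg_right (norm_nonneg _))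
  · obtain ⟨A, hA0, hA⟩ := hT.low k M
    obtain ⟨B, hB0, hB⟩ := hU.low k M
    obtain ⟨C, hC0, hC⟩ := hT.2 (k + 1) M
    obtain ⟨C', hC0', hC'⟩ := hU.2 (k + 1) M
    obtain ⟨E, hE0, hE⟩ := norm_D_mul_le k
    refine ⟨C * B + A * C' + E * A * B, by positivity, fun u hu h1 h2 => ?_⟩
    have h3 : ∀ j ≤ k, ‖DT j u‖ ≤ M := fun j hj => h1 j (by omega)
    refine (hE _ _ A B (hT.1 u hu) (hU.1 u hu) (hA u hu h3) (hB u hu h3)).trans ?_
    have h4 := mul_le_mul_of_nonneg_right (hC u hu h1 h2) hB0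
    have h5 := (norm_mul_le (T u) (D (k + 1) (U u))).trans
      (mul_le_mul (hA u hu h3 0 (Nat.zero_le _)) (hC' u hu h1 h2) (norm_nonneg _) hA0)
    have h6 : 0 ≤ E * A * B * ‖DT (k + 1) u‖ := by positivity
    nlinarith

theorem Tame.nem {T : (ι → CI) → CI} (hT : Tame T) {r : ℝ → ℝ} (hr : ContDiff ℝ ∞ r) :
    Tame fun u => nem r hr.continuous (T u) := by
  refine ⟨fun u hu => (hT.1 u hu).nem hr, fun k => ?_⟩
  induction k using Nat.strong_induction_on generalizing r with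
  | _ k ih =>
    intro M
    obtain ⟨A₀, _, hA₀⟩ := hT.low 0 M
    have hA₀' : ∀ u, SmT u → ‖u‖ ≤ M → ‖T u‖ ≤ A₀ := fun u hu h2 =>
      hA₀ u hu (fun j hj => by
        obtain rfl : j = 0 := by omega
        exact h2) 0 le_rfl
    rcases k with _ | k
    · obtain ⟨C, hC0, hC⟩ := norm_nem_le hr.continuous A₀
      exact ⟨C, hC0, fun u hu _ h2 => (hC _ (hA₀' u hu h2)).trans
        (le_mul_of_one_le_right hC0 (le_add_of_nonneg_right (norm_nonneg _)))⟩
    obtain ⟨C, hC0, hC⟩ := hT.2 (k + 1) M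
    obtain ⟨R, hR0, hR⟩ := norm_nem_le (contDiff_deriv hr).continuous A₀
    rcases k with _ | k
    · refine ⟨R * C, by positivity, fun u hu h1 h2 => ?_⟩
      rw [D_succ_nem hr (hT.1 u hu), D_zero, mul_assoc]
      exact (norm_mul_le _ _).trans
        (mul_le_mul (hR _ (hA₀' u hu h2)) (hC u hu h1 h2) (norm_nonneg _) hR0)
    · choose A hA0 hA using fun (j : Fin (k + 2)) => ih j j.2 (contDiff_deriv hr) M
      obtain ⟨B, hB0, hB⟩ := hT.low (k + 1) M
      obtain ⟨E, hE0, hE⟩ := norm_D_mul_le k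
      set A' := (∑ j, A j) * (1 + |M|) with hA'
      have hA'0 : 0 ≤ A' := mul_nonneg (Finset.sum_nonneg fun j _ => hA0 j) (by positivity)
      refine ⟨A' * B + R * C + E * A' * B, by positivity, fun u hu h1 h2 => ?_⟩
      have h3 : ∀ j ≤ k + 1, ‖DT j u‖ ≤ M := fun j hj => h1 j (by omega)
      have h4 : ∀ j ≤ k + 1,
          ‖D j (Ex.nem (deriv r) (contDiff_deriv hr).continuous (T u))‖ ≤ A' := by
        intro j hj
        refine (hA ⟨j, by omega⟩ u hu (fun i hi => h1 i (by simp at hi; omega)) h2).trans ?_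
        exact mul_le_mul (Finset.single_le_sum (fun j _ => hA0 j) (Finset.mem_univ _))
          (by linarith [h3 j hj, le_abs_self M]) (by positivity)
          (Finset.sum_nonneg fun j _ => hA0 j)
      rw [D_succ_nem hr (hT.1 u hu)]
      refine (hE _ _ A' B ((hT.1 u hu).nem (contDiff_deriv hr)) (hT.1 u hu).dX (fun j hj => h4 j (by omega))
        (fun j hj => by rw [← D_succ]; exact hB u hu h3 _ (by omega))).trans ?_
      rw [← D_succ]
      have h5 := mul_le_mul_of_nonneg_right (h4 (k + 1) le_rfl) hB0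
      have h6 := (norm_mul_le (Ex.nem (deriv r) (contDiff_deriv hr).continuous (T u))
        (D (k + 1 + 1) (T u))).trans
        (mul_le_mul (hR _ (hA₀' u hu h2)) (hC u hu h1 h2) (norm_nonneg _) hR0)
      have h7 : 0 ≤ (A' * B + E * A' * B) * ‖DT (k + 1 + 1) u‖ := by positivity
      nlinarith

theorem Tame.tri {T : (ι → CI) → CI} (hT : Tame T) {Ψ : CI →L[ℝ] CI} (hΨ : Tri Ψ) :
    Tame fun u => Ψ (T u) := by
  refine ⟨fun u hu => hΨ.sm _ (hT.1 u hu), fun k M => ?_⟩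
  obtain ⟨Φ, hΦ⟩ := hΨ.lev k
  choose C hC0 hC using fun j => hT.2 j M
  set C' := (∑ j ∈ Finset.range (k + 1), C j) * (1 + |M|) with hC'
  have hC'0 : 0 ≤ C' := mul_nonneg (Finset.sum_nonneg fun j _ => hC0 j) (by positivity)
  refine ⟨‖Φ‖ * C', by positivity, fun u hu h1 h2 => ?_⟩
  rw [hΦ _ (hT.1 u hu), mul_assoc]
  refine (Φ.le_opNorm _).trans (mul_le_mul_of_nonneg_left ?_ (norm_nonneg _))
  refine (pi_norm_le_iff_of_nonneg (by positivity)).2 fun j => ?_
  refine (hC j u hu (fun i hi => h1 i (by omega)) h2).trans ?_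
  rw [hC', mul_assoc]
  refine mul_le_mul (Finset.single_le_sum (fun j _ => hC0 j) (Finset.mem_range.2 j.2)) ?_
    (by positivity) (Finset.sum_nonneg fun j _ => hC0 j)
  have h3 := abs_nonneg M
  have h4 := norm_nonneg (DT k u)
  rcases Nat.lt_succ_iff_lt_or_eq.1 j.2 with hj | hj
  · have := h1 j hj
    nlinarith [le_abs_self M]
  · rw [hj]
    nlinarith

/-- Coefficient maps: tame, globally bounded, globally Lipschitz, smooth along smooth curves. -/
structure Good (T : (ι → CI) → CI) : Prop where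
  tame : Tame T
  bdd : ∃ C, 0 ≤ C ∧ ∀ u, ‖T u‖ ≤ C
  lip : ∃ Λ, 0 ≤ Λ ∧ ∀ u v, ‖T u - T v‖ ≤ Λ * ‖u - v‖
  ts : ∀ (n : ℕ) (J : Set ℝ) (k : ℕ) (u : ℝ → ι → CI), (∀ t, SmT (u t)) →
    (∀ i, TS n J k fun t => u t i) → TS n J k fun t => T (u t)

theorem Good.sm {T : (ι → CI) → CI} (h : Good T) {u : ι → CI} (hu : SmT u) : Sm (T u) :=
  h.tame.1 u hu

theorem good_const {f : CI} (hf : Sm f) : Good fun _ : ι → CI => f :=
  ⟨tame_const hf, ⟨‖f‖, norm_nonneg _, fun _ => le_rfl⟩, ⟨0, le_rfl, fun _ _ => by simp⟩,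
    fun _ _ _ _ _ _ _ _ => contDiffOn_const⟩

theorem good_var (i : ι) {χ : ℝ → ℝ} (hχ : ContDiff ℝ ∞ χ) {C Λ : ℝ} (h1 : ∀ y, |χ y| ≤ C)
    (h2 : ∀ y, |deriv χ y| ≤ Λ) : Good fun u : ι → CI => nem χ hχ.continuous (u i) := by
  refine ⟨(tame_var i).nem hχ, ⟨C, (abs_nonneg _).trans (h1 0), fun u =>
    norm_le_of_ex fun x _ => h1 _⟩, ⟨Λ, (abs_nonneg _).trans (h2 0), fun u v => ?_⟩,
    fun n J k u hu h => TS.nem k hχ (fun t => hu t i) (h i)⟩
  refine norm_le_of_ex fun x _ => ?_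
  have h3 := convex_univ.norm_image_sub_le_of_norm_deriv_le (f := χ) (C := Λ)
    (fun x _ => (contDiff_infty_iff_deriv.1 hχ).1 x) (fun x _ => h2 x)
    (mem_univ (ex (v i) x)) (mem_univ (ex (u i) x))
  refine h3.trans (mul_le_mul_of_nonneg_left ?_ ((abs_nonneg _).trans (h2 0)))
  exact (abs_ex_le (u i - v i) x).trans (norm_le_pi_norm (u - v) i)

theorem Good.add {T U : (ι → CI) → CI} (hT : Good T) (hU : Good U) : Good fun u => T u + U u := by
  obtain ⟨C, hC0, hC⟩ := hT.bdd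
  obtain ⟨C', hC0', hC'⟩ := hU.bdd
  obtain ⟨Λ, hΛ0, hΛ⟩ := hT.lip
  obtain ⟨Λ', hΛ0', hΛ'⟩ := hU.lip
  refine ⟨hT.tame.add hU.tame, ⟨C + C', by positivity, fun u =>
    (norm_add_le _ _).trans (add_le_add (hC u) (hC' u))⟩, ⟨Λ + Λ', by positivity, fun u v => ?_⟩,
    fun n J k u hu h => TS.add (fun t => hT.sm (hu t)) (fun t => hU.sm (hu t))
      (hT.ts n J k u hu h) (hU.ts n J k u hu h)⟩
  rw [add_sub_add_comm, add_mul]
  exact (norm_add_le _ _).trans (add_le_add (hΛ u v) (hΛ' u v))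

theorem Good.mul {T U : (ι → CI) → CI} (hT : Good T) (hU : Good U) : Good fun u => T u * U u := by
  obtain ⟨C, hC0, hC⟩ := hT.bdd
  obtain ⟨C', hC0', hC'⟩ := hU.bdd
  obtain ⟨Λ, hΛ0, hΛ⟩ := hT.lip
  obtain ⟨Λ', hΛ0', hΛ'⟩ := hU.lip
  refine ⟨hT.tame.mul hU.tame, ⟨C * C', by positivity, fun u =>
    (norm_mul_le _ _).trans (mul_le_mul (hC u) (hC' u) (norm_nonneg _) hC0)⟩,
    ⟨Λ * C' + C * Λ', by positivity, fun u v => ?_⟩,
    fun n J k u hu h => TS.mul k (fun t => hT.sm (hu t)) (fun t => hU.sm (hu t))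
      (hT.ts n J k u hu h) (hU.ts n J k u hu h)⟩
  have e : T u * U u - T v * U v = (T u - T v) * U u + T v * (U u - U v) := by ring
  rw [e]
  refine (norm_add_le _ _).trans ?_
  have h1 := (norm_mul_le (T u - T v) (U u)).trans
    (mul_le_mul (hΛ u v) (hC' u) (norm_nonneg _) (by positivity))
  have h2 := (norm_mul_le (T v) (U u - U v)).trans
    (mul_le_mul (hC v) (hΛ' u v) (norm_nonneg _) hC0)
  nlinarith

theorem Good.nem {T : (ι → CI) → CI} (hT : Good T) {r : ℝ → ℝ} (hr : ContDiff ℝ ∞ r) :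
    Good fun u => nem r hr.continuous (T u) := by
  obtain ⟨C, _, hC⟩ := hT.bdd
  obtain ⟨Λ, hΛ0, hΛ⟩ := hT.lip
  obtain ⟨A, hA0, hA⟩ := norm_nem_le hr.continuous C
  obtain ⟨B, hB0, hB⟩ := norm_nem_sub_le hr C
  refine ⟨hT.tame.nem hr, ⟨A, hA0, fun u => hA _ (hC u)⟩, ⟨B * Λ, by positivity, fun u v => ?_⟩,
    fun n J k u hu h => TS.nem k hr (fun t => hT.sm (hu t)) (hT.ts n J k u hu h)⟩
  rw [mul_assoc]
  exact (hB _ _ (hC u) (hC v)).trans (mul_le_mul_of_nonneg_left (hΛ u v) hB0)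

theorem Good.tri {T : (ι → CI) → CI} (hT : Good T) {Ψ : CI →L[ℝ] CI} (hΨ : Tri Ψ) :
    Good fun u => Ψ (T u) := by
  obtain ⟨C, _, hC⟩ := hT.bdd
  obtain ⟨Λ, hΛ0, hΛ⟩ := hT.lip
  refine ⟨hT.tame.tri hΨ, ⟨‖Ψ‖ * C, by positivity, fun u => (Ψ.le_opNorm _).trans
    (mul_le_mul_of_nonneg_left (hC u) (norm_nonneg _))⟩, ⟨‖Ψ‖ * Λ, by positivity, fun u v => ?_⟩,
    fun n J k u hu h j hj => ?_⟩
  · rw [← map_sub, mul_assoc]
    exact (Ψ.le_opNorm _).trans (mul_le_mul_of_nonneg_left (hΛ u v) (norm_nonneg _))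
  · obtain ⟨Φ, hΦ⟩ := hΨ.lev j
    simp only [hΦ _ (hT.sm (hu _))]
    exact Φ.contDiff.comp_contDiffOn (contDiffOn_pi.2 fun i =>
      hT.ts n J k u hu h i (by omega))

theorem Good.smul {T : (ι → CI) → CI} (hT : Good T) (c : ℝ) : Good fun u => c • T u := by
  have h := (good_const (ι := ι) (sm_const c)).mul hT
  have e : (fun u => ContinuousMap.const _ c * T u) = fun u => c • T u := by
    funext u; ext x; simp
  rwa [e] at h

theorem Good.neg {T : (ι → CI) → CI} (hT : Good T) : Good fun u => -T u := by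
  simpa using hT.smul (-1)

theorem Good.sub {T U : (ι → CI) → CI} (hT : Good T) (hU : Good U) : Good fun u => T u - U u := by
  simpa only [sub_eq_add_neg] using hT.add hU.neg

/-- The right-hand side `A + B x(1-x) ∂u`. -/
noncomputable def rhs (A B : ι → (ι → CI) → CI) (u : ι → CI) : ι → CI :=
  fun i => A i u + B i u * (wt * dX (u i))

theorem norm_D_wt_le (k : ℕ) : ∃ C, 0 ≤ C ∧ ∀ (u : ι → CI) (i : ι) (M : ℝ), SmT u → 0 ≤ M →
    (∀ j < k, yy j u ≤ M) → ‖D k (wt * dX (u i))‖ ≤ C * (M + yy k u) := by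
  rcases k with _ | k
  · refine ⟨1, zero_le_one, fun u i M _ hM _ => ?_⟩
    have := (norm_le_pi_norm (GT 0 u) i).trans (norm_GT_le_yy 0 u)
    simp only [GT, zero_add, D_one] at this
    rw [D_zero]
    linarith
  · obtain ⟨E, hE0, hE⟩ := norm_D_mul_le k
    obtain ⟨W, hW⟩ := exists_DT_bound (fun _ : Unit => wt) (k + 1)
    have hW' : ∀ j ≤ k + 1, ‖D j wt‖ ≤ W := fun j hj =>
      (norm_D_le j (fun _ : Unit => wt) ()).trans (hW j hj)
    have hW0 : 0 ≤ W := (norm_nonneg _).trans (hW' 0 (Nat.zero_le _))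
    refine ⟨W + 1 + E * W, by positivity, fun u i M hu hM h => ?_⟩
    have hy := yy_nonneg (k + 1) u
    have h1 := hE wt (dX (u i)) W (M + yy (k + 1) u) sm_wt (hu i).dX
      (fun j hj => hW' j (by omega)) (fun j hj => by
        rw [← D_succ]
        refine ((norm_D_le _ u i).trans (norm_DT_le_yy _ u)).trans ?_
        rcases Nat.lt_succ_iff_lt_or_eq.1 (Nat.lt_succ_of_le hj) with h2 | h2
        · linarith [h (j + 1) (by omega)]
        · rw [h2]; linarith)
    rw [← D_succ] at h1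
    have h2 := (norm_le_pi_norm (GT (k + 1) u) i).trans (norm_GT_le_yy (k + 1) u)
    have h3 := mul_le_mul_of_nonneg_right (hW' (k + 1) le_rfl) (by positivity : 0 ≤ M + yy (k + 1) u)
    simp only [GT] at h2
    nlinarith

theorem rhs_of_good {A B : ι → (ι → CI) → CI} (hA : ∀ i, Good (A i)) (hB : ∀ i, Good (B i)) :
    Rhs (rhs A B) := by
  have hsm : ∀ u, SmT u → SmT (rhs A B u) := fun u hu i =>
    ((hA i).sm hu).add (((hB i).sm hu).mul (sm_wt.mul (hu i).dX))
  refine ⟨hsm, fun k M => ?_, fun M => ?_⟩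
  · have key : ∀ i, ∃ C, 0 ≤ C ∧ ∀ u, SmT u → (∀ j < k, yy j u ≤ M) →
        ‖D k (rhs A B u i)‖ ≤ C * (1 + yy k u) := by
      intro i
      rcases k with _ | k
      · obtain ⟨a, ha0, ha⟩ := (hA i).bdd
        obtain ⟨b, hb0, hb⟩ := (hB i).bdd
        refine ⟨a + b, by positivity, fun u hu _ => ?_⟩
        have h1 := (norm_le_pi_norm (GT 0 u) i).trans (norm_GT_le_yy 0 u)
        have h2 := (norm_mul_le (B i u) (wt * dX (u i))).trans
          (mul_le_mul (hb u) h1 (norm_nonneg _) hb0)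
        refine (norm_add_le _ _).trans ?_
        nlinarith [ha u, yy_nonneg 0 u]
      · obtain ⟨a, ha0, ha⟩ := (hA i).tame.2 (k + 1) M
        obtain ⟨b, hb0, hb⟩ := (hB i).tame.2 (k + 1) M
        obtain ⟨b', hb0', hb'⟩ := (hB i).tame.low k M
        obtain ⟨E, hE0, hE⟩ := norm_D_mul_le k
        choose W hW0 hW using fun j => norm_D_wt_le (ι := ι) j
        set W' := (∑ j ∈ Finset.range (k + 1), W j) * (2 * |M|) with hW'
        have hW'0 : 0 ≤ W' := mul_nonneg (Finset.sum_nonneg fun j _ => hW0 j) (by positivity)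
        refine ⟨a + b * W' + b' * (W (k + 1) * (1 + |M|)) + E * b' * W',
          by have := hW0 (k + 1); positivity, fun u hu h => ?_⟩
        have h1 : ∀ j < k + 1, ‖DT j u‖ ≤ M := fun j hj => (norm_DT_le_yy j u).trans (h j hj)
        have h2 : ‖u‖ ≤ M := h1 0 (Nat.succ_pos k)
        have h3 : ∀ j ≤ k, ‖D j (wt * dX (u i))‖ ≤ W' := by
          intro j hj
          refine (hW j u i |M| hu (abs_nonneg _)
            (fun l hl => (h l (by omega)).trans (le_abs_self M))).trans ?_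
          exact mul_le_mul (Finset.single_le_sum (fun j _ => hW0 j) (Finset.mem_range.2 (by omega)))
            (by linarith [h j (by omega), le_abs_self M]) (by have := yy_nonneg j u; positivity)
            (Finset.sum_nonneg fun j _ => hW0 j)
        have h4 := hE _ _ b' W' ((hB i).sm hu) (sm_wt.mul (hu i).dX)
          (hb' u hu fun j hj => h1 j (by omega)) h3
        have hy := yy_nonneg (k + 1) u
        have hn := norm_DT_le_yy (k + 1) u
        have h5 : ‖D (k + 1) (B i u)‖ ≤ b * (1 + yy (k + 1) u) :=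
          (hb u hu h1 h2).trans (mul_le_mul_of_nonneg_left (by linarith) hb0)
        have h6 : ‖D (k + 1) (A i u)‖ ≤ a * (1 + yy (k + 1) u) :=
          (ha u hu h1 h2).trans (mul_le_mul_of_nonneg_left (by linarith) ha0)
        have h7 : ‖D (k + 1) (wt * dX (u i))‖ ≤ W (k + 1) * (1 + |M|) * (1 + yy (k + 1) u) := by
          refine (hW (k + 1) u i |M| hu (abs_nonneg _)
            (fun l hl => (h l hl).trans (le_abs_self M))).trans ?_
          rw [mul_assoc]
          exact mul_le_mul_of_nonneg_left (by nlinarith [abs_nonneg M]) (hW0 _)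
        have h8 := (norm_mul_le (B i u) (D (k + 1) (wt * dX (u i)))).trans
          (mul_le_mul (hb' u hu (fun j hj => h1 j (by omega)) 0 (Nat.zero_le _)) h7
            (norm_nonneg _) hb0')
        have h9 := mul_le_mul_of_nonneg_right h5 hW'0
        rw [rhs, D_add ((hA i).sm hu) (((hB i).sm hu).mul (sm_wt.mul (hu i).dX))]
        refine (norm_add_le _ _).trans ?_
        have h10 : 0 ≤ E * b' * W' * yy (k + 1) u := by positivity
        nlinarith
    choose C hC0 hC using key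
    refine ⟨∑ i, C i, Finset.sum_nonneg fun i _ => hC0 i, fun u hu h => ?_⟩
    have hy := yy_nonneg k u
    refine (pi_norm_le_iff_of_nonneg
      (mul_nonneg (Finset.sum_nonneg fun i _ => hC0 i) (by positivity))).2 fun i => ?_
    exact (hC i u hu h).trans (mul_le_mul_of_nonneg_right
      (Finset.single_le_sum (fun i _ => hC0 i) (Finset.mem_univ i)) (by positivity))
  · have key : ∀ i, ∃ Λ, 0 ≤ Λ ∧ ∀ u v, SmT u → SmT v → yy 0 u ≤ M → yy 0 v ≤ M →
        ‖rhs A B u i - rhs A B v i‖ ≤ Λ * yy 0 (u - v) := by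
      intro i
      obtain ⟨a, ha0, ha⟩ := (hA i).lip
      obtain ⟨b, hb0, hb⟩ := (hB i).lip
      obtain ⟨c, hc0, hc⟩ := (hB i).bdd
      refine ⟨a + c + b * |M|, by positivity, fun u v hu hv _ h2 => ?_⟩
      have e : rhs A B u i - rhs A B v i = (A i u - A i v) + B i u * GT 0 (u - v) i
          + (B i u - B i v) * GT 0 v i := by
        simp only [rhs, GT, zero_add, Pi.sub_apply, D_sub (hu i) (hv i), D_one]
        ring
      rw [e]
      have hy := yy_nonneg 0 (u - v)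
      have h3 : ‖u - v‖ ≤ yy 0 (u - v) := norm_DT_le_yy 0 _
      have h4 := (ha u v).trans (mul_le_mul_of_nonneg_left h3 ha0)
      have h5 := (norm_mul_le (B i u) (GT 0 (u - v) i)).trans (mul_le_mul (hc u)
        ((norm_le_pi_norm (GT 0 (u - v)) i).trans (norm_GT_le_yy 0 _)) (norm_nonneg _) hc0)
      have h6 := (norm_mul_le (B i u - B i v) (GT 0 v i)).trans
        (mul_le_mul ((hb u v).trans (mul_le_mul_of_nonneg_left h3 hb0))
          (((norm_le_pi_norm (GT 0 v) i).trans (norm_GT_le_yy 0 _)).trans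
            (h2.trans (le_abs_self M))) (norm_nonneg _) (by positivity))
      refine (norm_add_le _ _).trans ((add_le_add_left (norm_add_le _ _) _).trans ?_)
      nlinarith
    choose C hC0 hC using key
    refine ⟨∑ i, C i, Finset.sum_nonneg fun i _ => hC0 i, fun u v hu hv h1 h2 => ?_⟩
    have hy := yy_nonneg 0 (u - v)
    refine (pi_norm_le_iff_of_nonneg
      (mul_nonneg (Finset.sum_nonneg fun i _ => hC0 i) hy)).2 fun i => ?_
    exact (hC i u v hu hv h1 h2).trans (mul_le_mul_of_nonneg_right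
      (Finset.single_le_sum (fun i _ => hC0 i) (Finset.mem_univ i)) hy)

/-- The global solution is smooth in time, with values in every `C^k`. -/
theorem ts_sol {μ ν : ℝ} (hμ : 1 ≤ μ) (hν : 1 ≤ ν) {A B : ι → (ι → CI) → CI}
    (hA : ∀ i, Good (A i)) (hB : ∀ i, Good (B i)) {u₀ : ι → CI} (h₀ : SmT u₀) (n : ℕ) :
    ∀ k i, TS n (Ici 0) k fun t => sol μ ν (rhs A B) u₀ t i := by
  have hG := rhs_of_good hA hB
  have hc := cv_sol hμ hν hG h₀
  induction n with
  | zero => exact fun k i j _ => contDiffOn_zero.2 (hc.cont j i).continuousOn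
  | succ n ih =>
    intro k i j _
    have hd := fun t (ht : t ∈ Ici (0 : ℝ)) => hasDerivWithinAt_sol hμ hν hG h₀ j i ht
    rw [Nat.cast_succ, contDiffOn_succ_iff_derivWithin (uniqueDiffOn_Ici 0)]
    refine ⟨fun t ht => (hd t ht).differentiableWithinAt, by simp, ?_⟩
    refine ContDiffOn.congr ?_ fun t ht => (hd t ht).derivWithin (uniqueDiffOn_Ici 0 t ht)
    have h1 : TS n (Ici 0) j fun t => rhs A B (sol μ ν (rhs A B) u₀ t) i :=
      TS.add (fun t => (hA i).sm (hc.sm t))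
        (fun t => ((hB i).sm (hc.sm t)).mul (sm_wt.mul (hc.sm t i).dX))
        ((hA i).ts n _ j _ hc.sm (ih j))
        (TS.mul j (fun t => (hB i).sm (hc.sm t)) (fun t => sm_wt.mul (hc.sm t i).dX)
          ((hB i).ts n _ j _ hc.sm (ih j))
          (TS.mul j (fun _ => sm_wt) (fun t => (hc.sm t i).dX) (fun _ _ => contDiffOn_const)
            (ih (j + 1) i).dX))
    refine ContDiffOn.add (ContDiffOn.sub ?_ ((ih j i j le_rfl).const_smul _)) (h1 j le_rfl)
    unfold Lop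
    exact ((contDiffOn_const.mul (ih (j + 2) i _ le_rfl)).const_smul _).add
      (contDiffOn_const.mul (ih (j + 1) i _ le_rfl))

end Vale.Agent.P244Z.Ex
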