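import Vale.Agent.P244Z.Ex.Basic

/-!
The weak maximum principle on `[0,T] × [0,1]` for degenerate parabolic operators with inward drift.
-/

namespace Vale.Agent.P244Z.Ex

open Set Filter Topology

theorem max_principle {T M : ℝ} (W W1 W2 : ℝ → CI) (Wt a b : ℝ → ℝ → ℝ)
    (hc : ContinuousOn W (Icc 0 T))
    (h1 : ∀ t ∈ Ioc 0 T, IsD (W t) (W1 t)) (h2 : ∀ t ∈ Ioc 0 T, IsD (W1 t) (W2 t))
    (ht : ∀ t ∈ Ioc 0 T, ∀ x ∈ Icc (0 : ℝ) 1,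
      HasDerivWithinAt (fun s => ex (W s) x) (Wt t x) (Icc 0 T) t)
    (hle : ∀ t ∈ Ioc 0 T, ∀ x ∈ Icc (0 : ℝ) 1,
      Wt t x ≤ a t x * ex (W2 t) x + b t x * ex (W1 t) x)
    (ha : ∀ t ∈ Ioc 0 T, ∀ x ∈ Icc (0 : ℝ) 1, 0 ≤ a t x)
    (hl : ∀ t ∈ Ioc 0 T, a t 0 = 0 ∧ 0 ≤ b t 0) (hr : ∀ t ∈ Ioc 0 T, a t 1 = 0 ∧ b t 1 ≤ 0)
    (h0 : ∀ x ∈ Icc (0 : ℝ) 1, ex (W 0) x ≤ M) :
    ∀ t ∈ Icc 0 T, ∀ x ∈ Icc (0 : ℝ) 1, ex (W t) x ≤ M := by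
  intro t₁ ht₁ x₁ hx₁
  refine le_of_forall_pos_le_add fun δ hδ => ?_
  have hT : 0 ≤ T := ht₁.1.trans ht₁.2
  set ε : ℝ := δ / (T + 1) with hε
  have hε0 : 0 < ε := by positivity
  have hK : IsCompact (Icc (0 : ℝ) T ×ˢ Icc (0 : ℝ) 1) := isCompact_Icc.prod isCompact_Icc
  have hcont : ContinuousOn (fun z : ℝ × ℝ => ex (W z.1) z.2 - ε * z.1)
      (Icc (0 : ℝ) T ×ˢ Icc (0 : ℝ) 1) := by
    refine ContinuousOn.sub ?_ (by fun_prop)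
    have h3 : ContinuousOn (fun z : ℝ × ℝ => (W z.1, z.2)) (Icc (0 : ℝ) T ×ˢ Icc (0 : ℝ) 1) :=
      (hc.comp continuousOn_fst fun z hz => hz.1).prodMk continuousOn_snd
    exact continuous_ex_uncurry.comp_continuousOn h3
  obtain ⟨⟨t₀, x₀⟩, ⟨ht₀, hx₀⟩, hmax⟩ := hK.exists_isMaxOn ⟨(t₁, x₁), ht₁, hx₁⟩ hcont
  replace ht₀ : t₀ ∈ Icc 0 T := ht₀
  replace hx₀ : x₀ ∈ Icc (0 : ℝ) 1 := hx₀
  have hmax' : ∀ t ∈ Icc 0 T, ∀ x ∈ Icc (0 : ℝ) 1,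
      ex (W t) x - ε * t ≤ ex (W t₀) x₀ - ε * t₀ := fun t ht x hx => hmax (a := (t, x)) ⟨ht, hx⟩
  have ht00 : t₀ = 0 := by
    by_contra hne
    have hpos : t₀ ∈ Ioc 0 T := ⟨lt_of_le_of_ne ht₀.1 (Ne.symm hne), ht₀.2⟩
    have hsp := elliptic_nonpos (h1 t₀ hpos) (h2 t₀ hpos) (a := a t₀ x₀) (b := b t₀ x₀) hx₀
      (fun y hy => by linarith [hmax' t₀ ht₀ y hy]) (ha t₀ hpos x₀ hx₀)
      (fun e => by rw [e]; exact hl t₀ hpos) (fun e => by rw [e]; exact hr t₀ hpos)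
    have hd : HasDerivWithinAt (fun s => ex (W s) x₀ - ε * s) (Wt t₀ x₀ - ε * 1) (Icc 0 T) t₀ :=
      (ht t₀ hpos x₀ hx₀).sub ((hasDerivWithinAt_id t₀ _).const_mul ε)
    have hloc : IsLocalMaxOn (fun s => ex (W s) x₀ - ε * s) (Icc 0 T) t₀ :=
      (show IsMaxOn (fun s => ex (W s) x₀ - ε * s) (Icc 0 T) t₀ from
        fun s hs => hmax' s hs x₀ hx₀).localize
    have h3 := hloc.hasFDerivWithinAt_nonpos hd.hasFDerivWithinAt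
      (sub_mem_posTangentConeAt_of_segment_subset (y := 0)
        (by rw [segment_symm, segment_eq_Icc hpos.1.le]; exact Icc_subset_Icc_right hpos.2))
    simp only [ContinuousLinearMap.toSpanSingleton_apply, smul_eq_mul] at h3
    have h4 := hle t₀ hpos x₀ hx₀
    nlinarith [hpos.1]
  have h5 := hmax' t₁ ht₁ x₁ hx₁
  rw [ht00, mul_zero, sub_zero] at h5
  have h6 : ε * t₁ ≤ δ := by
    rw [hε, div_mul_eq_mul_div, div_le_iff₀ (by positivity)]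
    nlinarith [ht₁.2]
  linarith [h0 x₀ hx₀]

end Vale.Agent.P244Z.Ex
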