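import Vale.Agent.P244Z.Ex.Good
import Mathlib.Algebra.Polynomial.Basis
import Mathlib.Analysis.SpecialFunctions.Pow.Deriv

/-!
The averaging operators: solution operators of `x ω' + γ ω = g` and of
`2x(1-x) ω' + c(1-2x) ω + const = g` on `[0,1]`.
-/

namespace Vale.Agent.P244Z.Ex

open Set Filter Topology Polynomial

/-- The coordinate function. -/
noncomputable def xx : CI := pe X

theorem ex_xx {x : ℝ} (hx : x ∈ Icc (0 : ℝ) 1) : ex xx x = x := by simp [xx, ex_pe _ hx]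

theorem sm_xx : Sm xx := sm_pe _

theorem isD_xx : IsD xx 1 := by simpa [xx] using isD_pe X

theorem exists_max (f : CI) : ∃ x ∈ Icc (0 : ℝ) 1, ∀ y ∈ Icc (0 : ℝ) 1, ex f y ≤ ex f x :=
  isCompact_Icc.exists_isMaxOn (nonempty_Icc.2 zero_le_one) (ex_continuous f).continuousOn

theorem norm_le_of_euler {ω ω' : CI} (h : IsD ω ω') {γ K : ℝ} (hγ : 0 < γ)
    (hK : ∀ x ∈ Icc (0 : ℝ) 1, |x * ex ω' x + γ * ex ω x| ≤ K) : ‖ω‖ ≤ K / γ := by
  have key : ∀ ω ω' : CI, IsD ω ω' → (∀ x ∈ Icc (0 : ℝ) 1, x * ex ω' x + γ * ex ω x ≤ K) →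
      ∀ y ∈ Icc (0 : ℝ) 1, ex ω y ≤ K / γ := by
    intro ω ω' h hK y hy
    obtain ⟨x, hx, hm⟩ := exists_max ω
    have h1 : 0 ≤ x * ex ω' x := by
      rcases eq_or_lt_of_le hx.1 with e0 | l0
      · rw [← e0, zero_mul]
      rcases eq_or_lt_of_le hx.2 with e1 | l1
      · subst e1
        rw [one_mul]
        exact h.nonneg_at_one hm
      · rw [h.eq_zero_of_max ⟨l0, l1⟩ hm, mul_zero]
    rw [le_div_iff₀ hγ]
    nlinarith [hm y hy, hK x hx]
  refine norm_le_of_ex fun x hx => abs_le.2 ⟨?_, key ω ω' h (fun y hy => (abs_le.1 (hK y hy)).2) x hx⟩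
  have := key (-ω) (-ω') h.neg (fun y hy => by
    simp only [ex_neg]; linarith [(abs_le.1 (hK y hy)).1]) x hx
  simp only [ex_neg] at this
  linarith

theorem half_bound {ω ω' b : ℝ → ℝ} {K : ℝ} (hc : ContinuousOn ω (Icc 0 (1 / 2)))
    (hd : ∀ x ∈ Ico (0 : ℝ) (1 / 2), HasDerivWithinAt ω (ω' x) (Ici x) x)
    (hb : ∀ x ∈ Icc (0 : ℝ) (1 / 2), 1 - 3 * x ≤ b x)
    (hK : ∀ x ∈ Icc (0 : ℝ) (1 / 2), 2 * (x * (1 - x)) * ω' x + b x * ω x ≤ K) (hK0 : 0 ≤ K) :
    ∀ x ∈ Icc (0 : ℝ) (1 / 2), ω x ≤ 12 * K := by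
  intro x hx
  refine le_of_forall_pos_le_add fun ε hε => ?_
  set L := K + ε / 12 with hL
  have hL0 : 0 < L := by positivity
  have h0 : ω 0 < L * (2 + 20 * 0) := by
    have h1 := hK 0 ⟨le_rfl, by norm_num⟩
    have h2 := hb 0 ⟨le_rfl, by norm_num⟩
    by_contra hn
    rw [not_lt] at hn
    nlinarith
  have h := image_le_of_deriv_right_lt_deriv_boundary hc hd (B := fun y => L * (2 + 20 * y))
    (B' := fun _ => L * (20 * 1)) h0.le
    (fun y => (((hasDerivAt_id y).const_mul 20).const_add 2).const_mul L) (fun y hy he => ?_) hx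
  · have : L * (2 + 20 * x) ≤ L * 12 := mul_le_mul_of_nonneg_left (by linarith [hx.2]) hL0.le
    linarith
  · have hy' : y ∈ Icc (0 : ℝ) (1 / 2) := Ico_subset_Icc_self hy
    have hy0 : 0 < y := by
      rcases eq_or_lt_of_le hy.1 with e | l
      · rw [← e] at he; exact absurd he h0.ne
      · exact l
    have h1 := hK y hy'
    have h2 := hb y hy'
    have hw : 0 < y * (1 - y) := mul_pos hy0 (by linarith [hy.2])
    have hB : 0 < L * (2 + 20 * y) := by positivity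
    rw [he] at h1
    have h3 : (1 - 3 * y) * (L * (2 + 20 * y)) ≤ b y * (L * (2 + 20 * y)) :=
      mul_le_mul_of_nonneg_right h2 hB.le
    have h4 : 2 * L ≤ L * (40 * (y * (1 - y)) + (1 - 3 * y) * (2 + 20 * y)) := by
      have : 2 ≤ 40 * (y * (1 - y)) + (1 - 3 * y) * (2 + 20 * y) := by nlinarith [hy.2]
      nlinarith
    by_contra hn
    rw [not_lt] at hn
    have h5 : 2 * (y * (1 - y)) * (L * (20 * 1)) ≤ 2 * (y * (1 - y)) * ω' y :=
      mul_le_mul_of_nonneg_left hn (by positivity)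
    nlinarith

theorem IsD.right {f g : CI} (h : IsD f g) {x : ℝ} (hx : x ∈ Ico (0 : ℝ) 1) :
    HasDerivWithinAt (ex f) (ex g x) (Ici x) x :=
  (h x (Ico_subset_Icc_self hx)).mono_of_mem_nhdsWithin (Icc_mem_nhdsGE_of_mem hx)

theorem IsD.left {f g : CI} (h : IsD f g) {x : ℝ} (hx : x ∈ Ioc (0 : ℝ) 1) :
    HasDerivWithinAt (ex f) (ex g x) (Iic x) x :=
  (h x (Ioc_subset_Icc_self hx)).mono_of_mem_nhdsWithin (Icc_mem_nhdsLE_of_mem hx)

theorem norm_le_of_ode {ω ω' : CI} (h : IsD ω ω') {b : ℝ → ℝ} {K : ℝ}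
    (hb1 : ∀ x ∈ Icc (0 : ℝ) (1 / 2), 1 - 3 * x ≤ b x)
    (hb2 : ∀ x ∈ Icc (1 / 2 : ℝ) 1, b x ≤ 2 - 3 * x)
    (hK : ∀ x ∈ Icc (0 : ℝ) 1, |2 * (x * (1 - x)) * ex ω' x + b x * ex ω x| ≤ K) :
    ‖ω‖ ≤ 12 * K := by
  have hK0 : 0 ≤ K := (abs_nonneg _).trans (hK 0 ⟨le_rfl, zero_le_one⟩)
  have key : ∀ ω ω' : CI, IsD ω ω' →
      (∀ x ∈ Icc (0 : ℝ) 1, |2 * (x * (1 - x)) * ex ω' x + b x * ex ω x| ≤ K) →
      ∀ y ∈ Icc (0 : ℝ) 1, ex ω y ≤ 12 * K := by
    intro ω ω' h hK y hy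
    rcases le_total y (1 / 2) with h1 | h1
    · exact half_bound (ex_continuous ω).continuousOn
        (fun x hx => h.right ⟨hx.1, by linarith [hx.2]⟩) hb1
        (fun x hx => (abs_le.1 (hK x ⟨hx.1, by linarith [hx.2]⟩)).2) hK0 y ⟨hy.1, h1⟩
    · have := half_bound (ω := fun x => ex ω (1 - x)) (ω' := fun x => ex ω' (1 - x) * (-1))
        (b := fun x => -b (1 - x)) (K := K)
        ((ex_continuous ω).comp (continuous_const.sub continuous_id)).continuousOn
        (fun x hx => ?_) (fun x hx => ?_) (fun x hx => ?_) hK0 (1 - y)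
        ⟨by linarith [hy.2], by linarith⟩
      · simpa using this
      · have h2 := h.left (x := 1 - x) ⟨by linarith [hx.2], by linarith [hx.1]⟩
        have h3 : HasDerivWithinAt (fun x : ℝ => 1 - x) (-1) (Ici x) x :=
          ((hasDerivAt_id x).const_sub 1).hasDerivWithinAt
        exact h2.comp x h3 fun z hz => show 1 - z ≤ 1 - x by linarith [mem_Ici.1 hz]
      · linarith [hb2 (1 - x) ⟨by linarith [hx.2], by linarith [hx.1]⟩]
      · have := (abs_le.1 (hK (1 - x) ⟨by linarith [hx.2], by linarith [hx.1]⟩)).1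
        have e : (1 - x) * (1 - (1 - x)) = x * (1 - x) := by ring
        rw [e] at this
        linarith
  refine norm_le_of_ex fun x hx => abs_le.2 ⟨?_, key ω ω' h hK x hx⟩
  have := key (-ω) (-ω') h.neg (fun y hy => by
    have := hK y hy
    rw [← abs_neg] at this
    simp only [ex_neg]
    convert this using 2
    ring) x hx
  simp only [ex_neg] at this
  linarith

theorem exists_ode_zero {ω ω' : CI} (h : IsD ω ω') {c : ℝ} (hc : 0 < c) :
    ∃ x ∈ Ioo (0 : ℝ) 1, 2 * (x * (1 - x)) * ex ω' x + c * (1 - 2 * x) * ex ω x = 0 := by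
  have hc2 : 0 < c / 2 := by positivity
  obtain ⟨x, hx, hz⟩ := exists_hasDerivAt_eq_zero (a := 0) (b := 1)
    (f := fun x => (x * (1 - x)) ^ (c / 2) * ex ω x)
    (f' := fun x => (1 * (1 - x) + x * (-1)) * (c / 2) * (x * (1 - x)) ^ (c / 2 - 1) * ex ω x
      + (x * (1 - x)) ^ (c / 2) * ex ω' x) zero_lt_one
    (((continuous_id.mul (continuous_const.sub continuous_id)).rpow_const
      fun _ => Or.inr hc2.le).mul (ex_continuous ω)).continuousOn
    (by simp [Real.zero_rpow hc2.ne'])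
    (fun x hx => (((hasDerivAt_id x).mul ((hasDerivAt_id x).const_sub 1)).rpow_const
      (Or.inl (mul_pos hx.1 (sub_pos.2 hx.2)).ne')).mul (h.hasDerivAt hx))
  refine ⟨x, hx, ?_⟩
  have hw : 0 < x * (1 - x) := mul_pos hx.1 (sub_pos.2 hx.2)
  have e : (x * (1 - x)) ^ (c / 2) = (x * (1 - x)) ^ (c / 2 - 1) * (x * (1 - x)) := by
    rw [← Real.rpow_add_one hw.ne']; congr 1; ring
  rw [e] at hz
  have hp := Real.rpow_pos_of_pos hw (c / 2 - 1)
  have h2 : (x * (1 - x)) ^ (c / 2 - 1) *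
      (2 * (x * (1 - x)) * ex ω' x + c * (1 - 2 * x) * ex ω x) = 0 := by linear_combination 2 * hz
  exact (mul_eq_zero.1 h2).resolve_left hp.ne'

/-! ### The one-sided averaging operator -/

/-- The solution operator of `x ω' + γ ω = p` on polynomials. -/
noncomputable def Hp (γ : ℝ) : ℝ[X] →ₗ[ℝ] ℝ[X] :=
  (basisMonomials ℝ).constr ℝ fun n => monomial n (1 / (n + γ))

theorem Hp_spec {γ : ℝ} (hγ : 0 < γ) (p : ℝ[X]) :
    X * derivative (Hp γ p) + C γ * Hp γ p = p := by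
  have h : ((LinearMap.mulLeft ℝ X).comp derivative + LinearMap.mulLeft ℝ (C γ)).comp (Hp γ)
      = LinearMap.id := by
    refine (basisMonomials ℝ).ext fun n => ?_
    rw [LinearMap.comp_apply, Hp, Module.Basis.constr_basis]
    simp only [LinearMap.add_apply, LinearMap.comp_apply, LinearMap.mulLeft_apply,
      coe_basisMonomials, LinearMap.id_apply, C_mul_monomial]
    have hn : (n : ℝ) + γ ≠ 0 := by positivity
    rcases n with _ | n
    · simp [hγ.ne']
    · rw [derivative_monomial, X_mul_monomial, Nat.add_sub_cancel, ← map_add]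
      congr 1
      field_simp
  exact LinearMap.congr_fun h p

theorem norm_pe_le_euler {γ : ℝ} (hγ : 0 < γ) (q : ℝ[X]) :
    ‖pe q‖ ≤ ‖pe (X * derivative q + C γ * q)‖ / γ :=
  norm_le_of_euler (isD_pe q) hγ fun x hx => by
    have := abs_ex_le (pe (X * derivative q + C γ * q)) x
    simpa only [ex_pe _ hx, eval_add, eval_mul, eval_X, eval_C] using this

theorem norm_Hp_le {γ : ℝ} (hγ : 0 < γ) (p : ℝ[X]) : ‖pe (Hp γ p)‖ ≤ 1 / γ * ‖pe p‖ := by
  have := norm_pe_le_euler hγ (Hp γ p)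
  rwa [Hp_spec hγ, div_eq_inv_mul, ← one_div] at this

theorem derivative_Hp {γ : ℝ} (hγ : 0 < γ) (p : ℝ[X]) :
    pe (derivative (Hp γ p)) = pe (Hp (γ + 1) (derivative p)) := by
  have h1 := norm_pe_le_euler (γ := γ + 1) (by linarith)
    (derivative (Hp γ p) - Hp (γ + 1) (derivative p))
  have h2 := congrArg derivative (Hp_spec hγ p)
  have h3 := Hp_spec (γ := γ + 1) (by linarith) (derivative p)
  have h4 : X * derivative (derivative (Hp γ p) - Hp (γ + 1) (derivative p))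
      + C (γ + 1) * (derivative (Hp γ p) - Hp (γ + 1) (derivative p)) = 0 := by
    simp only [derivative_mul, derivative_X, derivative_C, derivative_sub,
      map_add, map_one] at h2 h3 ⊢
    linear_combination h2 - h3
  rw [h4, map_zero, norm_zero, zero_div, norm_le_zero_iff, map_sub, sub_eq_zero] at h1
  exact h1

/-- The solution operator of `x ω' + γ ω = g`. -/
noncomputable def Hop (γ : ℝ) : CI →L[ℝ] CI := extOp (Hp γ)

theorem Hop_pe {γ : ℝ} (hγ : 0 < γ) (p : ℝ[X]) : Hop γ (pe p) = pe (Hp γ p) :=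
  extOp_pe (norm_Hp_le hγ) p

theorem isD_Hop {γ : ℝ} (hγ : 0 < γ) {f g : CI} (h : IsD f g) :
    IsD (Hop γ f) (Hop (γ + 1) g) := by
  refine isD_induction (Q := fun f g => IsD (Hop γ f) (Hop (γ + 1) g)) ?_ (fun p => ?_) h
  · exact isClosed_isD.preimage (f := fun z : CI × CI => (Hop γ z.1, Hop (γ + 1) z.2))
      (by fun_prop)
  · rw [Hop_pe hγ, Hop_pe (by linarith), ← derivative_Hp hγ]
    exact isD_pe _

theorem Hop_spec' {γ : ℝ} (hγ : 0 < γ) {f g : CI} (h : IsD f g) :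
    xx * Hop (γ + 1) g + γ • Hop γ f = f := by
  refine isD_induction (Q := fun f g => xx * Hop (γ + 1) g + γ • Hop γ f = f)
    (isClosed_eq (by fun_prop) continuous_fst) (fun p => ?_) h
  rw [Hop_pe hγ, Hop_pe (by linarith), ← derivative_Hp hγ, xx, ← map_mul, ← map_smul, ← map_add,
    smul_eq_C_mul, Hp_spec hγ]

theorem Hop_spec {γ : ℝ} (hγ : 0 < γ) {f : CI} (hf : Sm f) :
    xx * dX (Hop γ f) + γ • Hop γ f = f := by
  rw [(isD_Hop hγ hf.isD).dX_eq]; exact Hop_spec' hγ hf.isD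

theorem tri_Hop {γ : ℝ} (hγ : 0 < γ) : Tri (Hop γ) := by
  have := tri_of_levels (fun k => Hop (γ + k)) fun k f g h => by
    have h2 := isD_Hop (γ := γ + k) (by positivity) h
    rwa [Nat.cast_succ, ← add_assoc]
  simpa using this

/-! ### The two-sided operator -/

/-- The operator `2x(1-x) ∂ + c(1-2x)`. -/
noncomputable def E2 (c : ℝ) : ℝ[X] →ₗ[ℝ] ℝ[X] :=
  (LinearMap.mulLeft ℝ (C 2 * (X * (1 - X)))).comp derivative
    + LinearMap.mulLeft ℝ (C c * (1 - C 2 * X))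

theorem E2_apply (c : ℝ) (p : ℝ[X]) :
    E2 c p = C 2 * (X * (1 - X)) * derivative p + C c * (1 - C 2 * X) * p := rfl

theorem eval_E2 (c x : ℝ) (p : ℝ[X]) : (E2 c p).eval x
    = 2 * (x * (1 - x)) * (derivative p).eval x + c * (1 - 2 * x) * p.eval x := by
  simp [E2_apply]

theorem E2_X_pow (c : ℝ) (n : ℕ) :
    E2 c (X ^ n) = C (2 * n + c) * X ^ n + C (-(2 * n + 2 * c)) * X ^ (n + 1) := by
  apply Polynomial.funext
  intro x
  rw [eval_E2, derivative_X_pow]
  rcases n with _ | n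
  · simp; ring
  · simp only [eval_mul, eval_C, eval_pow, eval_X, eval_add, Nat.add_sub_cancel]
    push_cast
    ring

/-- The basis `1, E2 1, E2 x, E2 x^2, …`. -/
noncomputable def seq2 (c : ℝ) : ℕ → ℝ[X]
  | 0 => 1
  | n + 1 => E2 c (X ^ n)

theorem degree_seq2 {c : ℝ} (hc : 0 < c) (n : ℕ) : (seq2 c n).degree = n := by
  rcases n with _ | n
  · simp [seq2]
  · rw [seq2, E2_X_pow]
    have h : -(2 * (n : ℝ) + 2 * c) ≠ 0 := by
      have : 0 < 2 * (n : ℝ) + 2 * c := by positivity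
      linarith
    rw [degree_add_eq_right_of_degree_lt, degree_C_mul_X_pow _ h]
    rw [degree_C_mul_X_pow _ h]
    exact (degree_C_mul_X_pow_le _ _).trans_lt (by exact_mod_cast Nat.lt_succ_self n)

/-- The basis adapted to `E2`. -/
noncomputable def basis2 {c : ℝ} (hc : 0 < c) : Module.Basis ℕ ℝ ℝ[X] :=
  (⟨seq2 c, degree_seq2 hc⟩ : Polynomial.Sequence ℝ).basis fun i =>
    isUnit_iff_ne_zero.2 (leadingCoeff_ne_zero.2 (Polynomial.Sequence.ne_zero _ i))

theorem basis2_apply {c : ℝ} (hc : 0 < c) (n : ℕ) : basis2 hc n = seq2 c n :=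
  Polynomial.Sequence.basis_eq_self _ _ n

theorem exists_E2_inverse {c : ℝ} (hc : 0 < c) : ∃ (Φ : ℝ[X] →ₗ[ℝ] ℝ[X]) (m : ℝ[X] →ₗ[ℝ] ℝ),
    ∀ p, E2 c (Φ p) + C (m p) = p := by
  refine ⟨(basis2 hc).constr ℝ fun n => Nat.casesOn n 0 fun k => X ^ k,
    (basis2 hc).constr ℝ fun n => Nat.casesOn n 1 fun _ => 0, fun p => ?_⟩
  have h : (E2 c).comp ((basis2 hc).constr ℝ fun n => Nat.casesOn n 0 fun k => X ^ k)
      + (CAlgHom (R := ℝ) (A := ℝ)).toLinearMap.comp
        ((basis2 hc).constr ℝ fun n => Nat.casesOn n 1 fun _ => 0) = LinearMap.id := by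
    refine (basis2 hc).ext fun n => ?_
    simp only [LinearMap.add_apply, LinearMap.comp_apply, Module.Basis.constr_basis,
      LinearMap.id_apply]
    rw [basis2_apply]
    rcases n with _ | n <;> simp [seq2]
  exact LinearMap.congr_fun h p

open Classical in
/-- The solution operator on polynomials. -/
noncomputable def Mp (c : ℝ) : ℝ[X] →ₗ[ℝ] ℝ[X] :=
  if hc : 0 < c then (exists_E2_inverse hc).choose else 0

open Classical in
/-- The weighted mean on polynomials. -/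
noncomputable def mp (c : ℝ) : ℝ[X] →ₗ[ℝ] ℝ :=
  if hc : 0 < c then (exists_E2_inverse hc).choose_spec.choose else 0

theorem Mp_spec {c : ℝ} (hc : 0 < c) (p : ℝ[X]) : E2 c (Mp c p) + C (mp c p) = p := by
  rw [Mp, mp, dif_pos hc, dif_pos hc]
  exact (exists_E2_inverse hc).choose_spec.choose_spec p

theorem E2_bounds {c : ℝ} (hc : 1 ≤ c) (q : ℝ[X]) (m : ℝ) :
    |m| ≤ ‖pe (E2 c q + C m)‖ ∧ ‖pe q‖ ≤ 24 * ‖pe (E2 c q + C m)‖ := by
  have h0 : ∀ x ∈ Icc (0 : ℝ) 1, |2 * (x * (1 - x)) * ex (pe (derivative q)) x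
      + c * (1 - 2 * x) * ex (pe q) x + m| ≤ ‖pe (E2 c q + C m)‖ := fun x hx => by
    have := abs_ex_le (pe (E2 c q + C m)) x
    simpa only [ex_pe _ hx, eval_add, eval_E2, eval_C] using this
  have h1 : |m| ≤ ‖pe (E2 c q + C m)‖ := by
    obtain ⟨x, hx, hz⟩ := exists_ode_zero (isD_pe q) (c := c) (by linarith)
    have := h0 x (Ioo_subset_Icc_self hx)
    rwa [hz, zero_add] at this
  refine ⟨h1, ?_⟩
  have h2 := norm_le_of_ode (isD_pe q) (b := fun x => c * (1 - 2 * x))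
    (K := 2 * ‖pe (E2 c q + C m)‖) (fun x hx => by nlinarith [hx.1, hx.2])
    (fun x hx => by nlinarith [hx.1, hx.2]) (fun x hx => by
      have h3 := abs_le.1 (h0 x hx)
      have h4 := abs_le.1 h1
      rw [abs_le]
      constructor <;> linarith [h3.1, h3.2, h4.1, h4.2])
  linarith

theorem norm_Mp_le {c : ℝ} (hc : 1 ≤ c) (p : ℝ[X]) : ‖pe (Mp c p)‖ ≤ 24 * ‖pe p‖ := by
  have := (E2_bounds hc (Mp c p) (mp c p)).2
  rwa [Mp_spec (by linarith)] at this

/-- The weighted mean, as a constant polynomial. -/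
noncomputable def Cp (c : ℝ) : ℝ[X] →ₗ[ℝ] ℝ[X] :=
  (CAlgHom (R := ℝ) (A := ℝ)).toLinearMap.comp (mp c)

theorem pe_C (m : ℝ) : pe (C m) = ContinuousMap.const _ m :=
  ext_ex fun x hx => by rw [ex_pe _ hx, eval_C, ex_const]

theorem pe_Cp (c : ℝ) (p : ℝ[X]) : pe (Cp c p) = ContinuousMap.const _ (mp c p) := pe_C _

theorem norm_Cp_le {c : ℝ} (hc : 1 ≤ c) (p : ℝ[X]) : ‖pe (Cp c p)‖ ≤ 1 * ‖pe p‖ := by
  have := (E2_bounds hc (Mp c p) (mp c p)).1
  rw [Mp_spec (by linarith)] at this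
  rw [pe_Cp, one_mul]
  exact norm_le_of_ex fun x _ => this

theorem derivative_Mp {c : ℝ} (hc : 1 ≤ c) (p : ℝ[X]) :
    pe (derivative (Mp c p)) = pe (Mp (c + 2) (derivative p + (2 * c) • Mp c p)) := by
  set r := derivative p + (2 * c) • Mp c p with hr
  have h1 := (E2_bounds (c := c + 2) (by linarith) (derivative (Mp c p) - Mp (c + 2) r)
    (-mp (c + 2) r)).2
  have h2 := congrArg derivative (Mp_spec (c := c) (by linarith) p)
  have h3 := Mp_spec (c := c + 2) (by linarith) r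
  have h4 : E2 (c + 2) (derivative (Mp c p) - Mp (c + 2) r) + C (-mp (c + 2) r) = 0 := by
    rw [map_sub, map_neg, sub_add, sub_neg_eq_add, h3, hr, ← h2, smul_eq_C_mul]
    apply Polynomial.funext
    intro x
    simp only [E2_apply, derivative_add, derivative_mul, derivative_X, derivative_C,
      derivative_sub, derivative_one, eval_add, eval_sub, eval_mul, eval_C, eval_X, eval_one,
      eval_zero]
    ring
  rw [h4, map_zero, norm_zero, mul_zero, norm_le_zero_iff, map_sub, sub_eq_zero] at h1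
  exact h1

/-- The solution operator of `2x(1-x) ω' + c(1-2x) ω + const = g`. -/
noncomputable def Mop (c : ℝ) : CI →L[ℝ] CI := extOp (Mp c)

/-- The constant in `2x(1-x) ω' + c(1-2x) ω + const = g`. -/
noncomputable def Cop (c : ℝ) : CI →L[ℝ] CI := extOp (Cp c)

theorem Mop_pe {c : ℝ} (hc : 1 ≤ c) (p : ℝ[X]) : Mop c (pe p) = pe (Mp c p) :=
  extOp_pe (norm_Mp_le hc) p

theorem Cop_pe {c : ℝ} (hc : 1 ≤ c) (p : ℝ[X]) : Cop c (pe p) = pe (Cp c p) :=
  extOp_pe (norm_Cp_le hc) p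

theorem Cop_const {c : ℝ} (hc : 1 ≤ c) (f : CI) :
    Cop c f = ContinuousMap.const _ (ex (Cop c f) 0) := by
  rw [← ev0_apply]
  refine denseRange_pe.induction_on f (isClosed_eq (by fun_prop) (by fun_prop)) fun p => ?_
  rw [Cop_pe hc, pe_Cp, ev0_apply, ex_const]

theorem tri_Cop {c : ℝ} (hc : 1 ≤ c) : Tri (Cop c) := by
  refine tri_of_levels (fun k => if k = 0 then Cop c else 0) fun k f g _ => ?_
  rcases k with _ | k
  · simp only [if_true]
    rw [Cop_const hc]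
    exact isD_const _
  · exact isD_zero

theorem isD_Mop {c : ℝ} (hc : 1 ≤ c) {f g : CI} (h : IsD f g) :
    IsD (Mop c f) (Mop (c + 2) (g + (2 * c) • Mop c f)) := by
  refine isD_induction (Q := fun f g => IsD (Mop c f) (Mop (c + 2) (g + (2 * c) • Mop c f))) ?_
    (fun p => ?_) h
  · exact isClosed_isD.preimage
      (f := fun z : CI × CI => (Mop c z.1, Mop (c + 2) (z.2 + (2 * c) • Mop c z.1))) (by fun_prop)
  · rw [Mop_pe hc, ← map_smul, ← map_add, Mop_pe (by linarith), ← derivative_Mp hc]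
    exact isD_pe _

theorem Mop_spec' {c : ℝ} (hc : 1 ≤ c) {f g : CI} (h : IsD f g) :
    (2 : ℝ) • (wt * Mop (c + 2) (g + (2 * c) • Mop c f)) + c • ((1 - (2 : ℝ) • xx) * Mop c f)
      + Cop c f = f := by
  refine isD_induction (Q := fun f g => (2 : ℝ) • (wt * Mop (c + 2) (g + (2 * c) • Mop c f))
    + c • ((1 - (2 : ℝ) • xx) * Mop c f) + Cop c f = f)
    (isClosed_eq (by fun_prop) continuous_fst) (fun p => ?_) h
  rw [Mop_pe hc, ← map_smul, ← map_add, Mop_pe (by linarith), ← derivative_Mp hc, Cop_pe hc, pe_Cp]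
  refine ext_ex fun x hx => ?_
  have := congrArg (eval x) (Mp_spec (c := c) (by linarith) p)
  simp only [eval_add, eval_E2, eval_C] at this
  simp only [ex_add, ex_smul, ex_mul, ex_sub, ex_one, ex_wt hx, ex_xx hx, ex_pe _ hx, ex_const]
  linarith

theorem Mop_spec {c : ℝ} (hc : 1 ≤ c) {f : CI} (hf : Sm f) :
    (2 : ℝ) • (wt * dX (Mop c f)) + c • ((1 - (2 : ℝ) • xx) * Mop c f) + Cop c f = f := by
  rw [(isD_Mop hc hf.isD).dX_eq]; exact Mop_spec' hc hf.isD

/-- The derivatives of `Mop 1 g`. -/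
noncomputable def omL (g : CI) : ℕ → CI
  | 0 => Mop 1 g
  | k + 1 => Mop (2 * k + 3) (D (k + 1) g + (2 * ((k : ℝ) + 1) ^ 2) • omL g k)

theorem isD_omL {g : CI} (hg : Sm g) (k : ℕ) : IsD (omL g k) (omL g (k + 1)) := by
  induction k with
  | zero =>
    have := isD_Mop (c := 1) le_rfl (hg 0)
    norm_num at this
    simpa [omL] using this
  | succ k ih =>
    have hk : (0 : ℝ) ≤ k := Nat.cast_nonneg k
    have h := isD_Mop (c := 2 * k + 3) (by linarith)
      ((hg (k + 1)).add (ih.smul (2 * ((k : ℝ) + 1) ^ 2)))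
    rw [← omL, add_assoc (D _ g), ← add_smul] at h
    rw [omL.eq_2 g (k + 1)]
    have e1 : (2 * ((k + 1 : ℕ) : ℝ) + 3) = 2 * k + 3 + 2 := by push_cast; ring
    have e2 : 2 * (((k + 1 : ℕ) : ℝ) + 1) ^ 2 = 2 * ((k : ℝ) + 1) ^ 2 + 2 * (2 * k + 3) := by
      push_cast; ring
    rw [e1, e2]
    exact h

theorem tri_Mop : Tri (Mop 1) := by
  have key := fun g (hg : Sm g) => sm_of_seq (c := omL g) (isD_omL hg)
  refine ⟨fun g hg => (key g hg).1, fun k => ?_⟩
  suffices h : ∃ Φ : (Fin (k + 1) → CI) →L[ℝ] CI, ∀ g, omL g k = Φ fun j => D j g by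
    obtain ⟨Φ, hΦ⟩ := h
    exact ⟨Φ, fun g hg => ((key g hg).2 k).trans (hΦ g)⟩
  induction k with
  | zero => exact ⟨(Mop 1).comp (ContinuousLinearMap.proj 0), fun g => rfl⟩
  | succ k ih =>
    obtain ⟨Φ, hΦ⟩ := ih
    refine ⟨(Mop (2 * k + 3)).comp
      (ContinuousLinearMap.proj (R := ℝ) (φ := fun _ : Fin (k + 2) => CI) (Fin.last (k + 1))
      + (2 * ((k : ℝ) + 1) ^ 2) • Φ.comp (ContinuousLinearMap.pi fun j : Fin (k + 1) =>
        ContinuousLinearMap.proj (R := ℝ) (φ := fun _ : Fin (k + 2) => CI) (Fin.castSucc j))),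
      fun g => ?_⟩
    rw [omL, hΦ]
    rfl

end Vale.Agent.P244Z.Ex
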