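import Vale.Agent.P244Z.Ex.Duh

/-!
Global smooth solutions of `u_t = L u + G(u)` for a tame right-hand side `G`, by Picard iteration.
-/

namespace Vale.Agent.P244Z.Ex

open Set Filter Topology MeasureTheory

variable {ι : Type} [Fintype ι]

/-- All components are smooth. -/
def SmT (u : ι → CI) : Prop := ∀ i, Sm (u i)

/-- The `k`-th derivative of a tuple. -/
noncomputable def DT (k : ℕ) (u : ι → CI) : ι → CI := fun i => D k (u i)

/-- The weighted `(k+1)`-st derivative of a tuple. -/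
noncomputable def GT (k : ℕ) (u : ι → CI) : ι → CI := fun i => wt * D (k + 1) (u i)

/-- The size of a tuple at level `k`. -/
noncomputable def yy (k : ℕ) (u : ι → CI) : ℝ := ‖DT k u‖ + ‖GT k u‖

theorem yy_nonneg (k : ℕ) (u : ι → CI) : 0 ≤ yy k u := by unfold yy; positivity

theorem norm_DT_le_yy (k : ℕ) (u : ι → CI) : ‖DT k u‖ ≤ yy k u :=
  le_add_of_nonneg_right (norm_nonneg _)

theorem norm_GT_le_yy (k : ℕ) (u : ι → CI) : ‖GT k u‖ ≤ yy k u :=
  le_add_of_nonneg_left (norm_nonneg _)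

theorem norm_D_le (k : ℕ) (u : ι → CI) (i : ι) : ‖D k (u i)‖ ≤ ‖DT k u‖ :=
  norm_le_pi_norm (DT k u) i

theorem norm_GT_le (k : ℕ) (u : ι → CI) : ‖GT k u‖ ≤ ‖DT (k + 1) u‖ :=
  (pi_norm_le_iff_of_nonneg (norm_nonneg _)).2 fun i =>
    (norm_mul_le _ _).trans ((mul_le_of_le_one_left (norm_nonneg _) norm_wt_le).trans
      (norm_D_le _ u i))

omit [Fintype ι] in
theorem DT_zero (u : ι → CI) : DT 0 u = u := rfl

omit [Fintype ι] in
theorem SmT.sub {u v : ι → CI} (hu : SmT u) (hv : SmT v) : SmT (u - v) :=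
  fun i => (hu i).sub (hv i)

omit [Fintype ι] in
theorem DT_sub {u v : ι → CI} (hu : SmT u) (hv : SmT v) (k : ℕ) :
    DT k (u - v) = DT k u - DT k v := funext fun i => D_sub (hu i) (hv i) k

/-- Tame right-hand sides. -/
structure Rhs (G : (ι → CI) → ι → CI) : Prop where
  sm : ∀ u, SmT u → SmT (G u)
  tame : ∀ k M, ∃ C, 0 ≤ C ∧ ∀ u, SmT u → (∀ j < k, yy j u ≤ M) → ‖DT k (G u)‖ ≤ C * (1 + yy k u)
  lip : ∀ M, ∃ Λ, 0 ≤ Λ ∧ ∀ u v, SmT u → SmT v → yy 0 u ≤ M → yy 0 v ≤ M →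
    ‖G u - G v‖ ≤ Λ * yy 0 (u - v)

/-- Curves of smooth tuples with all derivatives continuous in the parameter. -/
structure Cv {Z : Type} [TopologicalSpace Z] (u : Z → ι → CI) : Prop where
  sm : ∀ t, SmT (u t)
  cont : ∀ k i, Continuous fun t => D k (u t i)

theorem Cv.cont_yy {Z : Type} [TopologicalSpace Z] {u : Z → ι → CI} (hu : Cv u) (k : ℕ) :
    Continuous fun t => yy k (u t) :=
  (continuous_pi (hu.cont k)).norm.add
    (continuous_pi fun i => continuous_const.mul (hu.cont (k + 1) i)).norm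

omit [Fintype ι] in
theorem Cv.sub {Z : Type} [TopologicalSpace Z] {u v : Z → ι → CI} (hu : Cv u) (hv : Cv v) :
    Cv fun t => u t - v t :=
  ⟨fun t => (hu.sm t).sub (hv.sm t), fun k i => by
    simp only [Pi.sub_apply, D_sub (hu.sm _ i) (hv.sm _ i)]
    exact (hu.cont k i).sub (hv.cont k i)⟩

omit [Fintype ι] in
theorem cv_const {Z : Type} [TopologicalSpace Z] {u : ι → CI} (hu : SmT u) : Cv fun _ : Z => u :=
  ⟨fun _ => hu, fun _ _ => continuous_const⟩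

theorem Cv.eventually_yy_le {Z : Type} [TopologicalSpace Z] {u : Z → ι → CI} (hu : Cv u) (z : Z)
    (k : ℕ) : ∃ M, ∀ᶠ t in 𝓝 z, ∀ j ≤ k, yy j (u t) ≤ M := by
  refine ⟨∑ j ∈ Finset.range (k + 1), yy j (u z) + 1, ?_⟩
  have h : ∀ j ∈ Finset.range (k + 1), ∀ᶠ t in 𝓝 z, yy j (u t) < yy j (u z) + 1 := fun j _ =>
    (hu.cont_yy j).continuousAt.eventually (gt_mem_nhds (lt_add_one _))
  filter_upwards [(Finset.eventually_all _).2 h] with t ht j hj
  have hj' : j ∈ Finset.range (k + 1) := Finset.mem_range.2 (by omega)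
  have := Finset.single_le_sum (f := fun j => yy j (u z)) (fun j _ => yy_nonneg j _) hj'
  linarith [ht j hj']

theorem Rhs.cv {G : (ι → CI) → ι → CI} (hG : Rhs G) {Z : Type} [TopologicalSpace Z]
    {u : Z → ι → CI} (hu : Cv u) : Cv fun t => G (u t) := by
  refine ⟨fun t => hG.sm _ (hu.sm t), fun k i => continuous_iff_continuousAt.2 fun z => ?_⟩
  refine tendsto_D_of_bounded (fun t => hG.sm _ (hu.sm t) i) (hG.sm _ (hu.sm z) i) (fun k => ?_) ?_ k
  · obtain ⟨M, hM⟩ := hu.eventually_yy_le z k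
    obtain ⟨C, hC0, hC⟩ := hG.tame k M
    refine ⟨C * (1 + M), ?_⟩
    filter_upwards [hM] with t ht
    refine (norm_D_le k _ i).trans ((hC _ (hu.sm t) fun j hj => ht j hj.le).trans ?_)
    exact mul_le_mul_of_nonneg_left (by linarith [ht k le_rfl]) hC0
  · obtain ⟨M, hM⟩ := hu.eventually_yy_le z 0
    obtain ⟨Λ, _, hΛ⟩ := hG.lip M
    rw [tendsto_iff_norm_sub_tendsto_zero]
    have h1 : Tendsto (fun t => Λ * yy 0 (u t - u z)) (𝓝 z) (𝓝 0) := by
      have h2 := ((hu.sub (cv_const (hu.sm z))).cont_yy 0).continuousAt (x := z)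
      have h3 : yy 0 (u z - u z) = 0 := by
        have h4 : GT 0 (0 : ι → CI) = 0 := by
          funext j; simp [GT, D_zero_fun]
        simp [yy, DT_zero, h4]
      rw [ContinuousAt, h3] at h2
      simpa using h2.const_mul Λ
    refine squeeze_zero' (Eventually.of_forall fun _ => norm_nonneg _) ?_ h1
    filter_upwards [hM] with t ht
    exact (norm_le_pi_norm (G (u t) - G (u z)) i).trans
      (hΛ _ _ (hu.sm t) (hu.sm z) (ht 0 le_rfl) (hM.self_of_nhds 0 le_rfl))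

/-- The Duhamel map for tuples. -/
noncomputable def duhT (μ ν : ℝ) (u₀ : ι → CI) (g : ℝ → ι → CI) (t : ℝ) : ι → CI :=
  fun i => duh μ ν 0 (u₀ i) (fun s => g s i) (max t 0)

variable {μ ν : ℝ} (hμ : 1 ≤ μ) (hν : 1 ≤ ν)
include hμ hν

omit [Fintype ι] in
theorem D_duhT {u₀ : ι → CI} (h₀ : SmT u₀) {g : ℝ → ι → CI} (hg : Cv g) (t : ℝ) (i : ι) :
    Sm (duhT μ ν u₀ g t i) ∧ ∀ k, D k (duhT μ ν u₀ g t i)
      = duh μ ν k (D k (u₀ i)) (fun s => D k (g s i)) (max t 0) :=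
  sm_of_seq (c := fun k => duh μ ν k (D k (u₀ i)) (fun s => D k (g s i)) (max t 0)) fun k =>
    isD_duh hμ hν k (hg.cont k i) (hg.cont (k + 1) i) (h₀ i k) (fun s => hg.sm s i k) _

omit [Fintype ι] in
theorem cv_duhT {u₀ : ι → CI} (h₀ : SmT u₀) {g : ℝ → ι → CI} (hg : Cv g) :
    Cv (duhT μ ν u₀ g) :=
  ⟨fun t i => (D_duhT hμ hν h₀ hg t i).1, fun k i => by
    simp only [(D_duhT hμ hν h₀ hg _ i).2 k]
    exact (continuous_duh hμ hν k _ (hg.cont k i)).comp (continuous_id.max continuous_const)⟩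

theorem yy_duhT_le {u₀ : ι → CI} (h₀ : SmT u₀) {g : ℝ → ι → CI} (hg : Cv g) (k : ℕ)
    {K γ t T : ℝ} (hK : 0 ≤ K) (ht : t ∈ Icc 0 T)
    (h : ∀ s ∈ Icc 0 T, ‖DT k (g s)‖ ≤ K * Real.exp (γ * s)) :
    yy k (duhT μ ν u₀ g t) ≤ ‖DT k u₀‖ + ‖DT (k + 1) u₀‖ + 2 * K * Real.exp (γ * t) * JJ γ T := by
  have hJ := JJ_nonneg γ (ht.1.trans ht.2)
  have h1 : ‖DT k (duhT μ ν u₀ g t)‖ ≤ ‖DT k u₀‖ + K * Real.exp (γ * t) * JJ γ T := by
    refine (pi_norm_le_iff_of_nonneg (by positivity)).2 fun i => ?_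
    simp only [DT, (D_duhT hμ hν h₀ hg t i).2 k, max_eq_left ht.1]
    refine (norm_duh_le hμ hν k _ hK ht fun s hs => (norm_D_le k _ i).trans (h s hs)).trans ?_
    exact add_le_add_left (norm_D_le k u₀ i) _
  have h2 : ‖GT k (duhT μ ν u₀ g t)‖ ≤ ‖DT (k + 1) u₀‖ + K * Real.exp (γ * t) * JJ γ T := by
    refine (pi_norm_le_iff_of_nonneg (by positivity)).2 fun i => ?_
    simp only [GT, (D_duhT hμ hν h₀ hg t i).2 (k + 1), max_eq_left ht.1]
    refine (norm_wt_duh_le hμ hν k _ (hg.cont (k + 1) i) (fun s => hg.sm s i k) hK ht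
      fun s hs => (norm_D_le k _ i).trans (h s hs)).trans ?_
    exact add_le_add_left (norm_D_le (k + 1) u₀ i) _
  rw [yy]
  linarith

omit [Fintype ι] in
theorem duhT_sub (u₀ v₀ : ι → CI) {g h : ℝ → ι → CI} (hg : Cv g) (hh : Cv h) (t : ℝ) :
    duhT μ ν u₀ g t - duhT μ ν v₀ h t = duhT μ ν (u₀ - v₀) (fun s => g s - h s) t :=
  funext fun i => duh_sub hμ hν 0 _ _ (hg.cont 0 i) (hh.cont 0 i) _

omit hμ hν [Fintype ι] in
theorem duhT_max (u₀ : ι → CI) (g : ℝ → ι → CI) (t : ℝ) :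
    duhT μ ν u₀ g (max t 0) = duhT μ ν u₀ g t := by
  funext i
  simp only [duhT, max_eq_left (le_max_right t 0)]

omit [Fintype ι] in
theorem duhT_zero (u₀ : ι → CI) (g : ℝ → ι → CI) : duhT μ ν u₀ g 0 = u₀ := by
  funext i
  simp only [duhT, max_self, duh_zero hμ hν]

omit hμ hν [Fintype ι] in
theorem duhT_congr (u₀ : ι → CI) {g h : ℝ → ι → CI} {t : ℝ} (ht : 0 ≤ t)
    (e : ∀ s ∈ Icc 0 t, g s = h s) : duhT μ ν u₀ g t = duhT μ ν u₀ h t := by
  funext i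
  simp only [duhT, max_eq_left ht]
  exact duh_congr 0 _ ht fun s hs => by rw [e s hs]

omit [Fintype ι] in
theorem hasDerivWithinAt_duhT {u₀ : ι → CI} (h₀ : SmT u₀) {g : ℝ → ι → CI} (hg : Cv g) (k : ℕ)
    (i : ι) {t : ℝ} (ht : 0 ≤ t) :
    HasDerivWithinAt (fun s => D k (duhT μ ν u₀ g s i))
      (Lop (μ + 2 * k) (ν + 2 * k) (D (k + 1) (duhT μ ν u₀ g t i)) (D (k + 2) (duhT μ ν u₀ g t i))
        - lam μ ν k • D k (duhT μ ν u₀ g t i) + D k (g t i)) (Ici 0) t := by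
  have hc := cv_duhT hμ hν h₀ hg
  refine hasDerivWithinAt_of_right (v := fun s => D k (duhT μ ν u₀ g s i)) (φ := fun t =>
    Lop (μ + 2 * k) (ν + 2 * k) (D (k + 1) (duhT μ ν u₀ g t i)) (D (k + 2) (duhT μ ν u₀ g t i))
        - lam μ ν k • D k (duhT μ ν u₀ g t i) + D k (g t i)) (hc.cont k i) ?_ (fun r hr => ?_) ht
  · have := hc.cont (k + 1) i
    have := hc.cont (k + 2) i
    have := hc.cont k i
    have := hg.cont k i
    unfold Lop
    fun_prop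
  · have e : ∀ s, 0 ≤ s → D k (duhT μ ν u₀ g s i)
        = duh μ ν k (D k (u₀ i)) (fun s => D k (g s i)) s := fun s hs => by
      rw [(D_duhT hμ hν h₀ hg s i).2 k, max_eq_left hs]
    have h1 : IsD (duh μ ν k (D k (u₀ i)) (fun s => D k (g s i)) r)
        (D (k + 1) (duhT μ ν u₀ g r i)) := by
      rw [← e r hr]; exact hc.sm r i k
    have h2 := hasDerivWithinAt_duh_right hμ hν k (D k (u₀ i)) (hg.cont k i) hr h1
      (hc.sm r i (k + 1))
    rw [← e r hr] at h2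
    exact h2.congr (fun s hs => e s (hr.trans hs)) (e r hr)

/-- Stability of mild solutions on `[0,T]`. -/
theorem mild_stable {G : (ι → CI) → ι → CI} (hG : Rhs G) {T : ℝ} (hT : 0 ≤ T) (M : ℝ) :
    ∃ C, ∀ (u₀ v₀ : ι → CI) (u v : ℝ → ι → CI), SmT u₀ → SmT v₀ → Cv u → Cv v →
      (∀ t ∈ Icc 0 T, u t = duhT μ ν u₀ (fun s => G (u s)) t) →
      (∀ t ∈ Icc 0 T, v t = duhT μ ν v₀ (fun s => G (v s)) t) →
      (∀ t ∈ Icc 0 T, yy 0 (u t) ≤ M) → (∀ t ∈ Icc 0 T, yy 0 (v t) ≤ M) →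
      ∀ t ∈ Icc 0 T, yy 0 (u t - v t) ≤ C * (‖u₀ - v₀‖ + ‖DT 1 (u₀ - v₀)‖) := by
  obtain ⟨Λ, hΛ0, hΛ⟩ := hG.lip M
  obtain ⟨γ, hγ0, hγ⟩ := exists_JJ_le hT (ε := 1 / (4 * (Λ + 1))) (by positivity)
  refine ⟨2 * Real.exp (γ * T), fun u₀ v₀ u v h₀ h₀' hu hv eu ev bu bv => ?_⟩
  have hc : Continuous fun t => Real.exp (-(γ * t)) * yy 0 (u t - v t) :=
    Continuous.mul (by fun_prop) ((hu.sub hv).cont_yy 0)
  obtain ⟨t₀, ht₀, hmax⟩ := isCompact_Icc.exists_isMaxOn (nonempty_Icc.2 hT) hc.continuousOn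
  set K := Real.exp (-(γ * t₀)) * yy 0 (u t₀ - v t₀) with hK
  have hK0 : 0 ≤ K := mul_nonneg (Real.exp_pos _).le (yy_nonneg _ _)
  have hb : ∀ s ∈ Icc 0 T, yy 0 (u s - v s) ≤ K * Real.exp (γ * s) := by
    intro s hs
    have h1 : Real.exp (-(γ * s)) * yy 0 (u s - v s) ≤ K := hmax hs
    rw [Real.exp_neg, inv_mul_le_iff₀ (Real.exp_pos _)] at h1
    linarith
  set Z := ‖u₀ - v₀‖ + ‖DT 1 (u₀ - v₀)‖ with hZ
  have hZ0 : 0 ≤ Z := by positivity
  have h2 := yy_duhT_le hμ hν (h₀.sub h₀') ((hG.cv hu).sub (hG.cv hv)) 0 (K := Λ * K) (γ := γ)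
    (mul_nonneg hΛ0 hK0) ht₀ (fun s hs => by
      rw [DT_zero, mul_assoc]
      exact (hΛ _ _ (hu.sm s) (hv.sm s) (bu s hs) (bv s hs)).trans
        (mul_le_mul_of_nonneg_left (hb s hs) hΛ0))
  rw [← duhT_sub hμ hν _ _ (hG.cv hu) (hG.cv hv), ← eu t₀ ht₀, ← ev t₀ ht₀, DT_zero, zero_add,
    ← hZ] at h2
  have h3 : yy 0 (u t₀ - v t₀) = K * Real.exp (γ * t₀) := by
    rw [hK, mul_right_comm, ← Real.exp_add]; simp
  have h4 : 2 * Λ * JJ γ T ≤ 1 / 2 := by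
    have h5 : JJ γ T * (4 * (Λ + 1)) ≤ 1 := by rwa [le_div_iff₀ (by positivity)] at hγ
    nlinarith [JJ_nonneg γ hT]
  have h6 : 1 ≤ Real.exp (γ * t₀) := Real.one_le_exp (mul_nonneg hγ0 ht₀.1)
  have h7 : K * Real.exp (γ * t₀) ≤ 2 * Z := by
    have h8 : 0 ≤ K * Real.exp (γ * t₀) := by positivity
    nlinarith
  have h9 : K ≤ 2 * Z := by nlinarith
  intro t ht
  refine (hb t ht).trans ?_
  have h10 : Real.exp (γ * t) ≤ Real.exp (γ * T) :=
    Real.exp_le_exp.2 (mul_le_mul_of_nonneg_left ht.2 hγ0)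
  calc K * Real.exp (γ * t) ≤ (2 * Z) * Real.exp (γ * T) :=
        mul_le_mul h9 h10 (Real.exp_pos _).le (by positivity)
    _ = _ := by ring

omit hμ hν in
/-- The Picard iterates. -/
noncomputable def iter (μ ν : ℝ) (G : (ι → CI) → ι → CI) (u₀ : ι → CI) : ℕ → ℝ → ι → CI
  | 0 => fun _ => u₀
  | n + 1 => duhT μ ν u₀ fun s => G (iter μ ν G u₀ n s)

variable {G : (ι → CI) → ι → CI}

theorem cv_iter (hG : Rhs G) {u₀ : ι → CI} (h₀ : SmT u₀) (n : ℕ) : Cv (iter μ ν G u₀ n) := by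
  induction n with
  | zero => exact cv_const h₀
  | succ n ih => exact cv_duhT hμ hν h₀ (hG.cv ih)

omit hμ hν [Fintype ι] in
theorem iter_max (u₀ : ι → CI) (n : ℕ) (t : ℝ) :
    iter μ ν G u₀ n (max t 0) = iter μ ν G u₀ n t := by
  cases n with
  | zero => rfl
  | succ n => exact duhT_max _ _ _

omit hμ hν in
theorem exists_DT_bound (u₀ : ι → CI) (k : ℕ) : ∃ R, ∀ j ≤ k, ‖DT j u₀‖ ≤ R :=
  ⟨∑ j ∈ Finset.range (k + 1), ‖DT j u₀‖, fun j hj =>
    Finset.single_le_sum (f := fun j => ‖DT j u₀‖) (fun _ _ => norm_nonneg _)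
      (Finset.mem_range.2 (by omega))⟩

theorem iter_bound (hG : Rhs G) {T : ℝ} (hT : 0 ≤ T) (R : ℝ) (k : ℕ) :
    ∃ M, ∀ u₀, SmT u₀ → (∀ j ≤ k, ‖DT j u₀‖ ≤ R) → ∀ n, ∀ t ∈ Icc 0 T, ∀ j < k,
      yy j (iter μ ν G u₀ n t) ≤ M := by
  induction k with
  | zero => exact ⟨0, fun _ _ _ _ _ _ j hj => absurd hj (Nat.not_lt_zero j)⟩
  | succ k ih =>
    obtain ⟨M, hM⟩ := ih
    obtain ⟨C, hC0, hC⟩ := hG.tame k M
    obtain ⟨γ, hγ0, hγ⟩ := exists_JJ_le hT (ε := 1 / (8 * (C + 1))) (by positivity)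
    set K := 4 * |R| + 1 with hK
    have hK1 : 1 ≤ K := by
      have := abs_nonneg R
      linarith
    refine ⟨max M (K * Real.exp (γ * T)), fun u₀ h₀ hR' n t ht j hj => ?_⟩
    have hR : ∀ j ≤ k, ‖DT j u₀‖ ≤ R := fun j hj => hR' j (by omega)
    rcases Nat.lt_succ_iff_lt_or_eq.1 hj with hj | rfl
    · exact (hM u₀ h₀ hR n t ht j hj).trans (le_max_left _ _)
    have hZ : ‖DT j u₀‖ + ‖DT (j + 1) u₀‖ ≤ K / 2 := by
      linarith [hR' j (by omega), hR' (j + 1) le_rfl, le_abs_self R]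
    have key : ∀ n, ∀ t ∈ Icc 0 T, yy j (iter μ ν G u₀ n t) ≤ K * Real.exp (γ * t) := by
      intro n
      induction n with
      | zero =>
        intro t ht
        have h6 : 1 ≤ Real.exp (γ * t) := Real.one_le_exp (mul_nonneg hγ0 ht.1)
        have h7 := norm_GT_le j u₀
        simp only [iter, yy]
        nlinarith
      | succ n ihn =>
        intro t ht
        have hcv := cv_iter hμ hν hG h₀ n
        have h2 := yy_duhT_le hμ hν h₀ (hG.cv hcv) j (K := 2 * C * K) (γ := γ) (by positivity) ht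
          (fun s hs => by
            refine (hC _ (hcv.sm s) fun i hi => hM u₀ h₀ hR n s hs i hi).trans ?_
            have h6 : 1 ≤ Real.exp (γ * s) := Real.one_le_exp (mul_nonneg hγ0 hs.1)
            have h7 := ihn s hs
            have h8 : 1 + yy j (iter μ ν G u₀ n s) ≤ 2 * (K * Real.exp (γ * s)) := by nlinarith
            calc _ ≤ C * (2 * (K * Real.exp (γ * s))) := mul_le_mul_of_nonneg_left h8 hC0
              _ = _ := by ring)
        have h4 : 4 * C * JJ γ T ≤ 1 / 2 := by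
          have h5 : JJ γ T * (8 * (C + 1)) ≤ 1 := by rwa [le_div_iff₀ (by positivity)] at hγ
          nlinarith [JJ_nonneg γ hT]
        have h6 : 1 ≤ Real.exp (γ * t) := Real.one_le_exp (mul_nonneg hγ0 ht.1)
        have h8 : 0 ≤ K * Real.exp (γ * t) := by positivity
        refine h2.trans ?_
        nlinarith
    refine (key n t ht).trans (le_trans ?_ (le_max_right _ _))
    exact mul_le_mul_of_nonneg_left (Real.exp_le_exp.2 (mul_le_mul_of_nonneg_left ht.2 hγ0))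
      (by linarith)

theorem iter_geometric (hG : Rhs G) {u₀ : ι → CI} (h₀ : SmT u₀) {T : ℝ} (hT : 0 ≤ T) :
    ∃ K, ∀ n, ∀ t ∈ Icc 0 T,
      ‖iter μ ν G u₀ n t - iter μ ν G u₀ (n + 1) t‖ ≤ K * (1 / 2) ^ n := by
  obtain ⟨R, hR⟩ := exists_DT_bound u₀ 1
  obtain ⟨M, hM⟩ := iter_bound hμ hν hG hT R 1
  have hM' := fun n t ht => hM u₀ h₀ hR n t ht 0 Nat.one_pos
  obtain ⟨Λ, hΛ0, hΛ⟩ := hG.lip M
  obtain ⟨γ, hγ0, hγ⟩ := exists_JJ_le hT (ε := 1 / (4 * (Λ + 1))) (by positivity)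
  have hcv := cv_iter hμ hν hG h₀
  obtain ⟨K, hK⟩ := isCompact_Icc.exists_bound_of_continuousOn
    (((hcv 0).sub (hcv 1)).cont_yy 0).continuousOn (s := Icc 0 T)
  have hK0 : 0 ≤ K := (norm_nonneg _).trans (hK 0 ⟨le_rfl, hT⟩)
  have key : ∀ n, ∀ t ∈ Icc 0 T, yy 0 (iter μ ν G u₀ n t - iter μ ν G u₀ (n + 1) t)
      ≤ K * (1 / 2) ^ n * Real.exp (γ * t) := by
    intro n
    induction n with
    | zero =>
      intro t ht
      have h6 : 1 ≤ Real.exp (γ * t) := Real.one_le_exp (mul_nonneg hγ0 ht.1)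
      have h7 := (le_abs_self _).trans (hK t ht)
      simp only [pow_zero, mul_one, zero_add]
      nlinarith
    | succ n ihn =>
      intro t ht
      have h2 := yy_duhT_le hμ hν (h₀.sub h₀) ((hG.cv (hcv n)).sub (hG.cv (hcv (n + 1)))) 0
        (K := Λ * (K * (1 / 2) ^ n)) (γ := γ) (by positivity) ht (fun s hs => by
          rw [DT_zero, mul_assoc]
          exact (hΛ _ _ ((hcv n).sm s) ((hcv (n + 1)).sm s) (hM' n s hs) (hM' (n + 1) s hs)).trans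
            (mul_le_mul_of_nonneg_left (ihn s hs) hΛ0))
      rw [← duhT_sub hμ hν _ _ (hG.cv (hcv n)) (hG.cv (hcv (n + 1))), DT_sub h₀ h₀,
        DT_sub h₀ h₀, sub_self, sub_self, norm_zero, add_zero, zero_add] at h2
      have h4 : 2 * Λ * JJ γ T ≤ 1 / 2 := by
        have h5 : JJ γ T * (4 * (Λ + 1)) ≤ 1 := by rwa [le_div_iff₀ (by positivity)] at hγ
        nlinarith [JJ_nonneg γ hT]
      have h8 : 0 ≤ K * (1 / 2) ^ n * Real.exp (γ * t) := by positivity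
      refine h2.trans ?_
      rw [pow_succ]
      nlinarith
  refine ⟨K * Real.exp (γ * T), fun n t ht => ?_⟩
  refine ((norm_DT_le_yy 0 _).trans (key n t ht)).trans ?_
  have h10 : Real.exp (γ * t) ≤ Real.exp (γ * T) :=
    Real.exp_le_exp.2 (mul_le_mul_of_nonneg_left ht.2 hγ0)
  calc _ ≤ K * (1 / 2) ^ n * Real.exp (γ * T) := mul_le_mul_of_nonneg_left h10 (by positivity)
    _ = _ := by ring

theorem iter_uniformCauchy (hG : Rhs G) {u₀ : ι → CI} (h₀ : SmT u₀) {T : ℝ} (hT : 0 ≤ T)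
    (k : ℕ) (i : ι) :
    UniformCauchySeqOn (fun n t => D k (iter μ ν G u₀ n t i)) atTop (Icc 0 T) := by
  have hcv := cv_iter hμ hν hG h₀
  obtain ⟨K, hK⟩ := iter_geometric hμ hν hG h₀ hT
  have key := small_of_bounded (l := (atTop ×ˢ atTop : Filter (ℕ × ℕ)))
    (d := fun z t => iter μ ν G u₀ z.1 t i - iter μ ν G u₀ z.2 t i) (S := Icc 0 T)
    (fun z t _ => ((hcv z.1).sm t i).sub ((hcv z.2).sm t i)) ?_ ?_ k
  · intro U hU
    obtain ⟨ε, hε, hεU⟩ := Metric.mem_uniformity_dist.1 hU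
    filter_upwards [key (ε / 2) (by positivity)] with z hz t ht
    refine hεU ?_
    have := hz t ht
    rw [D_sub ((hcv z.1).sm t i) ((hcv z.2).sm t i)] at this
    rw [dist_eq_norm]
    linarith
  · intro k
    obtain ⟨R, hR⟩ := exists_DT_bound u₀ (k + 1)
    obtain ⟨M, hM⟩ := iter_bound hμ hν hG hT R (k + 1)
    refine ⟨M + M, Eventually.of_forall fun z t ht => ?_⟩
    rw [D_sub ((hcv z.1).sm t i) ((hcv z.2).sm t i)]
    refine (norm_sub_le _ _).trans (add_le_add ?_ ?_) <;>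
    exact (norm_D_le k _ i).trans ((norm_DT_le_yy k _).trans
      (hM u₀ h₀ hR _ t ht k (Nat.lt_succ_self k)))
  · intro ε hε
    have h1 : Tendsto (fun n : ℕ => K * (1 / 2 : ℝ) ^ n / (1 - 1 / 2)) atTop (𝓝 0) := by
      have := (tendsto_pow_atTop_nhds_zero_of_lt_one (r := (1 / 2 : ℝ)) (by norm_num)
        (by norm_num)).const_mul K |>.div_const (1 - 1 / 2)
      simpa using this
    have h2 := h1.eventually (ge_mem_nhds (show (0 : ℝ) < ε / 2 by positivity))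
    filter_upwards [h2.prod_mk h2] with z hz t ht
    have hd : ∀ n, dist (iter μ ν G u₀ n t) (iter μ ν G u₀ (n + 1) t) ≤ K * (1 / 2) ^ n :=
      fun n => by rw [dist_eq_norm]; exact hK n t ht
    obtain ⟨a, ha⟩ := cauchySeq_tendsto_of_complete
      (cauchySeq_of_le_geometric (1 / 2) K (by norm_num) hd)
    have h3 := dist_le_of_le_geometric_of_tendsto (1 / 2) K (by norm_num) hd ha
    have h4 := dist_triangle_right (iter μ ν G u₀ z.1 t) (iter μ ν G u₀ z.2 t) a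
    rw [dist_eq_norm] at h4
    refine (norm_le_pi_norm (iter μ ν G u₀ z.1 t - iter μ ν G u₀ z.2 t) i).trans ?_
    linarith [h3 z.1, h3 z.2, hz.1, hz.2]

omit hμ hν in
/-- The global solution. -/
noncomputable def sol (μ ν : ℝ) (G : (ι → CI) → ι → CI) (u₀ : ι → CI) (t : ℝ) : ι → CI :=
  fun i => limUnder atTop fun n => iter μ ν G u₀ n t i

theorem tendsto_D_iter (hG : Rhs G) {u₀ : ι → CI} (h₀ : SmT u₀) (t : ℝ) (i : ι) :
    Sm (sol μ ν G u₀ t i) ∧ ∀ k, Tendsto (fun n => D k (iter μ ν G u₀ n t i)) atTop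
      (𝓝 (D k (sol μ ν G u₀ t i))) := by
  have hcv := cv_iter hμ hν hG h₀
  have h1 : ∀ k, Tendsto (fun n => D k (iter μ ν G u₀ n t i)) atTop
      (𝓝 (limUnder atTop fun n => D k (iter μ ν G u₀ n t i))) := by
    intro k
    have h2 := (iter_uniformCauchy hμ hν hG h₀ (le_max_right t 0) k i).cauchySeq
      (x := max t 0) ⟨le_max_right _ _, le_rfl⟩
    simp only [iter_max] at h2
    exact h2.tendsto_limUnder
  have h3 := sm_of_seq (c := fun k => limUnder atTop fun n => D k (iter μ ν G u₀ n t i)) fun k =>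
    IsD.of_tendsto (Eventually.of_forall fun n => (hcv n).sm t i k) (h1 k) (h1 (k + 1))
  exact ⟨h3.1, fun k => by rw [show D k (sol μ ν G u₀ t i) = _ from h3.2 k]; exact h1 k⟩

omit hμ hν [Fintype ι] in
theorem sol_max (u₀ : ι → CI) (t : ℝ) : sol μ ν G u₀ (max t 0) = sol μ ν G u₀ t := by
  funext i
  simp only [sol, iter_max]

theorem tendstoUniformlyOn_iter (hG : Rhs G) {u₀ : ι → CI} (h₀ : SmT u₀) {T : ℝ} (hT : 0 ≤ T)
    (k : ℕ) (i : ι) : TendstoUniformlyOn (fun n t => D k (iter μ ν G u₀ n t i))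
      (fun t => D k (sol μ ν G u₀ t i)) atTop (Icc 0 T) :=
  (iter_uniformCauchy hμ hν hG h₀ hT k i).tendstoUniformlyOn_of_tendsto fun t _ =>
    (tendsto_D_iter hμ hν hG h₀ t i).2 k

theorem cv_sol (hG : Rhs G) {u₀ : ι → CI} (h₀ : SmT u₀) : Cv (sol μ ν G u₀) := by
  refine ⟨fun t i => (tendsto_D_iter hμ hν hG h₀ t i).1, fun k i => ?_⟩
  have h1 : ContinuousOn (fun t => D k (sol μ ν G u₀ t i)) (Ici 0) := by
    intro t ht
    have h2 := (tendstoUniformlyOn_iter hμ hν hG h₀ (T := t + 1) (by linarith [ht.out]) k i).continuousOn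
      (Frequently.of_forall fun n => ((cv_iter hμ hν hG h₀ n).cont k i).continuousOn)
    refine (h2 t ⟨ht, by linarith⟩).mono_of_mem_nhdsWithin ?_
    rw [mem_nhdsWithin]
    exact ⟨Iio (t + 1), isOpen_Iio, by simp, fun x hx => ⟨hx.2, hx.1.le⟩⟩
  have h3 := h1.comp_continuous (continuous_id.max continuous_const)
    (fun t => show max t 0 ∈ Ici 0 from le_max_right t 0)
  simpa only [Function.comp_def, id, sol_max] using h3

theorem tendsto_yy_iter (hG : Rhs G) {u₀ : ι → CI} (h₀ : SmT u₀) (t : ℝ) (k : ℕ) :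
    Tendsto (fun n => yy k (iter μ ν G u₀ n t)) atTop (𝓝 (yy k (sol μ ν G u₀ t))) :=
  (tendsto_pi_nhds.2 fun i => (tendsto_D_iter hμ hν hG h₀ t i).2 k).norm.add
    (tendsto_pi_nhds.2 fun i =>
      ((tendsto_D_iter hμ hν hG h₀ t i).2 (k + 1)).const_mul wt).norm

theorem sol_bound (hG : Rhs G) {T : ℝ} (hT : 0 ≤ T) (R : ℝ) (k : ℕ) :
    ∃ M, ∀ u₀, SmT u₀ → (∀ j ≤ k + 1, ‖DT j u₀‖ ≤ R) → ∀ t ∈ Icc 0 T, yy k (sol μ ν G u₀ t) ≤ M := by
  obtain ⟨M, hM⟩ := iter_bound hμ hν hG hT R (k + 1)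
  exact ⟨M, fun u₀ h₀ hR t ht => le_of_tendsto' (tendsto_yy_iter hμ hν hG h₀ t k) fun n =>
    hM u₀ h₀ hR n t ht k (Nat.lt_succ_self k)⟩

theorem sol_eq (hG : Rhs G) {u₀ : ι → CI} (h₀ : SmT u₀) (t : ℝ) :
    sol μ ν G u₀ t = duhT μ ν u₀ (fun s => G (sol μ ν G u₀ s)) t := by
  rw [← sol_max, ← duhT_max]
  set T := max t 0
  have hT : 0 ≤ T := le_max_right _ _
  have hcv := cv_iter hμ hν hG h₀
  have hs := cv_sol hμ hν hG h₀
  obtain ⟨R, hR⟩ := exists_DT_bound u₀ 1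
  obtain ⟨M₁, hM₁⟩ := iter_bound hμ hν hG hT R 1
  obtain ⟨M₂, hM₂⟩ := sol_bound hμ hν hG hT R 0
  obtain ⟨Λ, hΛ0, hΛ⟩ := hG.lip (max M₁ M₂)
  have h1 : Tendsto (fun n => iter μ ν G u₀ (n + 1) T) atTop (𝓝 (sol μ ν G u₀ T)) :=
    (tendsto_pi_nhds.2 fun i => (tendsto_D_iter hμ hν hG h₀ T i).2 0).comp
      (tendsto_add_atTop_nat 1)
  refine tendsto_nhds_unique h1 ?_
  rw [Metric.tendsto_nhds]
  intro ε hε
  have hJ := JJ_nonneg 0 hT
  set δ := ε / (4 * (Λ + 1) * (JJ 0 T + 1) + 1) with hδ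
  have hδ0 : 0 < δ := by positivity
  have h2 : ∀ k, ∀ᶠ n in atTop, ∀ s ∈ Icc 0 T,
      ‖DT k (iter μ ν G u₀ n s - sol μ ν G u₀ s)‖ ≤ δ := by
    intro k
    have h3 := fun i => Metric.tendstoUniformlyOn_iff.1
      (tendstoUniformlyOn_iter hμ hν hG h₀ hT k i) δ hδ0
    filter_upwards [eventually_all.2 h3] with n hn s hs'
    rw [DT_sub ((hcv n).sm s) (hs.sm s)]
    refine (pi_norm_le_iff_of_nonneg hδ0.le).2 fun i => ?_
    have := hn i s hs'
    rw [dist_comm, dist_eq_norm] at this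
    exact this.le
  filter_upwards [h2 0, h2 1] with n hn0 hn1
  have h4 := yy_duhT_le hμ hν (h₀.sub h₀) ((hG.cv (hcv n)).sub (hG.cv hs)) 0
    (K := Λ * (2 * δ)) (γ := 0) (T := T) (t := T) (by positivity) ⟨hT, le_rfl⟩ (fun s hs' => by
      rw [DT_zero, zero_mul, Real.exp_zero, mul_one]
      refine (hΛ _ _ ((hcv n).sm s) (hs.sm s)
        ((hM₁ u₀ h₀ hR n s hs' 0 Nat.one_pos).trans (le_max_left _ _))
        ((hM₂ u₀ h₀ hR s hs').trans (le_max_right _ _))).trans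
        (mul_le_mul_of_nonneg_left ?_ hΛ0)
      have := norm_GT_le 0 (iter μ ν G u₀ n s - sol μ ν G u₀ s)
      rw [yy]
      linarith [hn0 s hs', hn1 s hs'])
  rw [← duhT_sub hμ hν _ _ (hG.cv (hcv n)) (hG.cv hs), DT_sub h₀ h₀,
    DT_sub h₀ h₀, sub_self, sub_self, norm_zero, add_zero, zero_add, zero_mul, Real.exp_zero] at h4
  rw [dist_eq_norm]
  refine ((norm_DT_le_yy 0 _).trans h4).trans_lt ?_
  have h5 : δ * (4 * (Λ + 1) * (JJ 0 T + 1) + 1) = ε := by rw [hδ]; field_simp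
  nlinarith [mul_nonneg hΛ0 hJ]

theorem sol_zero (hG : Rhs G) {u₀ : ι → CI} (h₀ : SmT u₀) : sol μ ν G u₀ 0 = u₀ := by
  rw [sol_eq hμ hν hG h₀, duhT_zero hμ hν]

theorem hasDerivWithinAt_sol (hG : Rhs G) {u₀ : ι → CI} (h₀ : SmT u₀) (k : ℕ) (i : ι) {t : ℝ}
    (ht : 0 ≤ t) : HasDerivWithinAt (fun s => D k (sol μ ν G u₀ s i))
      (Lop (μ + 2 * k) (ν + 2 * k) (D (k + 1) (sol μ ν G u₀ t i)) (D (k + 2) (sol μ ν G u₀ t i))
        - lam μ ν k • D k (sol μ ν G u₀ t i) + D k (G (sol μ ν G u₀ t) i)) (Ici 0) t := by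
  have h := hasDerivWithinAt_duhT hμ hν h₀ (hG.cv (cv_sol hμ hν hG h₀)) k i ht
  simpa only [← sol_eq hμ hν hG h₀] using h

/-- Uniqueness: a mild solution on `[0,T]` is the global solution. -/
theorem eq_sol (hG : Rhs G) {u₀ : ι → CI} (h₀ : SmT u₀) {u : ℝ → ι → CI} (hu : Cv u) {T : ℝ}
    (e : ∀ t ∈ Icc 0 T, u t = duhT μ ν u₀ (fun s => G (u s)) t) :
    ∀ t ∈ Icc 0 T, u t = sol μ ν G u₀ t := by
  intro t ht
  have hT := ht.1.trans ht.2
  have hs := cv_sol hμ hν hG h₀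
  obtain ⟨M₁, hM₁⟩ := isCompact_Icc.exists_bound_of_continuousOn
    (hu.cont_yy 0).continuousOn (s := Icc 0 T)
  obtain ⟨M₂, hM₂⟩ := isCompact_Icc.exists_bound_of_continuousOn
    (hs.cont_yy 0).continuousOn (s := Icc 0 T)
  obtain ⟨C, hC⟩ := mild_stable hμ hν hG hT (max M₁ M₂)
  have h := hC u₀ u₀ u _ h₀ h₀ hu hs e (fun t _ => sol_eq hμ hν hG h₀ t)
    (fun s hs' => ((le_abs_self _).trans (hM₁ s hs')).trans (le_max_left _ _))
    (fun s hs' => ((le_abs_self _).trans (hM₂ s hs')).trans (le_max_right _ _)) t ht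
  rw [DT_sub h₀ h₀, sub_self, sub_self, norm_zero, add_zero, mul_zero] at h
  have h2 := (norm_DT_le_yy 0 _).trans h
  rwa [DT_zero, norm_le_zero_iff, sub_eq_zero] at h2

/-- Joint continuity in the data and in time of all derivatives. -/
theorem cv_sol_param (hG : Rhs G) {Z : Type} [TopologicalSpace Z] {a : Z → ι → CI} (ha : Cv a) :
    Cv fun y : Z × ℝ => sol μ ν G (a y.1) y.2 := by
  have hcs : ∀ z, Cv (sol μ ν G (a z)) := fun z => cv_sol hμ hν hG (ha.sm z)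
  refine ⟨fun y => (hcs y.1).sm y.2, fun k i => continuous_iff_continuousAt.2 fun y => ?_⟩
  obtain ⟨z₀, t₀⟩ := y
  obtain ⟨T, hTdef⟩ : ∃ T, T = max t₀ 0 + 1 := ⟨_, rfl⟩
  have hT : 0 ≤ T := by have := le_max_right t₀ 0; linarith
  have hev : ∀ k, ∃ R, ∀ᶠ y : Z × ℝ in 𝓝 (z₀, t₀),
      (∀ j ≤ k, ‖DT j (a y.1)‖ ≤ R) ∧ max y.2 0 ∈ Icc 0 T := by
    intro k
    obtain ⟨R, hR⟩ := ha.eventually_yy_le z₀ k
    refine ⟨R, Eventually.and ?_ ?_⟩
    · have h0 : Tendsto (fun y : Z × ℝ => y.1) (𝓝 (z₀, t₀)) (𝓝 z₀) := continuous_fst.continuousAt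
      filter_upwards [h0.eventually hR] with y hy j hj using (norm_DT_le_yy j _).trans (hy j hj)
    · have h1 : ContinuousAt (fun y : Z × ℝ => max y.2 0) (z₀, t₀) := by fun_prop
      filter_upwards [h1.eventually (gt_mem_nhds (lt_add_one (max t₀ 0)))] with y hy
      exact ⟨le_max_right _ _, hTdef ▸ hy.le⟩
  refine tendsto_D_of_bounded (g := fun y : Z × ℝ => sol μ ν G (a y.1) y.2 i)
    (fun y => (hcs y.1).sm y.2 i) ((hcs z₀).sm t₀ i) (fun k => ?_) ?_ k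
  · obtain ⟨R, hR⟩ := hev (k + 1)
    obtain ⟨M, hM⟩ := sol_bound hμ hν hG hT R k
    refine ⟨M, ?_⟩
    filter_upwards [hR] with y hy
    rw [← sol_max]
    exact (norm_D_le k _ i).trans ((norm_DT_le_yy k _).trans (hM _ (ha.sm _) hy.1 _ hy.2))
  · obtain ⟨R, hR⟩ := hev (0 + 1)
    obtain ⟨M, hM⟩ := sol_bound hμ hν hG hT R 0
    obtain ⟨C, hC⟩ := mild_stable hμ hν hG hT M
    have h1 : Tendsto (fun y : Z × ℝ => sol μ ν G (a z₀) y.2 i) (𝓝 (z₀, t₀))
        (𝓝 (sol μ ν G (a z₀) t₀ i)) := by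
      have h0 : Tendsto (fun y : Z × ℝ => y.2) (𝓝 (z₀, t₀)) (𝓝 t₀) := continuous_snd.continuousAt
      exact ((hcs z₀).cont 0 i).continuousAt.tendsto.comp h0
    have h2 : Tendsto (fun y : Z × ℝ => sol μ ν G (a y.1) y.2 i - sol μ ν G (a z₀) y.2 i)
        (𝓝 (z₀, t₀)) (𝓝 0) := by
      have hd := ha.sub (cv_const (ha.sm z₀))
      have h3 : Continuous fun z : Z => C * (‖a z - a z₀‖ + ‖DT 1 (a z - a z₀)‖) :=
        continuous_const.mul (((continuous_pi (hd.cont 0)).norm).add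
          (continuous_pi (hd.cont 1)).norm)
      have h4 := h3.continuousAt (x := z₀)
      rw [ContinuousAt, DT_sub (ha.sm z₀) (ha.sm z₀)] at h4
      simp only [sub_self, norm_zero, add_zero, mul_zero] at h4
      have h0 : Tendsto (fun y : Z × ℝ => y.1) (𝓝 (z₀, t₀)) (𝓝 z₀) := continuous_fst.continuousAt
      refine squeeze_zero_norm' ?_ (h4.comp h0)
      filter_upwards [hR] with y hy
      have h5 := hC _ _ _ _ (ha.sm y.1) (ha.sm z₀) (hcs y.1) (hcs z₀)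
        (fun t _ => sol_eq hμ hν hG (ha.sm _) t)
        (fun t _ => sol_eq hμ hν hG (ha.sm _) t) (hM _ (ha.sm _) hy.1)
        (hM _ (ha.sm _) hR.self_of_nhds.1) _ hy.2
      rw [sol_max, sol_max] at h5
      exact (norm_le_pi_norm (sol μ ν G (a y.1) y.2 - sol μ ν G (a z₀) y.2) i).trans
        ((norm_DT_le_yy 0 _).trans h5)
    simpa using h2.add h1

end Vale.Agent.P244Z.Ex
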