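import Vale.Agent.P244Z.Ex.MaxP
import Mathlib.Algebra.Polynomial.Sequence
import Mathlib.Analysis.SpecialFunctions.ExpDeriv

/-!
The Jacobi operator `L = 4x(1-x) ∂² + (2μ(1-x) - 2νx) ∂` and its semigroup on polynomials.
-/

namespace Vale.Agent.P244Z.Ex

open Set Filter Topology Polynomial

/-- The Jacobi operator on polynomials. -/
noncomputable def Lp (μ ν : ℝ) : ℝ[X] →ₗ[ℝ] ℝ[X] where
  toFun p := C 4 * (X * derivative (derivative p)) - C 4 * (X ^ 2 * derivative (derivative p))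
    + C (2 * μ) * derivative p - C (2 * (μ + ν)) * (X * derivative p)
  map_add' p q := by simp only [derivative_add]; ring
  map_smul' c p := by
    simp only [RingHom.id_apply, smul_eq_C_mul, derivative_C_mul]; ring

theorem Lp_apply (μ ν : ℝ) (p : ℝ[X]) : Lp μ ν p =
    C 4 * (X * derivative (derivative p)) - C 4 * (X ^ 2 * derivative (derivative p))
    + C (2 * μ) * derivative p - C (2 * (μ + ν)) * (X * derivative p) := rfl

theorem eval_Lp (μ ν x : ℝ) (p : ℝ[X]) : (Lp μ ν p).eval x =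
    4 * x * (1 - x) * (derivative (derivative p)).eval x
      + (2 * μ * (1 - x) - 2 * ν * x) * (derivative p).eval x := by
  simp only [Lp_apply, eval_add, eval_sub, eval_mul, eval_C, eval_X, eval_pow]; ring

theorem derivative_Lp (μ ν : ℝ) (p : ℝ[X]) :
    derivative (Lp μ ν p) = Lp (μ + 2) (ν + 2) (derivative p) - C (2 * (μ + ν)) * derivative p := by
  apply Polynomial.funext
  intro x
  simp only [Lp_apply, derivative_add, derivative_sub, derivative_mul, derivative_C, derivative_X,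
    derivative_X_pow, eval_add, eval_sub, eval_mul, eval_C, eval_X, eval_pow, eval_zero, eval_one]
  push_cast
  ring

/-- The eigenvalues. -/
def lam (μ ν : ℝ) (k : ℕ) : ℝ := 4 * k * (k - 1) + 2 * (μ + ν) * k

theorem coeff_Lp (μ ν : ℝ) (p : ℝ[X]) (k : ℕ) :
    (Lp μ ν p).coeff k = (k + 1) * (4 * k + 2 * μ) * p.coeff (k + 1) - lam μ ν k * p.coeff k := by
  rw [Lp_apply, lam]
  rcases k with _ | _ | k
  · simp [coeff_derivative]
  · simp only [coeff_add, coeff_sub, coeff_C_mul, coeff_X_mul, coeff_derivative, coeff_X_pow_mul']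
    rw [if_neg (by omega)]
    push_cast
    ring
  · simp only [coeff_add, coeff_sub, coeff_C_mul, coeff_X_mul, coeff_derivative]
    rw [show k + 1 + 1 = k + 2 from rfl, coeff_X_pow_mul, coeff_derivative, coeff_derivative]
    push_cast
    ring

theorem lam_strictMono {μ ν : ℝ} (h : 0 < μ + ν) : StrictMono (lam μ ν) := by
  refine strictMono_nat_of_lt_succ fun k => ?_
  simp only [lam]
  push_cast
  have : (0 : ℝ) ≤ k := Nat.cast_nonneg k
  nlinarith

/-- Coefficients of the eigenpolynomials. -/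
noncomputable def eigc (μ ν : ℝ) (n : ℕ) : ℕ → ℝ
  | 0 => 1
  | k + 1 => (lam μ ν k - lam μ ν n) * eigc μ ν n k / ((k + 1) * (4 * k + 2 * μ))

theorem eigc_ne_zero {μ ν : ℝ} (hμ : 0 < μ) (hν : 0 ≤ ν) {n k : ℕ} (hk : k ≤ n) :
    eigc μ ν n k ≠ 0 := by
  induction k with
  | zero => simp [eigc]
  | succ k ih =>
    have h1 : lam μ ν k < lam μ ν n := lam_strictMono (by linarith) (by omega)
    simp only [eigc]
    refine div_ne_zero (mul_ne_zero (sub_ne_zero.2 h1.ne) (ih (by omega))) (by positivity)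

theorem eigc_eq_zero (μ ν : ℝ) {n k : ℕ} (hk : n < k) : eigc μ ν n k = 0 := by
  induction k with
  | zero => omega
  | succ k ih =>
    simp only [eigc]
    rcases Nat.lt_succ_iff_lt_or_eq.1 hk with h | h
    · rw [ih h]; simp
    · rw [h]; simp

/-- The eigenpolynomials. -/
noncomputable def eig (μ ν : ℝ) (n : ℕ) : ℝ[X] :=
  ∑ k ∈ Finset.range (n + 1), monomial k (eigc μ ν n k)

theorem coeff_eig (μ ν : ℝ) (n k : ℕ) : (eig μ ν n).coeff k = eigc μ ν n k := by
  simp only [eig, finsetSum_coeff, coeff_monomial, Finset.sum_ite_eq', Finset.mem_range]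
  split_ifs with h
  · rfl
  · exact (eigc_eq_zero μ ν (by omega)).symm

theorem Lp_eig {μ : ℝ} (hμ : 0 < μ) (ν : ℝ) (n : ℕ) :
    Lp μ ν (eig μ ν n) = (-lam μ ν n) • eig μ ν n := by
  ext k
  rw [coeff_Lp, coeff_smul, coeff_eig, coeff_eig, eigc]
  have : ((k : ℝ) + 1) * (4 * k + 2 * μ) ≠ 0 := by positivity
  rw [mul_div_cancel₀ _ this, smul_eq_mul]
  ring

theorem degree_eig {μ ν : ℝ} (hμ : 0 < μ) (hν : 0 ≤ ν) (n : ℕ) : (eig μ ν n).degree = n := by
  refine degree_eq_of_le_of_coeff_ne_zero ?_ (by rw [coeff_eig]; exact eigc_ne_zero hμ hν le_rfl)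
  refine (degree_le_iff_coeff_zero _ _).2 fun m hm => ?_
  rw [coeff_eig]
  exact eigc_eq_zero μ ν (by exact_mod_cast hm)

/-- The basis of eigenpolynomials. -/
noncomputable def eigBasis {μ ν : ℝ} (hμ : 0 < μ) (hν : 0 ≤ ν) : Module.Basis ℕ ℝ ℝ[X] :=
  (⟨eig μ ν, degree_eig hμ hν⟩ : Polynomial.Sequence ℝ).basis fun i =>
    isUnit_iff_ne_zero.2 (leadingCoeff_ne_zero.2 (Polynomial.Sequence.ne_zero _ i))

theorem eigBasis_apply {μ ν : ℝ} (hμ : 0 < μ) (hν : 0 ≤ ν) (n : ℕ) :
    eigBasis hμ hν n = eig μ ν n := Polynomial.Sequence.basis_eq_self _ _ n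

open Classical in
/-- The semigroup on polynomials. -/
noncomputable def Pp (μ ν t : ℝ) : ℝ[X] →ₗ[ℝ] ℝ[X] :=
  if h : 0 < μ ∧ 0 ≤ ν then
    (eigBasis h.1 h.2).constr ℝ fun n => Real.exp (-(lam μ ν n * t)) • eig μ ν n
  else LinearMap.id

variable {μ ν : ℝ}

theorem Pp_eig (hμ : 0 < μ) (hν : 0 ≤ ν) (t : ℝ) (n : ℕ) :
    Pp μ ν t (eig μ ν n) = Real.exp (-(lam μ ν n * t)) • eig μ ν n := by
  rw [Pp, dif_pos ⟨hμ, hν⟩]
  have := (eigBasis hμ hν).constr_basis ℝ
    (fun n => Real.exp (-(lam μ ν n * t)) • eig μ ν n) n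
  rwa [eigBasis_apply] at this

theorem Pp_zero (hμ : 0 < μ) (hν : 0 ≤ ν) (p : ℝ[X]) : Pp μ ν 0 p = p := by
  have : Pp μ ν 0 = LinearMap.id := (eigBasis hμ hν).ext fun n => by
    rw [eigBasis_apply, Pp_eig hμ hν]; simp
  rw [this]; rfl

theorem Pp_add (hμ : 0 < μ) (hν : 0 ≤ ν) (s t : ℝ) (p : ℝ[X]) :
    Pp μ ν (s + t) p = Pp μ ν s (Pp μ ν t p) := by
  have : Pp μ ν (s + t) = (Pp μ ν s).comp (Pp μ ν t) := (eigBasis hμ hν).ext fun n => by
    rw [eigBasis_apply, LinearMap.comp_apply, Pp_eig hμ hν, Pp_eig hμ hν, map_smul,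
      Pp_eig hμ hν, smul_smul, ← Real.exp_add]
    congr 2
    ring
  rw [this]; rfl

theorem Lp_Pp (hμ : 0 < μ) (hν : 0 ≤ ν) (t : ℝ) (p : ℝ[X]) :
    Lp μ ν (Pp μ ν t p) = Pp μ ν t (Lp μ ν p) := by
  have : (Lp μ ν).comp (Pp μ ν t) = (Pp μ ν t).comp (Lp μ ν) := (eigBasis hμ hν).ext fun n => by
    rw [eigBasis_apply, LinearMap.comp_apply, LinearMap.comp_apply, Pp_eig hμ hν, map_smul,
      Lp_eig hμ, map_smul, Pp_eig hμ hν, smul_comm]
  exact LinearMap.congr_fun this p

theorem hasDerivAt_Pp (hμ : 0 < μ) (hν : 0 ≤ ν) {E : Type*} [NormedAddCommGroup E]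
    [NormedSpace ℝ E] (φ : ℝ[X] →ₗ[ℝ] E) (p : ℝ[X]) (t : ℝ) :
    HasDerivAt (fun s => φ (Pp μ ν s p)) (φ (Lp μ ν (Pp μ ν t p))) t := by
  have hp : p ∈ Submodule.span ℝ (Set.range (eigBasis hμ hν)) := by
    rw [(eigBasis hμ hν).span_eq]; trivial
  induction hp using Submodule.span_induction with
  | mem q hq =>
    obtain ⟨n, rfl⟩ := hq
    simp only [eigBasis_apply, Pp_eig hμ hν, map_smul, Lp_eig hμ, smul_smul]
    have h := (((hasDerivAt_id t).const_mul (lam μ ν n)).neg.exp).smul_const (φ (eig μ ν n))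
    simpa using h
  | zero => simpa using hasDerivAt_const t (0 : E)
  | add a b _ _ ha hb => simp only [map_add]; exact ha.add hb
  | smul c a _ ha => simp only [map_smul]; exact ha.const_smul c

/-- A polynomial solution of `q' = L q` is a contraction in the sup norm. -/
theorem norm_le_of_sol (hμ : 0 ≤ μ) (hν : 0 ≤ ν) {q : ℝ → ℝ[X]}
    (hq : ∀ t, HasDerivAt (fun s => pe (q s)) (pe (Lp μ ν (q t))) t) {t : ℝ} (ht : 0 ≤ t) :
    ‖pe (q t)‖ ≤ ‖pe (q 0)‖ := by
  have key : ∀ q : ℝ → ℝ[X], (∀ t, HasDerivAt (fun s => pe (q s)) (pe (Lp μ ν (q t))) t) →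
      ∀ x ∈ Icc (0 : ℝ) 1, ex (pe (q t)) x ≤ ‖pe (q 0)‖ := by
    intro q hq
    refine max_principle (T := t) (fun s => pe (q s)) (fun s => pe (derivative (q s)))
      (fun s => pe (derivative (derivative (q s)))) (fun s x => ex (pe (Lp μ ν (q s))) x)
      (fun _ x => 4 * x * (1 - x)) (fun _ x => 2 * μ * (1 - x) - 2 * ν * x)
      (fun s _ => (hq s).continuousAt.continuousWithinAt) (fun s _ => isD_pe _)
      (fun s _ => isD_pe _) (fun s _ x _ => ?_) (fun s _ x hx => ?_) (fun s _ x hx => ?_)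
      (fun s _ => ?_) (fun s _ => ?_) (fun x _ => (le_abs_self _).trans (abs_ex_le _ x))
      t ⟨ht, le_rfl⟩
    · exact ((exL x).hasFDerivAt.comp_hasDerivAt s (hq s)).hasDerivWithinAt
    · simp only [ex_pe _ hx, eval_Lp, le_refl]
    · have := hx.1
      have := sub_nonneg.2 hx.2
      positivity
    · constructor
      · ring
      · linarith
    · constructor
      · ring
      · linarith
  refine norm_le_of_ex fun x hx => abs_le.2 ⟨?_, key q hq x hx⟩
  have := key (fun s => -q s) (fun s => by simp only [map_neg]; exact (hq s).neg) x hx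
  simp only [map_neg, ex_neg, norm_neg] at this
  linarith

theorem norm_Pp_le (hμ : 0 < μ) (hν : 0 ≤ ν) (p : ℝ[X]) {t : ℝ} (ht : 0 ≤ t) :
    ‖pe (Pp μ ν t p)‖ ≤ ‖pe p‖ := by
  have := norm_le_of_sol hμ.le hν (q := fun s => Pp μ ν s p)
    (fun s => hasDerivAt_Pp hμ hν pe.toLinearMap p s) ht
  rwa [Pp_zero hμ hν] at this

theorem derivative_Pp (hμ : 0 < μ) (hν : 0 ≤ ν) (p : ℝ[X]) {t : ℝ} (ht : 0 ≤ t) :
    pe (derivative (Pp μ ν t p))
      = Real.exp (-(2 * (μ + ν) * t)) • pe (Pp (μ + 2) (ν + 2) t (derivative p)) := by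
  have hμ' : 0 < μ + 2 := by linarith
  have hν' : 0 ≤ ν + 2 := by linarith
  have h := norm_le_of_sol hμ'.le hν'
    (q := fun s => Real.exp (2 * (μ + ν) * s) • derivative (Pp μ ν s p)
      - Pp (μ + 2) (ν + 2) s (derivative p)) (fun s => ?_) ht
  · rw [Pp_zero hμ hν, Pp_zero hμ' hν'] at h
    simp only [mul_zero, Real.exp_zero, one_smul, sub_self, map_zero, norm_zero,
      norm_le_zero_iff, map_sub, map_smul, sub_eq_zero] at h
    rw [← h, smul_smul, ← Real.exp_add]
    simp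
  · have h1 := hasDerivAt_Pp hμ hν (pe.toLinearMap.comp derivative) p s
    have h2 := hasDerivAt_Pp hμ' hν' pe.toLinearMap (derivative p) s
    have h3 := ((((hasDerivAt_id s).const_mul (2 * (μ + ν))).exp).smul h1).sub h2
    simp only [map_sub, map_smul]
    refine HasDerivAt.congr_deriv h3 ?_
    simp only [LinearMap.comp_apply, AlgHom.toLinearMap_apply, derivative_Lp, map_sub, id,
      ← smul_eq_C_mul, map_smul, smul_sub, smul_smul, mul_one]
    abel

/-- Bernstein estimate. -/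
theorem bernstein (hμ : 1 ≤ μ) (hν : 1 ≤ ν) (p : ℝ[X]) {t : ℝ} (ht : 0 ≤ t) {x : ℝ}
    (hx : x ∈ Icc (0 : ℝ) 1) :
    8 * t * (x * (1 - x)) * ((derivative (Pp μ ν t p)).eval x) ^ 2 ≤ ‖pe p‖ ^ 2 := by
  have hμ0 : 0 < μ := by linarith
  have hν0 : 0 ≤ ν := by linarith
  set u : ℝ → ℝ[X] := fun s => Pp μ ν s p with hu
  set w : ℝ → ℝ[X] := fun s =>
    C (8 * s) * (X * (1 - X)) * (derivative (u s) * derivative (u s)) + u s * u s with hw
  have d0 := fun s => hasDerivAt_Pp hμ0 hν0 pe.toLinearMap p s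
  have d1 := fun s => hasDerivAt_Pp hμ0 hν0 (pe.toLinearMap.comp derivative) p s
  have hwe : ∀ s, pe (w s) = (8 * s) • (pe (X * (1 - X)) *
      (pe (derivative (u s)) * pe (derivative (u s)))) + pe (u s) * pe (u s) := by
    intro s
    simp only [hw]
    rw [mul_assoc, ← smul_eq_C_mul, map_add, map_smul, map_mul, map_mul, map_mul, map_mul]
  have dw : ∀ s, HasDerivAt (fun s => pe (w s))
      ((8 * s) • (pe (X * (1 - X)) * (pe (derivative (Lp μ ν (u s))) * pe (derivative (u s))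
          + pe (derivative (u s)) * pe (derivative (Lp μ ν (u s)))))
        + (8 * 1 : ℝ) • (pe (X * (1 - X)) * (pe (derivative (u s)) * pe (derivative (u s))))
        + (pe (Lp μ ν (u s)) * pe (u s) + pe (u s) * pe (Lp μ ν (u s)))) s := by
    intro s
    simp only [hwe]
    exact (((hasDerivAt_id s).const_mul 8).smul
      (((d1 s).mul (d1 s)).const_mul (pe (X * (1 - X))))).add ((d0 s).mul (d0 s))
  have key := max_principle (T := t) (M := ‖pe p‖ ^ 2) (fun s => pe (w s))
      (fun s => pe (derivative (w s)))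
      (fun s => pe (derivative (derivative (w s)))) _
      (fun _ x => 4 * x * (1 - x)) (fun _ x => 2 * μ * (1 - x) - 2 * ν * x)
      (fun s _ => (dw s).continuousAt.continuousWithinAt) (fun s _ => isD_pe _)
      (fun s _ => isD_pe _)
      (fun s _ x _ => ((exL x).hasFDerivAt.comp_hasDerivAt s (dw s)).hasDerivWithinAt)
      (fun s hs x hx => ?_) (fun s _ x hx => ?_)
      (fun s _ => ?_) (fun s _ => ?_) (fun x hx => ?_)
      t ⟨ht, le_rfl⟩ x hx
  · simp only [ex_pe _ hx, hw, eval_add, eval_mul, eval_C, eval_X, eval_sub, eval_one] at key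
    nlinarith [mul_self_nonneg ((u t).eval x)]
  · simp only [exL_apply, ex_add, ex_smul, ex_mul, ex_pe _ hx, derivative_Lp, eval_Lp, hw,
      derivative_add, derivative_mul, derivative_C, derivative_X, derivative_sub, derivative_one,
      eval_add, eval_mul, eval_C, eval_X, eval_sub, eval_one, eval_zero, derivative_zero]
    set u0 := (u s).eval x
    set u1 := (derivative (u s)).eval x
    set u2 := (derivative (derivative (u s))).eval x
    set u3 := (derivative (derivative (derivative (u s)))).eval x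
    have k1 : 0 ≤ (μ - 1) * (1 - x) + (ν - 1) * x := by
      have := hx.1
      have := sub_nonneg.2 hx.2
      have := sub_nonneg.2 hμ
      have := sub_nonneg.2 hν
      positivity
    have k2 : 0 ≤ s * (2 * (4 * x * (1 - x) * u2 + 2 * (1 - 2 * x) * u1) ^ 2
        + 8 * ((μ - 1) * (1 - x) + (ν - 1) * x) * u1 ^ 2) := by
      have := hs.1.le
      positivity
    nlinarith [k2]
  · have := hx.1
    have := sub_nonneg.2 hx.2
    positivity
  · constructor
    · ring
    · linarith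
  · constructor
    · ring
    · linarith
  · have h1 := abs_ex_le (pe p) x
    simp only [hw, hu, Pp_zero hμ0 hν0, mul_zero, map_zero, zero_mul, zero_add, map_mul, ex_mul]
    rw [← sq, ← sq_abs]
    exact pow_le_pow_left₀ (abs_nonneg _) h1 2

end Vale.Agent.P244Z.Ex
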