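import Vale.Agent.P244Z.Ex.Evo
import Vale.Agent.P244Z.QDefs

/-!
The doubly warped flow defined by a solution of the parabolic system.
-/

namespace Vale.Agent.P244Z.Ex

open Set Filter Topology Real
open scoped ContDiff

/-- `V = - sin θ cos θ Ω`. -/
noncomputable def vΩ (q : ℝ) (v : St) : CI := q • vκ v + vω q v + (2 : ℝ) • v 1

theorem nice_vΩ (q : ℝ) : Nice (vΩ q) :=
  ((nice_vκ.smul _).add (nice_vω q)).add ((nice_var 1).smul _)

/-- A functional of the state as a function of the angle and the time. -/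
noncomputable def W (U : ℝ → St) (F : St → CI) : ℝ × ℝ → ℝ := lift fun t => F (inp (U t))

theorem W_apply (U : ℝ → St) (F : St → CI) (θ t : ℝ) :
    W U F (θ, t) = ex (F (inp (U t))) (sin θ ^ 2) := rfl

/-- The geometric data. -/
noncomputable def geo (q : ℕ) (U : ℝ → St) : Q.Data where
  q := q
  l t := exp (ex (U t 3) 0)
  sg t := ex (U t 4) 0
  φ p := exp (ex (U p.2 3) 0) * (sin p.1 * W U (fun v => cf (v 0)) p)
  u p := W U (fun v => cu (v 1) (v 2)) p + ex (U p.2 3) 0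
  V p := -(sin p.1 * cos p.1 * W U (vΩ q) p)
  kk p := W U (fun v => cn (v 0)) p * W U (· 4) p ^ 2 / exp (ex (U p.2 3) 0) ^ 2
  vv p := cos p.1 * W U (· 1) p * W U (· 4) p / exp (ex (U p.2 3) 0) ^ 2
  hh p := -(W U (fun v => cN (v 0)) p * W U (· 4) p) / exp (ex (U p.2 3) 0) ^ 2

theorem IsD.hasDerivAt_sc {f g : CI} (h : IsD f g) (θ : ℝ) :
    HasDerivAt (fun θ => sin θ * cos θ * ex f (sin θ ^ 2))
      ((1 - 2 * sin θ ^ 2) * ex f (sin θ ^ 2)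
        + 2 * (sin θ ^ 2 * (1 - sin θ ^ 2) * ex g (sin θ ^ 2))) θ :=
  (((Real.hasDerivAt_sin θ).mul (hasDerivAt_cos θ)).mul (h.hasDerivAt_sin θ)).congr_deriv (by
    simp only [Pi.mul_apply]
    linear_combination (ex f (sin θ ^ 2) + 2 * sin θ ^ 2 * ex g (sin θ ^ 2)) * sin_sq_add_cos_sq θ)

theorem uniqueDiffOn_time {J : Set ℝ} (h : TimeSet J) : UniqueDiffOn ℝ J := fun t ht => by
  obtain ⟨t', h1, h2⟩ := h.up t ht
  exact (uniqueDiffOn_Icc h2 t ⟨le_rfl, h2.le⟩).mono fun s hs =>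
    h.down t' h1 ⟨(h.nonneg t ht).trans hs.1, hs.2⟩

namespace Flow

variable {q : ℕ} {J : Set ℝ} {U : ℝ → St} (h : Flow q J U) {t : ℝ} (ht : t ∈ J)
include h

theorem sm_W {F : St → CI} (hF : Nice F) : ContDiffOn ℝ ∞ (W U F) (univ ×ˢ J) :=
  (h.js F hF).lift (uniqueDiffOn_time h.time)

theorem sm_lam : ContDiffOn ℝ ∞ (fun t => ex (U t 3) 0) J :=
  ((exL 0).contDiff.comp_contDiffOn ((h.js _ (nice_var 3)).ts 0)).congr fun _ _ => (ex_ev0 _ 0).symm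

theorem sm_lam' : ContDiffOn ℝ ∞ (fun p : ℝ × ℝ => ex (U p.2 3) 0) (univ ×ˢ J) :=
  h.sm_lam.comp contDiffOn_snd fun _ hp => hp.2

theorem sm_cN : ContDiffOn ℝ ∞ (W U fun v => cN (v 0)) (univ ×ˢ J) := by
  have h1 := (h.js _ (nice_var 0)).dX.lift (uniqueDiffOn_time h.time)
  have h2 := h.sm_W (nice_ch.sub (((nice_one.sub nice_xx).mul (nice_var 0)).smul 2))
  have h3 : ContDiff ℝ ∞ fun p : ℝ × ℝ => 2 * (sin p.1 ^ 2 * (1 - sin p.1 ^ 2)) := by fun_prop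
  refine (h2.sub (h3.contDiffOn.mul h1)).congr fun p _ => ?_
  simp only [W, lift, cN, ex_sub, ex_smul, ex_mul, ex_wt (sin_sq_mem _)]
  ring

include ht

theorem smT : SmT (inp (U t)) := fun j => (h.js _ (nice_var j)).sm t ht

theorem inv : cf (inp (U t) 0) * inp (U t) 4 = 1 := mul_inverse_of_pos (h.pos t ht)

theorem inv' (x : ℝ) : ex (cf (inp (U t) 0)) x * ex (inp (U t) 4) x = 1 :=
  congrArg (ex · x) (h.inv ht)

theorem dφ (θ : ℝ) : HasDerivAt (fun θ => (geo q U).φ (θ, t))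
    (exp (ex (U t 3) 0) * (cos θ * ex (ch (inp (U t) 0)) (sin θ ^ 2))) θ := by
  have h1 : HasDerivAt (fun θ => (geo q U).φ (θ, t)) _ θ :=
    ((hasDerivAt_sin θ).mul ((isD_cf (h.smT ht 0)).hasDerivAt_sin θ)).const_mul
      (exp (ex (U t 3) 0))
  refine h1.congr_deriv ?_
  simp only [cf, ch, ex_add, ex_mul, ex_sub, ex_smul, ex_one, ex_xx (sin_sq_mem θ)]
  ring

theorem A_eq (θ : ℝ) : (geo q U).A (θ, t) = cos θ * ex (ch (inp (U t) 0)) (sin θ ^ 2) := by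
  rw [Q.Data.A, Q.Data.Ds, d1, (h.dφ ht θ).deriv]
  exact mul_div_cancel_left₀ _ (exp_ne_zero _)

theorem DsA_eq (θ : ℝ) : (geo q U).Ds (geo q U).A (θ, t)
    = -(sin θ * ex (cN (inp (U t) 0)) (sin θ ^ 2)) / exp (ex (U t 3) 0) := by
  rw [Q.Data.Ds, d1]
  simp only [h.A_eq ht]
  rw [((hasDerivAt_cos θ).fun_mul ((isD_ch (h.smT ht 0)).hasDerivAt_sin θ)).deriv]
  congr 1
  simp only [cN, ex_add, ex_mul, ex_sub, ex_smul, ex_one, ex_xx (sin_sq_mem θ),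
    ex_wt (sin_sq_mem θ)]
  linear_combination (2 * sin θ * (ex (inp (U t) 0) (sin θ ^ 2)
    + sin θ ^ 2 * ex (dX (inp (U t) 0)) (sin θ ^ 2))) * sin_sq_add_cos_sq θ

theorem du (θ : ℝ) : HasDerivAt (fun θ => (geo q U).u (θ, t))
    (sin θ * cos θ * ex (inp (U t) 1) (sin θ ^ 2)) θ := by
  have h1 : HasDerivAt (fun θ => (geo q U).u (θ, t)) _ θ :=
    ((isD_cu (h.smT ht 1) (isD_ev0 (U t 2))).hasDerivAt_sin θ).add_const (ex (U t 3) 0)
  refine h1.congr_deriv ?_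
  simp only [ex_smul]
  ring

theorem β_eq (θ : ℝ) : (geo q U).β (θ, t)
    = sin θ * cos θ * ex (inp (U t) 1) (sin θ ^ 2) / exp (ex (U t 3) 0) := by
  rw [Q.Data.β, Q.Data.Ds, d1, (h.du ht θ).deriv]
  rfl

theorem Dsβ_eq (θ : ℝ) : (geo q U).Ds (geo q U).β (θ, t)
    = ((1 - 2 * sin θ ^ 2) * ex (inp (U t) 1) (sin θ ^ 2)
      + 2 * (sin θ ^ 2 * (1 - sin θ ^ 2) * ex (dX (inp (U t) 1)) (sin θ ^ 2)))
        / exp (ex (U t 3) 0) ^ 2 := by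
  rw [Q.Data.Ds, d1]
  simp only [h.β_eq ht]
  rw [(((h.smT ht 1).isD.hasDerivAt_sc θ).div_const _).deriv, div_div, sq (exp _)]
  rfl

theorem dlam (t0 : 0 < t) : HasDerivAt (fun s => ex (U s 3) 0) (ex (vb q (inp (U t))) 0 - q) t :=
  ((exL 0).hasFDerivAt.comp_hasDerivAt t (h.eq t ht t0 3)).congr_deriv (by
    simp [vel, h.const t ht 3 (by decide), Lop, isD_zero.dX_eq, AA, ex_ev0])

theorem dsg (t0 : 0 < t) : HasDerivAt (fun s => ex (U s 4) 0) (-exp (ex (U t 3) 0) ^ 2) t :=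
  ((exL 0).hasFDerivAt.comp_hasDerivAt t (h.eq t ht t0 4)).congr_deriv (by
    simp [vel, h.const t ht 4 (by decide), Lop, isD_zero.dX_eq, AA, ex_ev0, expc, inp,
      ← exp_nat_mul])

theorem df (t0 : 0 < t) (x : ℝ) :
    HasDerivAt (fun s => ex (cf (inp (U s) 0)) x) (ex (Rf q (inp (U t))) x) t := by
  rw [← f_eq q (h.smT ht) (h.inv ht)]
  exact (exL x).hasFDerivAt.comp_hasDerivAt t ((((Hop (3 / 2)).hasFDerivAt.comp_hasDerivAt t
    ((h.eq t ht t0 0).const_smul (1 / 2 : ℝ))).const_mul xx).const_add 1)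

theorem dcu (t0 : 0 < t) (x : ℝ) :
    HasDerivAt (fun s => ex (cu (inp (U s) 1) (inp (U s) 2)) x) (ex (Ru q (inp (U t))) x) t := by
  rw [← u_eq q (h.smT ht) (h.const t ht 2 le_rfl)]
  exact (exL x).hasFDerivAt.comp_hasDerivAt t ((ev0.hasFDerivAt.comp_hasDerivAt t
    (h.eq t ht t0 2)).add ((((Hop 1).hasFDerivAt.comp_hasDerivAt t
    (h.eq t ht t0 1)).const_mul xx).const_smul (1 / 2 : ℝ)))

theorem eq_φ (t0 : 0 < t) (θ : ℝ) :
    (geo q U).Dt (geo q U).φ (θ, t) = -(geo q U).b (θ, t) * (geo q U).φ (θ, t) := by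
  have h1 : HasDerivAt (fun s => (geo q U).φ (θ, s)) _ t :=
    (h.dlam ht t0).exp.mul ((h.df ht t0 (sin θ ^ 2)).const_mul (sin θ))
  rw [Q.Data.Dt, d2, h1.deriv, d1, (h.dφ ht θ).deriv, Q.Data.b, h.A_eq ht]
  have h2 := h.inv' ht (sin θ ^ 2)
  have h3 := sin_sq_add_cos_sq θ
  simp only [geo, W_apply, Rf, vΩ, ex_add, ex_mul, ex_sub, ex_smul, ex_neg, ex_one,
    ex_xx (sin_sq_mem θ), ex_vb q _ (sin θ ^ 2)]
  generalize inp (U t) = v at *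
  generalize exp (ex (U t 3) 0) = l
  linear_combination l / l ^ 2 * sin θ * ((ex (cN (v 0)) (sin θ ^ 2)
      - 2 * cos θ ^ 2 * ex (ch (v 0)) (sin θ ^ 2) * ex (v 1) (sin θ ^ 2)
      + (q - 1) * ex (cn (v 0)) (sin θ ^ 2) * ex (v 4) (sin θ ^ 2)) * h2
    + (q * ex (vκ v) (sin θ ^ 2) + ex (vω q v) (sin θ ^ 2)) * ex (ch (v 0)) (sin θ ^ 2) * h3)

theorem eq_u (t0 : 0 < t) (θ : ℝ) : (geo q U).Dt (geo q U).u (θ, t) = -(geo q U).c (θ, t) := by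
  have h1 : HasDerivAt (fun s => (geo q U).u (θ, s)) _ t :=
    (h.dcu ht t0 (sin θ ^ 2)).add (h.dlam ht t0)
  rw [Q.Data.Dt, d2, h1.deriv, d1, (h.du ht θ).deriv, Q.Data.c, h.A_eq ht, h.Dsβ_eq ht, h.β_eq ht]
  have h2 := h.inv' ht (sin θ ^ 2)
  have h3 := sin_sq_add_cos_sq θ
  have h4 : exp (-2 * (geo q U).u (θ, t))
      = ex (vE (inp (U t))) (sin θ ^ 2) / exp (ex (U t 3) 0) ^ 2 := by
    simp only [geo, W_apply, vE, expc, ex_nem, ← exp_nat_mul, ← exp_sub]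
    congr 1
    push_cast
    ring
  rw [h4]
  simp only [geo, W_apply, Ru, vΩ, vκ, cf, ch, ex_add, ex_mul, ex_sub, ex_smul, ex_one,
    ex_xx (sin_sq_mem θ), ex_wt (sin_sq_mem θ), ex_vb q _ (sin θ ^ 2)] at h2 ⊢
  generalize inp (U t) = v at *
  generalize exp (ex (U t 3) 0) = l
  linear_combination 1 / l ^ 2 * ex (v 1) (sin θ ^ 2) * (-q * cos θ ^ 2 * h2
    + (sin θ ^ 2 * ex (vω q v) (sin θ ^ 2) - q) * h3)

theorem eq_V (t0 : 0 < t) (θ : ℝ) : d1 (geo q U).V (θ, t)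
    = (geo q U).l t ^ 2 * (geo q U).a (θ, t) + deriv (geo q U).l t / (geo q U).l t := by
  have hv := h.smT ht
  have h0 : IsD (vΩ q (inp (U t))) _ := (((nice_vκ.sm hv).isD.smul q).add
    ((nice_vω q).sm hv).isD).add ((hv 1).isD.smul 2)
  have h1 : HasDerivAt (fun θ => (geo q U).V (θ, t)) _ θ := (h0.hasDerivAt_sc θ).neg
  have h5 : HasDerivAt (geo q U).l _ t := (h.dlam ht t0).exp
  rw [d1, h1.deriv, h5.deriv, Q.Data.a, h.Dsβ_eq ht, h.β_eq ht]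
  have h2 := gauge_eq hv (h.inv ht) (sin_sq_mem θ)
  have h3 := sin_sq_add_cos_sq θ
  have h4 := vω_spec q hv (sin_sq_mem θ)
  rw [ex_vg q _ (sin_sq_mem θ)] at h4
  simp only [geo, W_apply, vΩ, ex_add, ex_smul, ex_vb q _ (sin θ ^ 2)] at h4 ⊢
  have hl := exp_ne_zero (ex (U t 3) 0)
  generalize inp (U t) = v at *
  generalize exp (ex (U t 3) 0) = l at *
  field_simp
  linear_combination -q * h2 - h4 + 2 * sin θ ^ 2 * ex (v 1) (sin θ ^ 2) ^ 2 * h3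

theorem kk_eq (θ : ℝ) :
    (geo q U).φ (θ, t) ^ 2 * (geo q U).kk (θ, t) = 1 - (geo q U).A (θ, t) ^ 2 := by
  rw [h.A_eq ht]
  have h2 := h.inv' ht (sin θ ^ 2)
  have h3 := sin_sq_add_cos_sq θ
  simp only [geo, W_apply, cn, ch, ex_add, ex_mul, ex_sub, ex_one, ex_xx (sin_sq_mem θ)]
  have hl := exp_ne_zero (ex (U t 3) 0)
  generalize inp (U t) = v at *
  generalize exp (ex (U t 3) 0) = l at *
  field_simp
  linear_combination sin θ ^ 2 * (1 - (1 - sin θ ^ 2) * ex (v 0) (sin θ ^ 2)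
    * (2 + sin θ ^ 2 * ex (v 0) (sin θ ^ 2)))
    * (ex (cf (v 0)) (sin θ ^ 2) * ex (v 4) (sin θ ^ 2) + 1) * h2
    + (1 + sin θ ^ 2 * ex (v 0) (sin θ ^ 2)) ^ 2 * h3

theorem vv_eq (θ : ℝ) : (geo q U).φ (θ, t) * (geo q U).vv (θ, t) = (geo q U).β (θ, t) := by
  rw [h.β_eq ht]
  have h2 := h.inv' ht (sin θ ^ 2)
  simp only [geo, W_apply]
  field_simp
  linear_combination sin θ * cos θ * ex (inp (U t) 1) (sin θ ^ 2) * h2

theorem hh_eq (θ : ℝ) :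
    (geo q U).φ (θ, t) * (geo q U).hh (θ, t) = (geo q U).Ds (geo q U).A (θ, t) := by
  rw [h.DsA_eq ht]
  have h2 := h.inv' ht (sin θ ^ 2)
  simp only [geo, W_apply]
  field_simp
  linear_combination -sin θ * ex (cN (inp (U t) 0)) (sin θ ^ 2) * h2

omit ht in
theorem sol : Q.Sol (geo q U) J := by
  have hl := (h.sm_lam'.exp).pow 2
  have hl0 : ∀ p ∈ (univ : Set ℝ) ×ˢ J, exp (ex (U p.2 3) 0) ^ 2 ≠ 0 :=
    fun p _ => pow_ne_zero _ (exp_ne_zero _)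
  have hs : ContDiffOn ℝ ∞ (fun p : ℝ × ℝ => sin p.1) (univ ×ˢ J) := by fun_prop
  have hc : ContDiffOn ℝ ∞ (fun p : ℝ × ℝ => cos p.1) (univ ×ˢ J) := by fun_prop
  refine ⟨h.time, h.sm_lam.exp, h.sm4, h.sm_lam'.exp.mul (hs.mul (h.sm_W nice_cf)),
    (h.sm_W nice_cu).add h.sm_lam', ((hs.mul hc).mul (h.sm_W (nice_vΩ q))).neg,
    ((h.sm_W nice_cn).mul ((h.sm_W (nice_var 4)).pow 2)).div hl hl0,
    ((hc.mul (h.sm_W (nice_var 1))).mul (h.sm_W (nice_var 4))).div hl hl0,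
    (h.sm_cN.mul (h.sm_W (nice_var 4))).neg.div hl hl0, fun t _ => exp_pos _, ?_, ?_, ?_, ?_, ?_, ?_,
    fun θ hθ t ht => mul_pos (exp_pos _) (mul_pos (sin_pos_of_mem_Ioo hθ)
      (h.pos t ht _ (sin_sq_mem θ))), fun t ht => ?_, fun θ t ht => h.kk_eq ht θ,
    fun θ t ht => h.vv_eq ht θ, fun θ t ht => h.hh_eq ht θ, fun θ _ t ht t0 => h.eq_φ ht t0 θ,
    fun θ _ t ht t0 => h.eq_u ht t0 θ, fun θ _ t ht t0 => h.eq_V ht t0 θ,
    fun t ht t0 => (h.dsg ht t0).deriv⟩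
  iterate 6 intro θ t _; simp [geo, W_apply]
  rw [h.A_eq ht]
  simp [ch, ex_xx ⟨le_rfl, zero_le_one⟩]

end Flow

end Vale.Agent.P244Z.Ex
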