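import Vale.Agent.P244Z.Ex.Basic
import Mathlib.Analysis.Calculus.IteratedDeriv.Lemmas
import Mathlib.Analysis.Calculus.ContDiff.Deriv

/-!
Smooth elements of `C[0,1]`, their derivatives `D k f`, products, compositions, interpolation.
-/

namespace Vale.Agent.P244Z.Ex

open Set MeasureTheory Filter Topology
open scoped ContDiff

theorem isD_of_interior {f g : CI} (h : ∀ x ∈ Ioo (0 : ℝ) 1, HasDerivAt (ex f) (ex g x) x) :
    IsD f g := by
  rw [isD_iff]
  refine ext_ex fun x hx => ?_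
  rw [ex_add, ev0_apply, ex_const, ex_prim g hx,
    intervalIntegral.integral_eq_sub_of_hasDerivAt_of_le hx.1 (ex_continuous f).continuousOn
      (fun y hy => h y ⟨hy.1, hy.2.trans_le hx.2⟩) ((ex_continuous g).intervalIntegrable _ _)]
  ring

open Classical in
/-- The derivative of `f` if it exists and is continuous on `[0,1]`, and `0` otherwise. -/
noncomputable def dX (f : CI) : CI := if h : ∃ g, IsD f g then h.choose else 0

theorem IsD.dX_eq {f g : CI} (h : IsD f g) : dX f = g := by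
  have h' : ∃ g, IsD f g := ⟨g, h⟩
  rw [dX, dif_pos h']
  exact h'.choose_spec.unique h

/-- The `k`-th derivative. -/
noncomputable def D (k : ℕ) (f : CI) : CI := dX^[k] f

@[simp] theorem D_zero (f : CI) : D 0 f = f := rfl
theorem D_succ (k : ℕ) (f : CI) : D (k + 1) f = D k (dX f) := Function.iterate_succ_apply _ _ _
theorem D_succ' (k : ℕ) (f : CI) : D (k + 1) f = dX (D k f) := Function.iterate_succ_apply' _ _ _
theorem D_one (f : CI) : D 1 f = dX f := rfl
theorem D_D (j k : ℕ) (f : CI) : D j (D k f) = D (j + k) f :=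
  (Function.iterate_add_apply _ _ _ _).symm

/-- Smooth elements: all derivatives exist on `[0,1]` and are continuous. -/
def Sm (f : CI) : Prop := ∀ k, IsD (D k f) (D (k + 1) f)

theorem sm_of_seq {c : ℕ → CI} (h : ∀ k, IsD (c k) (c (k + 1))) :
    Sm (c 0) ∧ ∀ k, D k (c 0) = c k := by
  have h2 : ∀ k, D k (c 0) = c k := by
    intro k
    induction k with
    | zero => rfl
    | succ k ih => rw [D_succ', ih, (h k).dX_eq]
  exact ⟨fun k => by rw [h2, h2]; exact h k, h2⟩

theorem Sm.isD {f : CI} (h : Sm f) : IsD f (dX f) := h 0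

theorem Sm.dX {f : CI} (h : Sm f) : Sm (dX f) := fun k => by
  rw [← D_succ, ← D_succ]; exact h (k + 1)

theorem Sm.D {f : CI} (h : Sm f) (j : ℕ) : Sm (D j f) := fun k => by
  rw [D_D, D_D, add_right_comm]; exact h (k + j)

theorem sm_of_isD {f g : CI} (h : IsD f g) (hg : Sm g) : Sm f := by
  intro k
  cases k with
  | zero => rw [D_zero, zero_add, D_one, h.dX_eq]; exact h
  | succ k => rw [D_succ, D_succ, h.dX_eq]; exact hg k

/-- Coinduction: a class closed under taking a derivative consists of smooth elements. -/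
theorem sm_coind (P : CI → Prop) (hP : ∀ f, P f → ∃ g, IsD f g ∧ P g) {f : CI} (hf : P f) :
    Sm f := by
  have key : ∀ k f, P f → P (D k f) := by
    intro k
    induction k with
    | zero => exact fun f hf => hf
    | succ k ih =>
      intro f hf
      obtain ⟨g, h1, h2⟩ := hP _ (ih f hf)
      rwa [D_succ', h1.dX_eq]
  intro k
  obtain ⟨g, h1, _⟩ := hP _ (key k f hf)
  rwa [D_succ', h1.dX_eq]

theorem Sm.add {f g : CI} (hf : Sm f) (hg : Sm g) : Sm (f + g) :=
  (sm_of_seq (c := fun k => Ex.D k f + Ex.D k g) fun k => (hf k).add (hg k)).1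

theorem D_add {f g : CI} (hf : Sm f) (hg : Sm g) (k : ℕ) : D k (f + g) = D k f + D k g :=
  (sm_of_seq (c := fun k => D k f + D k g) fun k => (hf k).add (hg k)).2 k

theorem Sm.sub {f g : CI} (hf : Sm f) (hg : Sm g) : Sm (f - g) :=
  (sm_of_seq (c := fun k => Ex.D k f - Ex.D k g) fun k => (hf k).sub (hg k)).1

theorem D_sub {f g : CI} (hf : Sm f) (hg : Sm g) (k : ℕ) : D k (f - g) = D k f - D k g :=
  (sm_of_seq (c := fun k => D k f - D k g) fun k => (hf k).sub (hg k)).2 k

theorem Sm.smul {f : CI} (c : ℝ) (hf : Sm f) : Sm (c • f) :=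
  (sm_of_seq (c := fun k => c • Ex.D k f) fun k => (hf k).smul c).1

theorem D_smul {f : CI} (c : ℝ) (hf : Sm f) (k : ℕ) : D k (c • f) = c • D k f :=
  (sm_of_seq (c := fun k => c • D k f) fun k => (hf k).smul c).2 k

theorem sm_pe (p : Polynomial ℝ) : Sm (pe p) :=
  (sm_of_seq (c := fun k => pe (Polynomial.derivative^[k] p)) fun k => by
    rw [Function.iterate_succ_apply']; exact isD_pe _).1

theorem D_pe (p : Polynomial ℝ) (k : ℕ) : D k (pe p) = pe (Polynomial.derivative^[k] p) :=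
  (sm_of_seq (c := fun k => pe (Polynomial.derivative^[k] p)) fun k => by
    rw [Function.iterate_succ_apply']; exact isD_pe _).2 k

theorem sm_zero : Sm 0 := (sm_of_seq (c := fun _ => (0 : CI)) fun _ => isD_zero).1

theorem D_zero_fun (k : ℕ) : D k 0 = 0 :=
  (sm_of_seq (c := fun _ => (0 : CI)) fun _ => isD_zero).2 k

theorem sm_const (c : ℝ) : Sm (ContinuousMap.const _ c) := sm_of_isD (isD_const c) sm_zero

theorem D_const (c : ℝ) (k : ℕ) : D (k + 1) (ContinuousMap.const _ c) = 0 := by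
  rw [D_succ, (isD_const c).dX_eq, D_zero_fun]

theorem sm_sum {ι : Type*} (s : Finset ι) {f : ι → CI} (h : ∀ i ∈ s, Sm (f i)) :
    Sm (∑ i ∈ s, f i) := by
  classical
  induction s using Finset.induction_on with
  | empty => simpa using sm_zero
  | insert a s ha ih =>
    rw [Finset.sum_insert ha]
    exact (h a (Finset.mem_insert_self _ _)).add
      (ih fun i hi => h i (Finset.mem_insert_of_mem hi))

theorem Sm.mul {f g : CI} (hf : Sm f) (hg : Sm g) : Sm (f * g) := by
  refine sm_coind (fun h => ∃ l : List (CI × CI), (∀ z ∈ l, Sm z.1 ∧ Sm z.2) ∧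
    h = (l.map fun z => z.1 * z.2).sum) ?_ ⟨[(f, g)], by simpa using ⟨hf, hg⟩, by simp⟩
  rintro h ⟨l, hl, rfl⟩
  induction l with
  | nil => exact ⟨0, by simpa using isD_zero, [], by simp, by simp⟩
  | cons z l ih =>
    obtain ⟨g', h1, l', h2, h3⟩ := ih fun w hw => hl w (List.mem_cons_of_mem _ hw)
    obtain ⟨hz1, hz2⟩ := hl z List.mem_cons_self
    refine ⟨Ex.dX z.1 * z.2 + z.1 * Ex.dX z.2 + g', ?_,
      (Ex.dX z.1, z.2) :: (z.1, Ex.dX z.2) :: l', ?_, ?_⟩
    · simpa using (hz1.isD.mul hz2.isD).add h1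
    · intro w hw
      simp only [List.mem_cons] at hw
      rcases hw with rfl | rfl | hw
      · exact ⟨hz1.dX, hz2⟩
      · exact ⟨hz1, hz2.dX⟩
      · exact h2 w hw
    · simp [h3, add_assoc]

theorem dX_mul {f g : CI} (hf : Sm f) (hg : Sm g) : dX (f * g) = dX f * g + f * dX g :=
  (hf.isD.mul hg.isD).dX_eq

theorem D_succ_mul {f g : CI} (hf : Sm f) (hg : Sm g) (k : ℕ) :
    D (k + 1) (f * g) = D k (dX f * g) + D k (f * dX g) := by
  rw [D_succ, dX_mul hf hg, D_add (hf.dX.mul hg) (hf.mul hg.dX)]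

/-- The main terms of the Leibniz formula. -/
theorem leibniz_err (k : ℕ) : ∃ C : ℝ, 0 ≤ C ∧ ∀ (f g : CI) (A B : ℝ), Sm f → Sm g →
    (∀ j ≤ k, ‖D j f‖ ≤ A) → (∀ j ≤ k, ‖D j g‖ ≤ B) →
    ‖D (k + 1) (f * g) - D (k + 1) f * g - f * D (k + 1) g‖ ≤ C * A * B := by
  induction k with
  | zero =>
    refine ⟨0, le_rfl, fun f g A B hf hg _ _ => ?_⟩
    rw [zero_add, D_one, D_one, D_one, dX_mul hf hg]
    simp
  | succ k ih =>
    obtain ⟨C, hC, ih⟩ := ih
    refine ⟨2 * C + 2, by positivity, fun f g A B hf hg hA hB => ?_⟩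
    have hA0 : 0 ≤ A := (norm_nonneg _).trans (hA 0 (Nat.zero_le _))
    have hB0 : 0 ≤ B := (norm_nonneg _).trans (hB 0 (Nat.zero_le _))
    have e1 := ih (dX f) g A B hf.dX hg (fun j hj => by rw [← D_succ]; exact hA _ (by omega))
      (fun j hj => hB _ (by omega))
    have e2 := ih f (dX g) A B hf hg.dX (fun j hj => hA _ (by omega))
      (fun j hj => by rw [← D_succ]; exact hB _ (by omega))
    have e3 : ‖dX f * D (k + 1) g‖ ≤ A * B :=
      (norm_mul_le _ _).trans (mul_le_mul (hA 1 (by omega)) (hB _ le_rfl) (norm_nonneg _) hA0)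
    have e4 : ‖D (k + 1) f * dX g‖ ≤ A * B :=
      (norm_mul_le _ _).trans (mul_le_mul (hA _ le_rfl) (hB 1 (by omega)) (norm_nonneg _) hA0)
    rw [← D_succ] at e1 e2
    have key : D (k + 1 + 1) (f * g) - D (k + 1 + 1) f * g - f * D (k + 1 + 1) g
        = (D (k + 1) (dX f * g) - D (k + 1 + 1) f * g - dX f * D (k + 1) g)
          + (D (k + 1) (f * dX g) - D (k + 1) f * dX g - f * D (k + 1 + 1) g)
          + dX f * D (k + 1) g + D (k + 1) f * dX g := by
      rw [D_succ_mul hf hg]; ring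
    rw [key]
    refine (norm_add_le _ _).trans ?_
    refine (add_le_add_left (norm_add_le _ _) _).trans ?_
    refine (add_le_add_left (add_le_add_left (norm_add_le _ _) _) _).trans ?_
    nlinarith

/-- Composition with a continuous function. -/
noncomputable def nem (r : ℝ → ℝ) (hr : Continuous r) (f : CI) : CI :=
  ⟨fun x => r (f x), hr.comp f.continuous⟩

@[simp] theorem ex_nem (r : ℝ → ℝ) (hr : Continuous r) (f : CI) (x : ℝ) :
    ex (nem r hr f) x = r (ex f x) := rfl

theorem contDiff_deriv {r : ℝ → ℝ} (hr : ContDiff ℝ ∞ r) : ContDiff ℝ ∞ (deriv r) :=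
  (contDiff_infty_iff_deriv.1 hr).2

theorem IsD.nem {r : ℝ → ℝ} (hr : ContDiff ℝ ∞ r) {f g : CI} (h : IsD f g) :
    IsD (nem r hr.continuous f) (nem (deriv r) (contDiff_deriv hr).continuous f * g) := by
  intro x hx
  have h1 : HasDerivAt r (deriv r (ex f x)) (ex f x) :=
    ((contDiff_infty_iff_deriv.1 hr).1 _).hasDerivAt
  exact h1.comp_hasDerivWithinAt x (h x hx)

theorem Sm.nem {r : ℝ → ℝ} (hr : ContDiff ℝ ∞ r) {f : CI} (hf : Sm f) :
    Sm (nem r hr.continuous f) := by
  refine sm_coind (fun h => ∃ l : List ({r : ℝ → ℝ // ContDiff ℝ ∞ r} × CI), (∀ z ∈ l, Sm z.2) ∧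
    h = (l.map fun z => Ex.nem z.1.1 z.1.2.continuous f * z.2).sum) ?_
    ⟨[(⟨r, hr⟩, 1)], by simpa using sm_const 1, by simp⟩
  rintro h ⟨l, hl, rfl⟩
  induction l with
  | nil => exact ⟨0, by simpa using isD_zero, [], by simp, by simp⟩
  | cons z l ih =>
    obtain ⟨g', h1, l', h2, h3⟩ := ih fun w hw => hl w (List.mem_cons_of_mem _ hw)
    have hz := hl z List.mem_cons_self
    refine ⟨_, by simpa using ((hf.isD.nem z.1.2).mul hz.isD).add h1,
      (⟨deriv z.1.1, contDiff_deriv z.1.2⟩, Ex.dX f * z.2) :: (z.1, Ex.dX z.2) :: l', ?_, ?_⟩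
    · intro w hw
      simp only [List.mem_cons] at hw
      rcases hw with rfl | rfl | hw
      · exact hf.dX.mul hz
      · exact hz.dX
      · exact h2 w hw
    · simp [h3, add_assoc, mul_assoc]

theorem D_succ_nem {r : ℝ → ℝ} (hr : ContDiff ℝ ∞ r) {f : CI} (hf : Sm f) (k : ℕ) :
    D (k + 1) (nem r hr.continuous f)
      = D k (nem (deriv r) (contDiff_deriv hr).continuous f * dX f) := by
  rw [D_succ, (hf.isD.nem hr).dX_eq]

/-- Interpolation along a filter: smallness in the sup norm and bounds on all derivatives give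
smallness of all derivatives, uniformly in a parameter. -/
theorem small_of_bounded {ι κ : Type*} {l : Filter ι} {d : ι → κ → CI} {S : Set κ}
    (hs : ∀ i, ∀ z ∈ S, Sm (d i z))
    (hb : ∀ k, ∃ M, ∀ᶠ i in l, ∀ z ∈ S, ‖D k (d i z)‖ ≤ M)
    (h0 : ∀ ε > 0, ∀ᶠ i in l, ∀ z ∈ S, ‖d i z‖ ≤ ε) :
    ∀ k, ∀ ε > 0, ∀ᶠ i in l, ∀ z ∈ S, ‖D k (d i z)‖ ≤ ε := by
  intro k
  induction k with
  | zero => exact h0
  | succ k ih =>
    intro ε hε
    obtain ⟨M, hM⟩ := hb (k + 2)
    set r : ℝ := min (1 / 2) (ε / (2 * (|M| + 1))) with hr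
    have hr0 : 0 < r := lt_min (by norm_num) (by positivity)
    have hr1 : r ≤ 1 / 2 := min_le_left _ _
    have hr2 : r * (|M| + 1) ≤ ε / 2 := by
      have : r ≤ ε / (2 * (|M| + 1)) := min_le_right _ _
      rw [le_div_iff₀ (by positivity)] at this
      linarith
    filter_upwards [hM, ih (ε * r / 4) (by positivity)] with i h1 h2 z hz
    have h3 := norm_deriv_le (hs i z hz k) (hs i z hz (k + 1)) hr0 hr1
    have h4 : 2 * ‖D k (d i z)‖ / r ≤ ε / 2 := by
      rw [div_le_iff₀ hr0]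
      linarith [h2 z hz]
    have h5 : r * ‖D (k + 1 + 1) (d i z)‖ ≤ r * (|M| + 1) :=
      mul_le_mul_of_nonneg_left ((h1 z hz).trans ((le_abs_self M).trans (by linarith))) hr0.le
    linarith

/-- Continuity of all derivatives from continuity in the sup norm and local bounds. -/
theorem tendsto_D_of_bounded {ι : Type*} {l : Filter ι} {g : ι → CI} {g₀ : CI}
    (hs : ∀ i, Sm (g i)) (hs₀ : Sm g₀) (hb : ∀ k, ∃ M, ∀ᶠ i in l, ‖D k (g i)‖ ≤ M)
    (h0 : Tendsto g l (𝓝 g₀)) (k : ℕ) : Tendsto (fun i => D k (g i)) l (𝓝 (D k g₀)) := by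
  have key := small_of_bounded (l := l) (d := fun i (_ : Unit) => g i - g₀) (S := univ)
    (fun i _ _ => (hs i).sub hs₀) ?_ ?_ k
  · rw [tendsto_iff_norm_sub_tendsto_zero, Metric.tendsto_nhds]
    intro ε hε
    filter_upwards [key (ε / 2) (by positivity)] with i hi
    have := hi () (mem_univ _)
    rw [D_sub (hs i) hs₀] at this
    rw [Real.dist_eq, sub_zero, abs_of_nonneg (norm_nonneg _)]
    linarith
  · intro k
    obtain ⟨M, hM⟩ := hb k
    refine ⟨M + ‖D k g₀‖, ?_⟩
    filter_upwards [hM] with i hi _ _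
    rw [D_sub (hs i) hs₀]
    exact (norm_sub_le _ _).trans (by linarith)
  · intro ε hε
    rw [tendsto_iff_norm_sub_tendsto_zero, Metric.tendsto_nhds] at h0
    filter_upwards [h0 ε hε] with i hi _ _
    rw [Real.dist_eq, sub_zero, abs_of_nonneg (norm_nonneg _)] at hi
    exact hi.le

end Vale.Agent.P244Z.Ex
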