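import Vale.Agent.P244Z.Ex.PolySG
import Vale.Agent.P244Z.Ex.Smooth
import Mathlib.Analysis.Normed.Operator.Extend
import Mathlib.Analysis.SpecialFunctions.Sqrt

/-!
The Jacobi semigroup on `C[0,1]`, the semigroups acting on the `k`-th derivative, and Duhamel's
formula.
-/

namespace Vale.Agent.P244Z.Ex

open Set Filter Topology Polynomial MeasureTheory

/-- Extension to `C[0,1]` of a linear operator on polynomials. -/
noncomputable def extOp (Φ : ℝ[X] →ₗ[ℝ] ℝ[X]) : CI →L[ℝ] CI :=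
  (pe.toLinearMap.comp Φ).extendOfNorm pe.toLinearMap

theorem extOp_pe {Φ : ℝ[X] →ₗ[ℝ] ℝ[X]} {C : ℝ} (h : ∀ p, ‖pe (Φ p)‖ ≤ C * ‖pe p‖) (p : ℝ[X]) :
    extOp Φ (pe p) = pe (Φ p) :=
  LinearMap.extendOfNorm_eq (f := pe.toLinearMap.comp Φ) (e := pe.toLinearMap) denseRange_pe
    ⟨C, h⟩ p

theorem norm_extOp_le {Φ : ℝ[X] →ₗ[ℝ] ℝ[X]} {C : ℝ} (h : ∀ p, ‖pe (Φ p)‖ ≤ C * ‖pe p‖) (f : CI) :
    ‖extOp Φ f‖ ≤ C * ‖f‖ :=
  LinearMap.norm_extendOfNorm_apply_le (f := pe.toLinearMap.comp Φ) (e := pe.toLinearMap)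
    denseRange_pe C h f

/-- The weight `x(1-x)`. -/
noncomputable def wt : CI := pe (X * (1 - X))

/-- The drift `2μ(1-x) - 2νx`. -/
noncomputable def bd (μ ν : ℝ) : CI := pe (C (2 * μ) - C (2 * (μ + ν)) * X)

theorem ex_wt {x : ℝ} (hx : x ∈ Icc (0 : ℝ) 1) : ex wt x = x * (1 - x) := by
  simp [wt, ex_pe _ hx, -map_mul]

theorem ex_bd (μ ν : ℝ) {x : ℝ} (hx : x ∈ Icc (0 : ℝ) 1) :
    ex (bd μ ν) x = 2 * μ * (1 - x) - 2 * ν * x := by
  rw [bd, ex_pe _ hx]
  simp only [eval_sub, eval_mul, eval_C, eval_X]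
  ring

theorem sm_wt : Sm wt := sm_pe _

theorem norm_wt_le : ‖wt‖ ≤ 1 := norm_le_of_ex fun x hx => by
  rw [ex_wt hx, abs_le]
  constructor <;> nlinarith [hx.1, hx.2]

/-- The Jacobi operator in terms of the first two derivatives. -/
noncomputable def Lop (μ ν : ℝ) (f1 f2 : CI) : CI := (4 : ℝ) • (wt * f2) + bd μ ν * f1

theorem pe_Lp (μ ν : ℝ) (p : ℝ[X]) :
    pe (Lp μ ν p) = Lop μ ν (pe (derivative p)) (pe (derivative (derivative p))) :=
  ext_ex fun x hx => by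
    simp only [Lop, ex_add, ex_smul, ex_mul, ex_pe _ hx, eval_Lp, ex_wt hx, ex_bd _ _ hx]
    ring

/-- The Jacobi semigroup (the identity for negative times). -/
noncomputable def P (μ ν t : ℝ) : CI →L[ℝ] CI := extOp (Pp μ ν (max t 0))

variable {μ ν : ℝ}

theorem P_pe (hμ : 0 < μ) (hν : 0 ≤ ν) (t : ℝ) (p : ℝ[X]) :
    P μ ν t (pe p) = pe (Pp μ ν (max t 0) p) :=
  extOp_pe (C := 1) (fun q => by rw [one_mul]; exact norm_Pp_le hμ hν q (le_max_right _ _)) p

theorem norm_P_le (hμ : 0 < μ) (hν : 0 ≤ ν) (t : ℝ) (f : CI) : ‖P μ ν t f‖ ≤ ‖f‖ := by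
  have := norm_extOp_le (Φ := Pp μ ν (max t 0)) (C := 1)
    (fun q => by rw [one_mul]; exact norm_Pp_le hμ hν q (le_max_right _ _)) f
  rwa [one_mul] at this

theorem P_zero (hμ : 0 < μ) (hν : 0 ≤ ν) (f : CI) : P μ ν 0 f = f := by
  refine denseRange_pe.induction_on f (isClosed_eq (by fun_prop) continuous_id) fun p => ?_
  rw [P_pe hμ hν, max_self, Pp_zero hμ hν]

theorem P_add (hμ : 0 < μ) (hν : 0 ≤ ν) {s t : ℝ} (hs : 0 ≤ s) (ht : 0 ≤ t) (f : CI) :
    P μ ν (s + t) f = P μ ν s (P μ ν t f) := by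
  refine denseRange_pe.induction_on f (isClosed_eq (by fun_prop) (by fun_prop)) fun p => ?_
  rw [P_pe hμ hν, P_pe hμ hν, P_pe hμ hν, max_eq_left hs, max_eq_left ht,
    max_eq_left (add_nonneg hs ht), Pp_add hμ hν]

theorem continuous_P (hμ : 0 < μ) (hν : 0 ≤ ν) :
    Continuous fun z : CI × ℝ => P μ ν z.2 z.1 := by
  refine continuous_prod_of_dense_continuous_lipschitzWith _ 1 denseRange_pe ?_ fun t => ?_
  · rintro _ ⟨p, rfl⟩
    simp only [P_pe hμ hν]
    have h : Continuous fun s => pe (Pp μ ν s p) := continuous_iff_continuousAt.2 fun s =>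
      (hasDerivAt_Pp hμ hν pe.toLinearMap p s).continuousAt
    exact h.comp (continuous_id.max continuous_const)
  · refine LipschitzWith.of_dist_le_mul fun f g => ?_
    rw [dist_eq_norm, dist_eq_norm, ← map_sub, NNReal.coe_one, one_mul]
    exact norm_P_le hμ hν t _

theorem continuous_P_comp (hμ : 0 < μ) (hν : 0 ≤ ν) {Z : Type*} [TopologicalSpace Z]
    {f : Z → CI} {t : Z → ℝ} (hf : Continuous f) (ht : Continuous t) :
    Continuous fun z => P μ ν (t z) (f z) := by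
  have := (continuous_P hμ hν).comp (hf.prodMk ht)
  simpa only [Function.comp_def] using this

theorem isD_P (hμ : 0 < μ) (hν : 0 ≤ ν) (t : ℝ) {f g : CI} (h : IsD f g) :
    IsD (P μ ν t f) (Real.exp (-(2 * (μ + ν) * max t 0)) • P (μ + 2) (ν + 2) t g) := by
  refine isD_induction (Q := fun f g => IsD (P μ ν t f)
    (Real.exp (-(2 * (μ + ν) * max t 0)) • P (μ + 2) (ν + 2) t g)) ?_ (fun p => ?_) h
  · exact isClosed_isD.preimage (f := fun z : CI × CI => (P μ ν t z.1,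
      Real.exp (-(2 * (μ + ν) * max t 0)) • P (μ + 2) (ν + 2) t z.2)) (by fun_prop)
  · rw [P_pe hμ hν, P_pe (by linarith) (by linarith), ← derivative_Pp hμ hν p (le_max_right _ _)]
    exact isD_pe _

theorem smoothing_P (hμ : 1 ≤ μ) (hν : 1 ≤ ν) {t : ℝ} (ht : 0 < t) {f g : CI} (h : IsD f g) :
    ‖wt * (Real.exp (-(2 * (μ + ν) * max t 0)) • P (μ + 2) (ν + 2) t g)‖ ≤ ‖f‖ / √t := by
  refine isD_induction (Q := fun f g =>
    ‖wt * (Real.exp (-(2 * (μ + ν) * max t 0)) • P (μ + 2) (ν + 2) t g)‖ ≤ ‖f‖ / √t) ?_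
    (fun p => ?_) h
  · exact isClosed_le (by fun_prop) (by fun_prop)
  · rw [P_pe (by linarith) (by linarith),
      ← derivative_Pp (by linarith) (by linarith) p (le_max_right _ _), max_eq_left ht.le]
    refine norm_le_of_ex fun x hx => ?_
    have hb := bernstein hμ hν p ht.le hx
    rw [ex_mul, ex_wt hx, ex_pe _ hx]
    have hs : 0 < √t := Real.sqrt_pos.2 ht
    rw [le_div_iff₀ hs]
    refine abs_le_of_sq_le_sq' ?_ (norm_nonneg _) |>.2
    rw [mul_pow, sq_abs, Real.sq_sqrt ht.le, mul_pow]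
    have h1 : 0 ≤ x * (1 - x) := mul_nonneg hx.1 (sub_nonneg.2 hx.2)
    have h2 : x * (1 - x) ≤ 1 := by nlinarith [hx.1, hx.2]
    have h3 : 0 ≤ t * (x * (1 - x)) * eval x (derivative (Pp μ ν t p)) ^ 2 := by positivity
    nlinarith

theorem P_eq_integral (hμ : 0 < μ) (hν : 0 ≤ ν) {t : ℝ} (ht : 0 ≤ t) {f f1 f2 : CI}
    (h1 : IsD f f1) (h2 : IsD f1 f2) :
    P μ ν t f = f + ∫ s in (0 : ℝ)..t, P μ ν s (Lop μ ν f1 f2) := by
  refine isD_induction₂ (Q := fun f f1 f2 =>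
    P μ ν t f = f + ∫ s in (0 : ℝ)..t, P μ ν s (Lop μ ν f1 f2)) ?_ (fun p => ?_) h1 h2
  · refine isClosed_eq (by fun_prop) (continuous_fst.add ?_)
    refine intervalIntegral.continuous_parametric_intervalIntegral_of_continuous'
      (f := fun (z : CI × CI × CI) s => P μ ν s (Lop μ ν z.2.1 z.2.2)) ?_ 0 t
    have h : Continuous fun y : (CI × CI × CI) × ℝ => Lop μ ν y.1.2.1 y.1.2.2 := by
      unfold Lop; fun_prop
    have h' := continuous_P_comp hμ hν h continuous_snd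
    simpa only [Function.uncurry_def] using h'
  · rw [← pe_Lp, P_pe hμ hν, max_eq_left ht]
    have h3 : ∫ s in (0 : ℝ)..t, P μ ν s (pe (Lp μ ν p))
        = ∫ s in (0 : ℝ)..t, pe (Lp μ ν (Pp μ ν s p)) := by
      refine intervalIntegral.integral_congr fun s hs => ?_
      rw [uIcc_of_le ht] at hs
      simp only [P_pe hμ hν, max_eq_left hs.1, Lp_Pp hμ hν]
    have h4 : Continuous fun s => pe (Lp μ ν (Pp μ ν s p)) := continuous_iff_continuousAt.2 fun s =>
      (hasDerivAt_Pp hμ hν (pe.toLinearMap.comp (Lp μ ν)) p s).continuousAt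
    rw [h3, intervalIntegral.integral_eq_sub_of_hasDerivAt
      (f := fun s => pe (Pp μ ν s p)) (f' := fun s => pe (Lp μ ν (Pp μ ν s p)))
      (fun s _ => hasDerivAt_Pp hμ hν pe.toLinearMap p s)
      (h4.intervalIntegrable _ _), Pp_zero hμ hν]
    abel

theorem hasDerivWithinAt_P_zero (hμ : 0 < μ) (hν : 0 ≤ ν) {f f1 f2 : CI}
    (h1 : IsD f f1) (h2 : IsD f1 f2) :
    HasDerivWithinAt (fun t => P μ ν t f) (Lop μ ν f1 f2) (Ici 0) 0 := by
  have hc : Continuous fun s => P μ ν s (Lop μ ν f1 f2) :=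
    continuous_P_comp hμ hν continuous_const continuous_id
  have h3 := ((hc.integral_hasStrictDerivAt 0 0).hasDerivAt.const_add f).hasDerivWithinAt
    (s := Ici 0)
  rw [P_zero hμ hν] at h3
  exact h3.congr (fun t ht => P_eq_integral hμ hν ht h1 h2) (P_eq_integral hμ hν le_rfl h1 h2)

/-- The semigroup acting on the `k`-th derivative. -/
noncomputable def S (μ ν : ℝ) (k : ℕ) (t : ℝ) : CI →L[ℝ] CI :=
  Real.exp (-(lam μ ν k * max t 0)) • P (μ + 2 * k) (ν + 2 * k) t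

theorem S_apply (k : ℕ) (t : ℝ) (f : CI) :
    S μ ν k t f = Real.exp (-(lam μ ν k * max t 0)) • P (μ + 2 * k) (ν + 2 * k) t f := rfl

theorem lam_nonneg (hμ : 0 ≤ μ) (hν : 0 ≤ ν) (k : ℕ) : 0 ≤ lam μ ν k := by
  rcases k with _ | k
  · simp [lam]
  · simp only [lam]
    push_cast
    have : (0 : ℝ) ≤ k := Nat.cast_nonneg k
    have : 0 ≤ 4 * ((k : ℝ) + 1) * (k + 1 - 1) := by rw [add_sub_cancel_right]; positivity
    positivity

theorem exp_lam_le (hμ : 0 ≤ μ) (hν : 0 ≤ ν) (k : ℕ) (t : ℝ) :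
    Real.exp (-(lam μ ν k * max t 0)) ≤ 1 := by
  rw [Real.exp_le_one_iff, neg_nonpos]
  exact mul_nonneg (lam_nonneg hμ hν k) (le_max_right _ _)

section
variable (hμ : 1 ≤ μ) (hν : 1 ≤ ν)
include hμ hν

theorem mu_k (k : ℕ) : 1 ≤ μ + 2 * k ∧ 1 ≤ ν + 2 * k := by
  have : (0 : ℝ) ≤ k := Nat.cast_nonneg k
  constructor <;> linarith

theorem norm_S_le (k : ℕ) (t : ℝ) (f : CI) : ‖S μ ν k t f‖ ≤ ‖f‖ := by
  obtain ⟨h1, h2⟩ := mu_k hμ hν k
  rw [S_apply, norm_smul, Real.norm_eq_abs, abs_of_pos (Real.exp_pos _)]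
  refine (mul_le_of_le_one_left (norm_nonneg _) (exp_lam_le (by linarith) (by linarith) k t)).trans ?_
  exact norm_P_le (by linarith) (by linarith) t f

theorem S_zero (k : ℕ) (f : CI) : S μ ν k 0 f = f := by
  obtain ⟨h1, h2⟩ := mu_k hμ hν k
  rw [S_apply, P_zero (by linarith) (by linarith)]
  simp

theorem S_add (k : ℕ) {s t : ℝ} (hs : 0 ≤ s) (ht : 0 ≤ t) (f : CI) :
    S μ ν k (s + t) f = S μ ν k s (S μ ν k t f) := by
  obtain ⟨h1, h2⟩ := mu_k hμ hν k
  rw [S_apply, S_apply, S_apply, P_add (by linarith) (by linarith) hs ht, map_smul, smul_smul,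
    ← Real.exp_add, max_eq_left hs, max_eq_left ht, max_eq_left (add_nonneg hs ht)]
  congr 2
  ring

theorem continuous_S (k : ℕ) {Z : Type*} [TopologicalSpace Z]
    {f : Z → CI} {t : Z → ℝ} (hf : Continuous f) (ht : Continuous t) :
    Continuous fun z => S μ ν k (t z) (f z) := by
  obtain ⟨h1, h2⟩ := mu_k hμ hν k
  simp only [S_apply]
  have h3 : Continuous fun z => Real.exp (-(lam μ ν k * max (t z) 0)) := by fun_prop
  exact h3.smul (continuous_P_comp (by linarith) (by linarith) hf ht)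

omit hμ hν in
theorem S_succ_eq (k : ℕ) (t : ℝ) (g : CI) : S μ ν (k + 1) t g =
    Real.exp (-(lam μ ν k * max t 0)) • (Real.exp (-(2 * (μ + 2 * k + (ν + 2 * k)) * max t 0)) •
      P (μ + 2 * k + 2) (ν + 2 * k + 2) t g) := by
  rw [S_apply, smul_smul, ← Real.exp_add]
  have e1 : μ + 2 * ((k + 1 : ℕ) : ℝ) = μ + 2 * k + 2 := by push_cast; ring
  have e2 : ν + 2 * ((k + 1 : ℕ) : ℝ) = ν + 2 * k + 2 := by push_cast; ring
  rw [e1, e2]
  congr 2
  simp only [lam]
  push_cast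
  ring

theorem isD_S (k : ℕ) (t : ℝ) {f g : CI} (h : IsD f g) :
    IsD (S μ ν k t f) (S μ ν (k + 1) t g) := by
  obtain ⟨h1, h2⟩ := mu_k hμ hν k
  rw [S_succ_eq, S_apply]
  exact (isD_P (by linarith) (by linarith) t h).smul _

theorem smoothing_S (k : ℕ) {t : ℝ} (ht : 0 < t) {f g : CI} (h : IsD f g) :
    ‖wt * S μ ν (k + 1) t g‖ ≤ ‖f‖ / √t := by
  obtain ⟨h1, h2⟩ := mu_k hμ hν k
  rw [S_succ_eq, mul_smul_comm, norm_smul, Real.norm_eq_abs, abs_of_pos (Real.exp_pos _)]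
  refine (mul_le_of_le_one_left (norm_nonneg _) (exp_lam_le (by linarith) (by linarith) k t)).trans ?_
  exact smoothing_P h1 h2 ht h

theorem hasDerivWithinAt_S_zero (k : ℕ) {f f1 f2 : CI} (h1 : IsD f f1) (h2 : IsD f1 f2) :
    HasDerivWithinAt (fun t => S μ ν k t f)
      (Lop (μ + 2 * k) (ν + 2 * k) f1 f2 - lam μ ν k • f) (Ici 0) 0 := by
  obtain ⟨e1, e2⟩ := mu_k hμ hν k
  have h3 := hasDerivWithinAt_P_zero (μ := μ + 2 * k) (ν := ν + 2 * k) (by linarith) (by linarith)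
    h1 h2
  have h4 := ((((hasDerivAt_id (0 : ℝ)).const_mul (lam μ ν k)).neg.exp).hasDerivWithinAt
    (s := Ici 0)).smul h3
  rw [P_zero (by linarith) (by linarith)] at h4
  refine (h4.congr (fun t ht => ?_) ?_).congr_deriv ?_
  · simp only [S_apply, max_eq_left (show (0 : ℝ) ≤ t from ht), id, Pi.smul_apply', Pi.neg_apply]
  · simp only [S_apply, max_self, id, Pi.smul_apply', Pi.neg_apply]
  · simp [sub_eq_add_neg]

end

theorem hasDerivAt_integral_diag {E : Type*} [NormedAddCommGroup E] [NormedSpace ℝ E]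
    [CompleteSpace E] {F : ℝ → ℝ → E} (hF : Continuous fun z : ℝ × ℝ => F z.1 z.2) (t : ℝ) :
    HasDerivAt (fun r => ∫ s in t..r, F r s) (F t t) t := by
  rw [hasDerivAt_iff_isLittleO, Asymptotics.isLittleO_iff]
  intro c hc
  obtain ⟨δ, hδ, h⟩ := Metric.continuous_iff.1 hF (t, t) c hc
  filter_upwards [Metric.ball_mem_nhds t hδ] with r hr
  have hi : IntervalIntegrable (F r) volume t r :=
    (hF.comp (continuous_const.prodMk continuous_id)).intervalIntegrable _ _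
  have e : (∫ s in t..r, F r s) - (∫ s in t..t, F t s) - (r - t) • F t t
      = ∫ s in t..r, (F r s - F t t) := by
    rw [intervalIntegral.integral_sub hi intervalIntegrable_const, intervalIntegral.integral_same,
      intervalIntegral.integral_const, sub_zero]
  rw [e]
  refine intervalIntegral.norm_integral_le_of_norm_le_const fun s hs => ?_
  have h1 : dist s t ≤ dist r t := by
    rw [Real.dist_eq, Real.dist_eq]
    exact abs_sub_left_of_mem_uIcc (uIoc_subset_uIcc hs)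
  have h2 := h (r, s) (by
    rw [Prod.dist_eq]
    exact max_lt hr (h1.trans_lt hr))
  rw [dist_eq_norm] at h2
  exact h2.le

/-- Duhamel's formula on the level of the `k`-th derivative. -/
noncomputable def duh (μ ν : ℝ) (k : ℕ) (u₀ : CI) (g : ℝ → CI) (t : ℝ) : CI :=
  S μ ν k t u₀ + ∫ s in (0 : ℝ)..t, S μ ν k (t - s) (g s)

section
variable (hμ : 1 ≤ μ) (hν : 1 ≤ ν)
include hμ hν

theorem continuous_S_comp (k : ℕ) {g : ℝ → CI} (hg : Continuous g) :
    Continuous fun z : ℝ × ℝ => S μ ν k (z.1 - z.2) (g z.2) :=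
  continuous_S hμ hν k (hg.comp continuous_snd) (continuous_fst.sub continuous_snd)

theorem intervalIntegrable_S (k : ℕ) {g : ℝ → CI} (hg : Continuous g) (t a b : ℝ) :
    IntervalIntegrable (fun s => S μ ν k (t - s) (g s)) volume a b :=
  (continuous_S hμ hν k hg (continuous_const.sub continuous_id)).intervalIntegrable _ _

theorem continuous_duh (k : ℕ) (u₀ : CI) {g : ℝ → CI} (hg : Continuous g) :
    Continuous (duh μ ν k u₀ g) := by
  refine Continuous.add (continuous_S hμ hν k continuous_const continuous_id) ?_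
  refine intervalIntegral.continuous_parametric_intervalIntegral_of_continuous
    (f := fun t s => S μ ν k (t - s) (g s)) ?_ continuous_id
  simpa only [Function.uncurry_def] using continuous_S_comp hμ hν k hg

theorem duh_zero (k : ℕ) (u₀ : CI) (g : ℝ → CI) : duh μ ν k u₀ g 0 = u₀ := by
  rw [duh, S_zero hμ hν, intervalIntegral.integral_same, add_zero]

theorem isD_duh (k : ℕ) {u₀ u₁ : CI} {g g₁ : ℝ → CI} (hg : Continuous g) (hg₁ : Continuous g₁)
    (h0 : IsD u₀ u₁) (h : ∀ s, IsD (g s) (g₁ s)) (t : ℝ) :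
    IsD (duh μ ν k u₀ g t) (duh μ ν (k + 1) u₁ g₁ t) :=
  (isD_S hμ hν k t h0).add (IsD.integral (intervalIntegrable_S hμ hν k hg t _ _)
    (intervalIntegrable_S hμ hν (k + 1) hg₁ t _ _) fun s _ => isD_S hμ hν k _ (h s))

theorem duh_add (k : ℕ) (u₀ : CI) {g : ℝ → CI} (hg : Continuous g) {t r : ℝ} (ht : 0 ≤ t)
    (hr : t ≤ r) : duh μ ν k u₀ g r
      = S μ ν k (r - t) (duh μ ν k u₀ g t) + ∫ s in t..r, S μ ν k (r - s) (g s) := by
  rw [duh, duh, map_add, ← S_add hμ hν k (sub_nonneg.2 hr) ht, sub_add_cancel,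
    ← (S μ ν k (r - t)).intervalIntegral_comp_comm (intervalIntegrable_S hμ hν k hg t _ _),
    ← intervalIntegral.integral_add_adjacent_intervals (intervalIntegrable_S hμ hν k hg r 0 t)
      (intervalIntegrable_S hμ hν k hg r t r), add_assoc]
  congr 2
  refine intervalIntegral.integral_congr fun s hs => ?_
  rw [uIcc_of_le ht] at hs
  rw [← S_add hμ hν k (sub_nonneg.2 hr) (sub_nonneg.2 hs.2)]
  congr 2
  ring

theorem hasDerivWithinAt_duh_right (k : ℕ) (u₀ : CI) {g : ℝ → CI} (hg : Continuous g) {t : ℝ}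
    (ht : 0 ≤ t) {v1 v2 : CI} (h1 : IsD (duh μ ν k u₀ g t) v1) (h2 : IsD v1 v2) :
    HasDerivWithinAt (duh μ ν k u₀ g)
      (Lop (μ + 2 * k) (ν + 2 * k) v1 v2 - lam μ ν k • duh μ ν k u₀ g t + g t) (Ici t) t := by
  have h3 := hasDerivWithinAt_S_zero hμ hν k h1 h2
  have h4 : HasDerivWithinAt (fun r => S μ ν k (r - t) (duh μ ν k u₀ g t))
      (Lop (μ + 2 * k) (ν + 2 * k) v1 v2 - lam μ ν k • duh μ ν k u₀ g t) (Ici t) t := by
    have h5 : HasDerivWithinAt (fun r : ℝ => r - t) 1 (Ici t) t :=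
      (hasDerivWithinAt_id t _).sub_const t
    have h6 := HasDerivWithinAt.scomp (x := t) (h := fun r : ℝ => r - t) (s := Ici t) (t' := Ici 0)
      (g₁ := fun t' => S μ ν k t' (duh μ ν k u₀ g t)) (by rw [sub_self]; exact h3) h5
      (fun r hr => show (0 : ℝ) ≤ r - t from sub_nonneg.2 hr)
    rw [one_smul] at h6
    exact h6
  have h7 := (hasDerivAt_integral_diag (F := fun r s => S μ ν k (r - s) (g s))
    (continuous_S_comp hμ hν k hg) t).hasDerivWithinAt (s := Ici t)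
  rw [sub_self, S_zero hμ hν] at h7
  exact (h4.add h7).congr (fun r hr => duh_add hμ hν k u₀ hg ht hr) (duh_add hμ hν k u₀ hg ht le_rfl)

end

/-- A continuous curve with a continuous right derivative is differentiable. -/
theorem hasDerivWithinAt_of_right {E : Type*} [NormedAddCommGroup E] [NormedSpace ℝ E]
    [CompleteSpace E] {v φ : ℝ → E} (hv : Continuous v) (hφ : Continuous φ)
    (h : ∀ t, 0 ≤ t → HasDerivWithinAt v (φ t) (Ici t) t) {t : ℝ} (ht : 0 ≤ t) :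
    HasDerivWithinAt v (φ t) (Ici 0) t := by
  have h1 : ∀ r, HasDerivAt (fun r => v 0 + ∫ s in (0 : ℝ)..r, φ s) (φ r) r := fun r =>
    (hφ.integral_hasStrictDerivAt 0 r).hasDerivAt.const_add _
  have h2 : ∀ r, 0 ≤ r → v r = v 0 + ∫ s in (0 : ℝ)..r, φ s := fun r hr =>
    eq_of_has_deriv_right_eq (a := 0) (b := r) (fun x hx => h x hx.1)
      (fun x _ => (h1 x).hasDerivWithinAt) hv.continuousOn
      (fun x _ => (h1 x).continuousAt.continuousWithinAt) (by simp) r ⟨hr, le_rfl⟩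
  exact (h1 t).hasDerivWithinAt.congr h2 (h2 t ht)

end Vale.Agent.P244Z.Ex
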