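import Vale.Agent.P244Z.Ex.Ops
import Mathlib.Analysis.Calculus.BumpFunction.InnerProduct
import Mathlib.Analysis.SpecialFunctions.SmoothTransition
import Mathlib.Topology.ContinuousMap.Units

/-!
The parabolic system for the doubly warped flow in the variable `x = sin ^ 2 θ`, and its
truncations.  A state is `(α, β, m, log l, sg)`; the input of the nonlinearity is
`(α, β, m, log l, 1 / f)`.
-/

namespace Vale.Agent.P244Z.Ex

open Set Filter Topology
open scoped ContDiff

/-- States. -/
abbrev St : Type := Fin 5 → CI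

/-- `f = 1 + x H`. -/
noncomputable def cH (α : CI) : CI := Hop (3 / 2) ((1 / 2 : ℝ) • α)
/-- `φ = l sin θ f`. -/
noncomputable def cf (α : CI) : CI := 1 + xx * cH α
/-- `φ_s = cos θ h`. -/
noncomputable def ch (α : CI) : CI := 1 + xx * α
/-- `1 - φ_s ^ 2 = x n`. -/
noncomputable def cn (α : CI) : CI := 1 - (1 - xx) * α * (1 + ch α)
/-- The function with value `m` at `0` and derivative `β / 2`. -/
noncomputable def cu (β m : CI) : CI := m + (1 / 2 : ℝ) • (xx * Hop 1 β)

theorem contDiff_exp_mul (c : ℝ) : ContDiff ℝ ∞ fun y : ℝ => Real.exp (c * y) := by fun_prop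

/-- `exp (c f)`. -/
noncomputable def expc (c : ℝ) (f : CI) : CI := nem _ (contDiff_exp_mul c).continuous f

/-- `h / f = 1 + x κ`. -/
noncomputable def vκ (v : St) : CI := (v 0 - cH (v 0)) * v 4
/-- `l ^ 2 exp (-2 u)`. -/
noncomputable def vE (v : St) : CI := expc (-2) (cu (v 1) (v 2))
/-- The source of the gauge equation. -/
noncomputable def vg (q : ℝ) (v : St) : CI :=
  (1 - xx) * (q • ((2 : ℝ) • vκ v + xx * (vκ v * vκ v)) + (2 : ℝ) • (xx * (v 1 * v 1)))
/-- The gauge function. -/
noncomputable def vω (q : ℝ) (v : St) : CI := Mop 1 (vg q v)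
/-- The gauge constant. -/
noncomputable def vb (q : ℝ) (v : St) : CI := Cop 1 (vg q v)

/-- The zero order terms. -/
noncomputable def AA (q : ℝ) (v : St) : St :=
  ![(-6 : ℝ) • v 0 + ((2 : ℝ) • vκ v + vω q v) * (ch (v 0) - (2 : ℝ) • ((1 - xx) * v 0))
      - (q - 1) • ((1 - xx) * (v 0 * v 0) * (1 + 1 + ch (v 0))
        + cH (v 0) * (1 + cf (v 0)) * (v 4 * v 4) * cn (v 0) * ch (v 0))
      - (2 : ℝ) • (ch (v 0) * (1 - xx) * (v 1 * v 1)),
    v 1 * ((-2 * (q + 2)) • 1 - (1 - (2 : ℝ) • xx) * vω q v - vg q v + vb q v + (2 : ℝ) • vE v),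
    ev0 ((q + 1) • v 1 - vE v + q • 1 - vb q v),
    ev0 (vb q v - q • 1),
    ev0 (-expc 2 (v 3))]

/-- The first order terms. -/
noncomputable def BB (q : ℝ) (v : St) : St :=
  ![(-2 : ℝ) • ((2 : ℝ) • vκ v + vω q v), (-2 : ℝ) • vω q v, 0, 0, 0]

/-- Functionals which are good for good inputs. -/
def Nice (F : St → CI) : Prop :=
  ∀ τ : St → St, (∀ j, Good fun u => τ u j) → Good fun u => F (τ u)

theorem sm_one : Sm (1 : CI) := sm_const 1

theorem nice_var (j : Fin 5) : Nice fun v => v j := fun _ h => h j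
theorem nice_one : Nice fun _ => 1 := fun _ _ => good_const sm_one
theorem nice_zero : Nice fun _ => 0 := fun _ _ => good_const sm_zero
theorem nice_xx : Nice fun _ => xx := fun _ _ => good_const sm_xx
theorem Nice.add {F G : St → CI} (hF : Nice F) (hG : Nice G) : Nice fun v => F v + G v :=
  fun τ h => (hF τ h).add (hG τ h)
theorem Nice.sub {F G : St → CI} (hF : Nice F) (hG : Nice G) : Nice fun v => F v - G v :=
  fun τ h => (hF τ h).sub (hG τ h)
theorem Nice.mul {F G : St → CI} (hF : Nice F) (hG : Nice G) : Nice fun v => F v * G v :=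
  fun τ h => (hF τ h).mul (hG τ h)
theorem Nice.neg {F : St → CI} (hF : Nice F) : Nice fun v => -F v := fun τ h => (hF τ h).neg
theorem Nice.smul {F : St → CI} (c : ℝ) (hF : Nice F) : Nice fun v => c • F v :=
  fun τ h => (hF τ h).smul c
theorem Nice.tri {F : St → CI} (hF : Nice F) {Ψ : CI →L[ℝ] CI} (hΨ : Tri Ψ) :
    Nice fun v => Ψ (F v) := fun τ h => (hF τ h).tri hΨ
theorem Nice.expc {F : St → CI} (c : ℝ) (hF : Nice F) : Nice fun v => expc c (F v) :=
  fun τ h => (hF τ h).nem (contDiff_exp_mul c)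

theorem nice_cH : Nice fun v => cH (v 0) := ((nice_var 0).smul _).tri (tri_Hop (by norm_num))
theorem nice_cf : Nice fun v => cf (v 0) := nice_one.add (nice_xx.mul nice_cH)
theorem nice_ch : Nice fun v => ch (v 0) := nice_one.add (nice_xx.mul (nice_var 0))
theorem nice_cn : Nice fun v => cn (v 0) :=
  nice_one.sub (((nice_one.sub nice_xx).mul (nice_var 0)).mul (nice_one.add nice_ch))
theorem nice_cu : Nice fun v => cu (v 1) (v 2) :=
  (nice_var 2).add ((nice_xx.mul ((nice_var 1).tri (tri_Hop one_pos))).smul _)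
theorem nice_vκ : Nice vκ := ((nice_var 0).sub nice_cH).mul (nice_var 4)
theorem nice_vE : Nice vE := nice_cu.expc _
theorem nice_vg (q : ℝ) : Nice (vg q) :=
  (nice_one.sub nice_xx).mul ((((nice_vκ.smul _).add (nice_xx.mul (nice_vκ.mul nice_vκ))).smul _).add
    ((nice_xx.mul ((nice_var 1).mul (nice_var 1))).smul _))
theorem nice_vω (q : ℝ) : Nice (vω q) := (nice_vg q).tri tri_Mop
theorem nice_vb (q : ℝ) : Nice (vb q) := (nice_vg q).tri (tri_Cop le_rfl)

theorem nice_AA (q : ℝ) (i : Fin 5) : Nice fun v => AA q v i := by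
  have h1 := nice_one.sub nice_xx
  fin_cases i
  · exact ((((nice_var 0).smul _).add (((nice_vκ.smul _).add (nice_vω q)).mul
      (nice_ch.sub ((h1.mul (nice_var 0)).smul _)))).sub
      ((((h1.mul ((nice_var 0).mul (nice_var 0))).mul ((nice_one.add nice_one).add nice_ch)).add
      ((((nice_cH.mul (nice_one.add nice_cf)).mul ((nice_var 4).mul (nice_var 4))).mul
        nice_cn).mul nice_ch)).smul _)).sub
      (((nice_ch.mul h1).mul ((nice_var 1).mul (nice_var 1))).smul _)
  · exact (nice_var 1).mul (((((nice_one.smul _).sub ((nice_one.sub (nice_xx.smul _)).mul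
      (nice_vω q))).sub (nice_vg q)).add (nice_vb q)).add (nice_vE.smul _))
  · exact (((((nice_var 1).smul _).sub nice_vE).add (nice_one.smul _)).sub (nice_vb q)).tri tri_ev0
  · exact ((nice_vb q).sub (nice_one.smul _)).tri tri_ev0
  · exact ((nice_var 3).expc _).neg.tri tri_ev0

theorem nice_BB (q : ℝ) (i : Fin 5) : Nice fun v => BB q v i := by
  fin_cases i
  · exact ((nice_vκ.smul _).add (nice_vω q)).smul _
  · exact (nice_vω q).smul _
  all_goals exact nice_zero

/-! ### Truncation -/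

theorem exists_clip (M : ℕ) : ∃ χ : ℝ → ℝ, ContDiff ℝ ∞ χ ∧ (∃ C, ∀ y, |χ y| ≤ C) ∧
    (∃ C, ∀ y, |deriv χ y| ≤ C) ∧ ∀ y : ℝ, |y| ≤ M → χ y = y := by
  let b : ContDiffBump (0 : ℝ) := ⟨M + 1, M + 2, by positivity, by linarith⟩
  have h1 : ContDiff ℝ ∞ fun y : ℝ => y * b y := contDiff_id.mul b.contDiff
  have h2 : HasCompactSupport fun y : ℝ => y * b y := b.hasCompactSupport.mul_left
  refine ⟨fun y => y * b y, h1, h2.exists_bound_of_continuous h1.continuous,
    h2.deriv.exists_bound_of_continuous (contDiff_deriv h1).continuous, fun y hy => ?_⟩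
  have : b y = 1 := b.one_of_mem_closedBall (by
    rw [mem_closedBall_zero_iff, Real.norm_eq_abs]
    exact hy.trans (le_add_of_nonneg_right zero_le_one))
  simp [this]

theorem exists_recip (M : ℕ) :
    ∃ r : ℝ → ℝ, ContDiff ℝ ∞ r ∧ ∀ y, 1 / (M + 1 : ℝ) ≤ y → y * r y = 1 := by
  have hM : (0 : ℝ) < M + 1 := by positivity
  refine ⟨fun y => Real.smoothTransition (2 * (M + 1) * y - 1) / y, ?_, fun y hy => ?_⟩
  · refine contDiff_iff_contDiffAt.2 fun y => ?_
    rcases eq_or_ne y 0 with rfl | hy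
    · refine (contDiffAt_const (c := 0)).congr_of_eventuallyEq ?_
      have : ∀ᶠ y : ℝ in 𝓝 0, 2 * (M + 1) * y - 1 < 0 :=
        ContinuousAt.eventually_lt (by fun_prop) continuousAt_const (by simp)
      filter_upwards [this] with y hy
      rw [Real.smoothTransition.zero_of_nonpos hy.le, zero_div]
    · exact (Real.smoothTransition.contDiffAt.comp y (by fun_prop)).div contDiffAt_id hy
  · have h0 : 0 < y := lt_of_lt_of_le (by positivity) hy
    rw [div_le_iff₀ hM] at hy
    show y * (Real.smoothTransition (2 * (M + 1) * y - 1) / y) = 1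
    rw [Real.smoothTransition.one_of_one_le (by linarith), mul_one_div_cancel h0.ne']

/-- A bounded smooth function which is the identity on `[-M, M]`. -/
noncomputable def clip (M : ℕ) (f : CI) : CI :=
  nem _ (exists_clip M).choose_spec.1.continuous f

/-- A smooth function which is `1 / y` for `y ≥ 1 / (M + 1)`. -/
noncomputable def recip (M : ℕ) (f : CI) : CI :=
  nem _ (exists_recip M).choose_spec.1.continuous f

theorem good_clip (M : ℕ) (i : Fin 5) : Good fun u : St => clip M (u i) := by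
  obtain ⟨h1, ⟨C, h2⟩, ⟨Λ, h3⟩, -⟩ := (exists_clip M).choose_spec
  exact good_var i h1 h2 h3

theorem clip_eq {M : ℕ} {f : CI} (h : ‖f‖ ≤ M) : clip M f = f :=
  ext_ex fun x _ => (exists_clip M).choose_spec.2.2.2 _ ((abs_ex_le f x).trans h)

theorem ev0_clip {M : ℕ} {f : CI} (h : |ex f 0| ≤ M) : ev0 (clip M f) = ev0 f := by
  rw [ev0_apply, ev0_apply]
  exact congrArg _ ((exists_clip M).choose_spec.2.2.2 _ h)

theorem mul_inverse_of_pos {f : CI} (h : ∀ x ∈ Icc (0 : ℝ) 1, 0 < ex f x) :
    f * Ring.inverse f = 1 :=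
  Ring.mul_inverse_cancel _ ((ContinuousMap.isUnit_iff_forall_ne_zero f).2 fun x => by
    simpa using (h x x.2).ne')

theorem recip_eq {M : ℕ} {f : CI} (h : ∀ x ∈ Icc (0 : ℝ) 1, 1 / (M + 1 : ℝ) < ex f x) :
    recip M f = Ring.inverse f := by
  have h1 : f * recip M f = 1 :=
    ext_ex fun x hx => (exists_recip M).choose_spec.2 _ (h x hx).le
  have h2 := mul_inverse_of_pos fun x hx => lt_trans (by positivity) (h x hx)
  exact left_inv_eq_right_inv (by rw [mul_comm]; exact h1) h2

/-- The input of the nonlinearity. -/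
noncomputable def inp (u : St) : St :=
  ![u 0, u 1, ev0 (u 2), ev0 (u 3), Ring.inverse (cf (u 0))]

/-- The truncated input. -/
noncomputable def inpM (M : ℕ) (u : St) : St :=
  ![clip M (u 0), clip M (u 1), ev0 (clip M (u 2)), ev0 (clip M (u 3)), recip M (cf (clip M (u 0)))]

theorem good_inpM (M : ℕ) (j : Fin 5) : Good fun u => inpM M u j := by
  fin_cases j
  · exact good_clip M 0
  · exact good_clip M 1
  · exact (good_clip M 2).tri tri_ev0
  · exact (good_clip M 3).tri tri_ev0
  · exact (nice_cf (fun u _ => clip M (u 0)) fun _ => good_clip M 0).nem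
      (exists_recip M).choose_spec.1

/-- The states for which the truncation at level `M` is not active. -/
def KM (M : ℕ) : Set St := {u | ‖u 0‖ < M ∧ ‖u 1‖ < M ∧ |ex (u 2) 0| < M ∧ |ex (u 3) 0| < M ∧
  ∀ x ∈ Icc (0 : ℝ) 1, 1 / (M + 1 : ℝ) < ex (cf (u 0)) x}

theorem continuous_cH : Continuous cH := by unfold cH; fun_prop
theorem continuous_cf : Continuous cf := by have := continuous_cH; unfold cf; fun_prop

theorem isOpen_KM (M : ℕ) : IsOpen (KM M) := by
  have he : ∀ i : Fin 5, Continuous fun u : St => |ex (u i) 0| :=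
    fun i => ((exL 0).continuous.comp (continuous_apply i)).abs
  refine (isOpen_lt (continuous_apply 0).norm continuous_const).inter
    ((isOpen_lt (continuous_apply 1).norm continuous_const).inter
    ((isOpen_lt (he 2) continuous_const).inter ((isOpen_lt (he 3) continuous_const).inter ?_)))
  refine isOpen_iff_mem_nhds.2 fun u hu => ?_
  refine isCompact_Icc.eventually_forall_of_forall_eventually fun x hx => ?_
  have : Continuous fun z : St × ℝ => ex (cf (z.1 0)) z.2 :=
    continuous_ex_uncurry.comp (f := fun z : St × ℝ => (cf (z.1 0), z.2))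
      ((continuous_cf.comp (by fun_prop)).prodMk continuous_snd)
  exact this.continuousAt.eventually (lt_mem_nhds (hu x hx))

theorem KM_mono {M M' : ℕ} (h : M ≤ M') : KM M ⊆ KM M' := fun u hu => by
  have h1 : (M : ℝ) ≤ M' := Nat.cast_le.2 h
  exact ⟨hu.1.trans_le h1, hu.2.1.trans_le h1, hu.2.2.1.trans_le h1, hu.2.2.2.1.trans_le h1,
    fun x hx => lt_of_le_of_lt (one_div_le_one_div_of_le (by positivity) (by linarith))
      (hu.2.2.2.2 x hx)⟩

theorem inpM_eq {M : ℕ} {u : St} (h : u ∈ KM M) : inpM M u = inp u := by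
  rw [inpM, inp, clip_eq h.1.le, clip_eq h.2.1.le, ev0_clip h.2.2.1.le, ev0_clip h.2.2.2.1.le,
    recip_eq h.2.2.2.2]

/-- The truncated nonlinearity. -/
noncomputable def GM (q : ℝ) (M : ℕ) : St → St :=
  rhs (fun i u => AA q (inpM M u) i) fun i u => BB q (inpM M u) i

theorem rhs_GM (q : ℝ) (M : ℕ) : Rhs (GM q M) :=
  rhs_of_good (fun i => nice_AA q i _ (good_inpM M)) fun i => nice_BB q i _ (good_inpM M)

theorem GM_eq (q : ℝ) {M : ℕ} {u : St} (h : u ∈ KM M) (i : Fin 5) :
    GM q M u i = AA q (inp u) i + BB q (inp u) i * (wt * dX (u i)) := by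
  rw [← inpM_eq h]; rfl

end Vale.Agent.P244Z.Ex
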